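import Vale.Agent.P287D.Ad.Main
import Vale.Agent.P287D.Cb.Kap
import Vale.Agent.P283R.Tp.St

/-!
# P283R, block H: the frame form of adjunction
-/

open Set
open Vale.Agent.P285N.Brep (jac Fr)

noncomputable section

namespace Vale.Agent.P283R.H

open Vale.Agent.P287D Vale.Agent.P287D.Cb

variable {K : Type} [Field K] [Algebra ℂ K] {n : ℕ} {P : Pl K}

theorem rd_det {ι : Type} [Fintype ι] [DecidableEq ι] {a : Matrix ι ι K}
    (h : ∀ i j, a i j ∈ P.ring) : P.rd a.det = (Matrix.of fun i j => P.rd (a i j)).det := by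
  let b : Matrix ι ι P.ring := Matrix.of fun i j => ⟨a i j, h i j⟩
  have e : a.det = (b.det : K) := (P.ring.subtype.map_det b).symm
  rw [e, rd_of b.det.2]
  refine ((IsLocalRing.residue P.ring).map_det b).trans ?_
  congr 1
  ext i j
  exact (rd_of (h i j)).symm

theorem rd_int (P : Pl K) (k : ℤ) : P.rd (k : K) = k := by
  have := rd_const (P := P) (k : ℂ)
  rwa [map_intCast, map_intCast] at this

theorem ind_of_fr {y : Fin n → K} {D : Fin n → Derivation ℂ K K} (h : Fr y D) :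
    AlgebraicIndependent ℂ y := (jac_ne_iff h y).1 (by rw [jac_self h]; exact one_ne_zero)

/-- the residue of the logarithmic Jacobian -/
theorem rd_jac (hK : FF K (n + 1)) {g : Fin (n + 1) → K} {D : Fin (n + 1) → Derivation ℂ K K}
    {D' : Fin n → Derivation ℂ P.κ P.κ} (hg : Fr g D) (g0 : g 0 = P.t)
    (g1 : ∀ i : Fin n, g i.succ ∈ P.ring) (hg' : Fr (fun i : Fin n => P.rd (g i.succ)) D')
    {φ : K} (φ0 : φ ≠ 0) {y : Fin n → K} (hy : ∀ i, y i ∈ P.ring) :
    P.t * φ⁻¹ * jac D (Fin.cons φ y) ∈ P.ring ∧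
      P.rd (P.t * φ⁻¹ * jac D (Fin.cons φ y)) = P.ord φ * jac D' fun i => P.rd (y i) := by
  have a : Ada P P.t fun i : Fin n => g i.succ := ⟨P.ord_t, g1, ind_of_fr hg'⟩
  have m : ∀ i j, D i (g j) ∈ P.ring := fun i j => by
    rw [hg.dual]
    split_ifs
    exacts [one_mem _, zero_mem _]
  have r : ∀ i, Rg P (D i) := fun i => a.rg hK (dr_of (D i)) (g0 ▸ m i 0) (fun j => m i j.succ)
    fun c => by rw [Derivation.map_algebraMap]; exact zero_mem _
  have z : ∀ i : Fin n, D i.succ P.t = 0 := fun i => by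
    rw [← g0, hg.dual, if_neg (Fin.succ_ne_zero i)]
  have l : ∀ i : Fin n, Lg P (D i.succ) := fun i =>
    (r _).lg (dr_of _) (y := P.t) (by rw [P.ord_t]; omega) (by rw [z, zero_div]; exact zero_mem _)
  have b : ∀ (i : Fin n), ∀ x ∈ P.ring, P.rd (D i.succ x) = D' i (P.rd x) := fun i x hx => by
    obtain ⟨e, he, k⟩ := (l i).bar (dr_of _)
    have r0 : P.rd 0 = 0 := by simpa using rd_int P 0
    have r1 : P.rd 1 = 1 := by simpa using rd_int P 1
    rw [← k x hx, expand he (fun c => by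
      rw [← rd_const, k _ (P.con c), Derivation.map_algebraMap, r0]) hg']
    rw [Finset.sum_eq_single i (fun j _ hj => by
      rw [k _ (g1 j), hg.dual, if_neg (fun e => hj (Fin.succ_injective _ e).symm), r0, zero_mul])
      (by simp), k _ (g1 i), hg.dual, if_pos rfl, r1, one_mul, RingHom.id_apply]
  obtain ⟨u, u1, u2, u3⟩ := ld_eq (dr_of (D 0)) P φ0
  have t1 : D 0 P.t = 1 := by rw [← g0, hg.dual, if_pos rfl]
  have e0 : P.t * (φ⁻¹ * D 0 φ) = P.t * (u⁻¹ * D 0 u) + P.ord φ := by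
    rw [← div_eq_inv_mul, u3, t1, mul_add, mul_left_comm P.t (P.ord φ : K),
      mul_one_div_cancel P.t_ne, mul_one]
  have uu := mul_mem u2 (r 0 u u1)
  let M : Matrix (Fin (n + 1)) (Fin (n + 1)) K := Matrix.of fun i j =>
    (Fin.cons P.t fun _ => 1 : Fin (n + 1) → K) i *
      ((Fin.cons φ⁻¹ fun _ => 1 : Fin (n + 1) → K) j * D i ((Fin.cons φ y : Fin (n + 1) → K) j))
  have eM : M.det = P.t * φ⁻¹ * jac D (Fin.cons φ y) := by
    have h1 := Matrix.det_mul_column (Fin.cons P.t fun _ => 1 : Fin (n + 1) → K)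
      (Matrix.of fun i j => (Fin.cons φ⁻¹ fun _ => 1 : Fin (n + 1) → K) j *
        D i ((Fin.cons φ y : Fin (n + 1) → K) j))
    have h2 := Matrix.det_mul_row (Fin.cons φ⁻¹ fun _ => 1 : Fin (n + 1) → K)
      (Matrix.of fun i j => D i ((Fin.cons φ y : Fin (n + 1) → K) j))
    rw [Fin.prod_univ_succ, Fin.cons_zero] at h1 h2
    simp only [Fin.cons_succ, Finset.prod_const_one, mul_one] at h1 h2
    exact h1.trans ((congrArg _ h2).trans (mul_assoc _ _ _).symm)
  have hM : ∀ i j, M i j ∈ P.ring := fun i j => by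
    refine Fin.cases ?_ (fun i => ?_) i <;> refine Fin.cases ?_ (fun j => ?_) j <;>
      simp only [M, Matrix.of_apply, Fin.cons_zero, Fin.cons_succ, one_mul]
    · rw [e0]; exact add_mem (mul_mem (t_mem P) uu) (int_mem P _)
    · exact mul_mem (t_mem P) (r 0 _ (hy j))
    · rw [← div_eq_inv_mul]; exact l i φ
    · exact r _ _ (hy j)
  rw [← eM]
  refine ⟨det_mem _ hM, ?_⟩
  rw [rd_det hM, Matrix.det_succ_row_zero, Fin.sum_univ_succ, Finset.sum_eq_zero, add_zero]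
  · have h0 : P.rd (M 0 0) = P.ord φ := by
      simp only [M, Matrix.of_apply, Fin.cons_zero]
      rw [e0, rd_add (mul_mem (t_mem P) uu) (int_mem P _),
        (rd_eq_zero (mul_mem (t_mem P) uu)).2 (mx_t uu), zero_add, rd_int]
    rw [Matrix.of_apply, h0, Fin.val_zero, pow_zero, one_mul, jac]
    congr 2
    ext i j
    simp only [M, Matrix.submatrix_apply, Matrix.of_apply, Fin.succAbove_zero, Fin.cons_succ,
      one_mul]
    exact b i _ (hy j)
  · intro j _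
    have h0 : P.rd (M 0 j.succ) = 0 := by
      simp only [M, Matrix.of_apply, Fin.cons_zero, Fin.cons_succ, one_mul]
      exact (rd_eq_zero (mul_mem (t_mem P) (r 0 _ (hy j)))).2 (mx_t (r 0 _ (hy j)))
    rw [Matrix.of_apply, h0, mul_zero, zero_mul]

theorem res_dv0 (hK : FF K (n + 1)) (P : Pl K) {w : K} (hw : P.ord w = 0) :
    res P (dv w) = dv (P.rd w) := by
  by_cases w0 : w = 0
  · have := Aj.res_smul hK P 0 (dv_mem_Car w)
    rw [zero_smul, zero_smul] at this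
    rw [w0, dv_zero, this, show P.rd 0 = 0 by simpa using rd_int P 0, dv_zero]
  · rw [Aj.res_dv hK P w0, hw, zpow_zero, div_one]

/-- the form `dφ / φ ∧ dy` and its residue `dy` -/
theorem adf0 (hK : FF K (n + 1)) (S : Pl K) {φ : K} {y : Fin n → K} (hφ : S.ord φ ≠ 0)
    (hy : ∀ i, y i ∈ S.ring) (hf : Frm fun i => S.rd (y i)) :
    Frm (Fin.cons φ y : Fin (n + 1) → K) ∧
      cn K (n + 1) - kap (Fin.cons φ y : Fin (n + 1) → K) + dv φ ∈ CarZ K ∧
      dsc (n + 1) (cn K (n + 1) - kap (Fin.cons φ y : Fin (n + 1) → K) + dv φ) S = -1 ∧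
      dsc n (adj n S (cn K (n + 1) - kap (Fin.cons φ y : Fin (n + 1) → K) + dv φ)) =
        kap fun i => S.rd (y i) := by
  have : CharZero S.κ := charZero_of_injective_algebraMap (algebraMap ℂ S.κ).injective
  obtain ⟨j, j', ⟨j0, j0', g, D, D', hg, g0, g1, hg', e, e'⟩, ea⟩ := adj_eq hK S
  have φ0 : φ ≠ 0 := fun h => hφ (by simp [h])
  obtain ⟨E, hE⟩ := hf
  have J' : jac D' (fun i => S.rd (y i)) ≠ 0 := (jac_ne_iff hg' _).2 (ind_of_fr hE)
  obtain ⟨h1, h2⟩ := rd_jac hK hg g0 g1 hg' φ0 hy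
  have h3 : S.rd (S.t * φ⁻¹ * jac D (Fin.cons φ y)) ≠ 0 :=
    h2 ▸ mul_ne_zero (Int.cast_ne_zero.2 hφ) J'
  have h4 : ¬ Mx S (S.t * φ⁻¹ * jac D (Fin.cons φ y)) := fun h => h3 ((rd_eq_zero h1).2 h)
  rw [mx_iff, not_or] at h4
  have h5 : S.ord (S.t * φ⁻¹ * jac D (Fin.cons φ y)) = 0 := by
    have := P297Z.Pl.ord_nonneg_of_mem _ h1
    omega
  have J : jac D (Fin.cons φ y) ≠ 0 := right_ne_zero_of_mul h4.1
  have k := kap_chg hg J
  have h6 : dv (S.t * φ⁻¹ * jac D (Fin.cons φ y)) = dv S.t - dv φ + dv (jac D (Fin.cons φ y)) := by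
    rw [dv_mul (left_ne_zero_of_mul h4.1) J, dv_mul S.t_ne (inv_ne_zero φ0), dv_inv,
      sub_eq_add_neg]
  have eΓ : cn K (n + 1) - kap (Fin.cons φ y : Fin (n + 1) → K) + dv φ =
      dv S.t - dv (S.t * φ⁻¹ * jac D (Fin.cons φ y)) - dv j := by
    rw [k, e, h6]; abel
  have kg : kap g S = 0 := by
    have a : Ada S S.t fun i : Fin n => g i.succ := ⟨S.ord_t, g1, ind_of_fr hg'⟩
    obtain ⟨D₁, h⟩ := a.ad hK
    have eg : (Fin.cons S.t fun i : Fin n => g i.succ : Fin (n + 1) → K) = g := by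
      rw [← g0]; exact Fin.cons_self_tail g
    rw [eg] at h
    rw [kap_eq h, jac_self h.fr]
    simp
  refine ⟨fr_of hK ((jac_ne_iff hg _).1 J), ?_, ?_, ?_⟩
  · rw [eΓ]
    exact sub_mem (sub_mem (dv_mem_CarZ _) (dv_mem_CarZ _)) (dv_mem_CarZ _)
  · have h7 := congrFun e S
    rw [eΓ]
    simp only [dsc, Pi.sub_apply, Pi.add_apply, dv_apply, h5, S.ord_t] at h7 ⊢
    rw [kg] at h7
    push_cast
    linarith
  · have rt : res S (dv S.t) = 0 := by
      rw [Aj.res_dv hK S S.t_ne, S.ord_t, zpow_one, div_self S.t_ne,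
        show S.rd 1 = 1 by simpa using rd_int S 1, dv_one]
    have h8 : dv (S.ord φ : S.κ) = 0 := by
      have := dv_const (K := S.κ) (S.ord φ : ℂ)
      rwa [map_intCast] at this
    rw [ea, eΓ, sub_add_cancel, sub_eq_add_neg (dv S.t), ← neg_one_smul ℝ (dv (S.t * _ * _)),
      Aj.res_add hK S (dv_mem_Car _) (Submodule.smul_mem _ _ (dv_mem_Car _)),
      Aj.res_smul hK S _ (dv_mem_Car _), rt, res_dv0 hK S h5, h2,
      dv_mul (Int.cast_ne_zero.2 hφ) J', h8, kap_chg hg' J', e', dsc]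
    module

/-- **ADF**: the frame form of adjunction -/
theorem adf (hK : FF K (n + 1)) (S : Pl K) {φ w : K} {y : Fin n → K} (hφ : 0 < S.ord φ)
    (hy : ∀ i, y i ∈ S.ring) (hf : Frm fun i => S.rd (y i)) (hw : S.ord w = 0) (m : ℕ)
    {Γ : BD K} (hΓ : Γ = cn K (n + 1) - kap (Fin.cons φ y : Fin (n + 1) → K) + dv φ +
      (m : ℝ)⁻¹ • dv w) :
    Frm (Fin.cons φ y : Fin (n + 1) → K) ∧ Γ ∈ Car K ∧ dsc (n + 1) Γ S = -1 ∧
      (∀ R, dsc (n + 1) Γ R + 1 =
        ld (Fin.cons φ y : Fin (n + 1) → K) m w R - R.ord φ) ∧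
      ∀ Q, dsc n (adj n S Γ) Q + 1 = ld (fun i => S.rd (y i)) m (S.rd w) Q := by
  obtain ⟨h1, h2, h3, h4⟩ := adf0 hK S hφ.ne' hy hf
  have c := Submodule.smul_mem _ (m : ℝ)⁻¹ (dv_mem_Car w)
  subst hΓ
  refine ⟨h1, add_mem (CarZ.car h2) c, ?_, fun R => ?_, fun Q => ?_⟩
  · simp only [dsc, Pi.sub_apply, Pi.add_apply, Pi.smul_apply, dv_apply, hw, smul_eq_mul] at h3 ⊢
    push_cast
    linarith
  · simp only [dsc, ld, Pi.sub_apply, Pi.add_apply, Pi.smul_apply, dv_apply, smul_eq_mul]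
    ring
  · have h5 := congrFun h4 Q
    rw [(a4 n K hK S _ (CarZ.car h2) _ c).1, Aj.res_smul hK S _ (dv_mem_Car _), res_dv0 hK S hw]
    simp only [dsc, ld, Pi.sub_apply, Pi.add_apply, Pi.smul_apply, dv_apply, smul_eq_mul] at h5 ⊢
    rw [← h5]
    ring

end Vale.Agent.P283R.H
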