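import Vale.Agent.P287D.Ad.All
import Vale.Agent.P287D.Hd.Test

/-!
# P283R, block H: the different and inversion of adjunction, on the complement of a set of members
-/

open Set
open Vale.Agent.P297Z.Pl

noncomputable section

namespace Vale.Agent.P283R.H

open Vale.Agent.P287D Vale.Agent.P287D.Ae Vale.Agent.P287D.Loq

variable {K : Type} [Field K] [Algebra ℂ K] {n : ℕ} {Λ β Γ : BD K} {S : Pl K} {g : Set (BD K)}

theorem dom_fin {ι : Type} {G : ι → BD K} (h0 : ∀ i, 0 ≤ G i) {T : Set (Pl K)} (hT : T.Finite)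
    (h : ∀ P ∈ T, ∃ i, G i P ≠ 0) (b : Pl K → ℝ) :
    ∃ (t : Finset ι) (k : ℝ), 0 ≤ k ∧ ∀ P ∈ T, b P ≤ (k • ∑ i ∈ t, G i) P := by
  classical
  choose u hu using fun P : T => h P P.2
  have := hT.fintype
  obtain ⟨k, hk⟩ := (Finset.univ.image fun P : T => b P / G (u P) P).exists_le
  refine ⟨Finset.univ.image u, max k 0, le_max_right _ _, fun P hP => ?_⟩
  have p : 0 < G (u ⟨P, hP⟩) P := lt_of_le_of_ne (h0 _ P) (hu ⟨P, hP⟩).symm
  have a := (div_le_iff₀ p).1 ((hk _ (Finset.mem_image_of_mem _ (Finset.mem_univ ⟨P, hP⟩))).trans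
    (le_max_left k 0))
  refine a.trans ?_
  rw [Pi.smul_apply, smul_eq_mul, Finset.sum_apply]
  exact mul_le_mul_of_nonneg_left (Finset.single_le_sum (f := fun i => G i P) (fun i _ => h0 i P)
    (Finset.mem_image_of_mem _ (Finset.mem_univ _))) (le_max_right _ _)

/-- a pair which is klt off some members becomes klt if they are subtracted -/
theorem klt_sub (hK : FF K n) (hΓ : Γ ∈ Car K) (hΛ : Λ ∈ Car K) {ι : Type} {G : ι → BD K}
    (hG : ∀ i, Rep Λ (G i)) (h : ∀ Q, (∀ i, G i Q = 0) → -1 < dsc n Γ Q) :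
    ∃ (t : Finset ι) (k : ℝ), 0 ≤ k ∧ Klt n (Γ - k • ∑ i ∈ t, G i) := by
  cases n with
  | zero => exact ⟨∅, 0, le_rfl, fun Q => (Bm.no_pl hK Q).elim⟩
  | succ n =>
  obtain ⟨T, hT⟩ := Pr.fin_chk hK (toFinite {Γ, Λ}) (forall_mem_insert.2 ⟨hΓ, forall_eq.2 hΛ⟩)
  obtain ⟨t, k, k0, hk⟩ := dom_fin (fun i => (hG i).1)
    (T := {P | P ∈ T ∧ dsc (n + 1) Γ P + 1 ≤ 0}) (T.finite_toSet.subset fun _ h => h.1)
    (fun P hP => by
      by_contra hc
      push Not at hc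
      linarith [h P hc, hP.2]) fun _ => 1
  set H := k • ∑ i ∈ t, G i with hH
  have cH : H ∈ Car K := Submodule.smul_mem _ _ (sum_mem fun i _ => (hG i).car hΛ)
  have pos : ∀ Q, dsc (n + 1) Γ Q + 1 ≤ 0 → 0 < H Q := fun Q hQ => by
    obtain ⟨P, p1, p2, p3⟩ := (hT Γ (Submodule.subset_span (.inl rfl)) Q 0 le_rfl).1 one_pos hQ
    have a := hk P ⟨p1, p2⟩
    have c := p3 Λ (Submodule.subset_span (.inr rfl))
    simp only [hH, Pi.smul_apply, smul_eq_mul, Finset.sum_apply] at a ⊢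
    have k1 : 0 < k := lt_of_le_of_ne k0 fun e => by rw [← e, zero_mul] at a; linarith
    obtain ⟨i, hi, e⟩ : ∃ i ∈ t, 0 < G i P := by
      by_contra hc
      push Not at hc
      have := mul_nonpos_of_nonneg_of_nonpos k0 (Finset.sum_nonpos hc)
      linarith
    exact mul_pos k1 (Finset.sum_pos' (fun j _ => (hG j).1 Q) ⟨i, hi, c _ (hG i) e⟩)
  have H0 : 0 ≤ H := smul_nonneg k0 (Finset.sum_nonneg fun i _ => (hG i).1)
  obtain ⟨T', hT'⟩ := Pr.fin_chk hK (toFinite {Γ, H}) (forall_mem_insert.2 ⟨hΓ, forall_eq.2 cH⟩)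
  obtain ⟨c, hc⟩ := (T'.image fun P => -dsc (n + 1) Γ P / H P).exists_le
  refine ⟨t, max c 0 * k, mul_nonneg (le_max_right _ _) k0, fun Q => ?_⟩
  rw [mul_smul, ← hH]
  by_contra hQ
  have e : ∀ P, dsc (n + 1) (Γ - max c 0 • H) P = dsc (n + 1) Γ P + max c 0 * H P := fun P => by
    simp only [dsc, Pi.sub_apply, Pi.smul_apply, smul_eq_mul]; ring
  obtain ⟨P, p1, p2, -⟩ := (hT' (Γ - max c 0 • H) (sub_mem (Submodule.subset_span (.inl rfl))
    (Submodule.smul_mem _ _ (Submodule.subset_span (.inr rfl)))) Q 0 le_rfl).1 one_pos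
      (by linarith)
  rw [e] at p2
  have a := mul_nonneg (le_max_right c 0) (H0 P)
  have p := pos P (by linarith)
  have := (div_le_iff₀ p).1 ((hc _ (Finset.mem_image_of_mem _ p1)).trans (le_max_left c 0))
  linarith

/-- combinations of members of `g` -/
structure Cn (Λ : BD K) (g : Set (BD K)) (G : BD K) : Prop where
  dsc : Dsc Λ G
  nn : 0 ≤ G
  th : ∀ P, (∀ x ∈ g, x P = 0) → G P = 0
  res : ∀ (S : Pl K) (Q : Pl S.κ), (∀ x ∈ g, res S x Q = 0) → res S G Q = 0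

theorem dsc_rep (hΛ : Smp Λ) {G : BD K} (h : Rep Λ G) : Dsc Λ G := by
  have := Gs.dsc_add hΛ (Gs.dsc_self hΛ) (Gs.dsc_prn hΛ h.2)
  rwa [add_sub_cancel] at this

theorem res_cmb (hK : FF K (n + 1)) (hΛ : Smp Λ) (hg : ∀ G ∈ g, Rep Λ G) (t : Finset g) (k : ℝ)
    (S : Pl K) : res S (k • ∑ i ∈ t, (i : BD K)) = k • ∑ i ∈ t, res S (i : BD K) := by
  classical
  rw [res'.smul n K hK S k _ (sum_mem fun (i : g) _ => (hg i i.2).car hΛ.car)]
  refine congrArg (k • ·) ?_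
  induction t using Finset.induction_on with
  | empty => simpa using res_zero res' hK
  | insert a t ha ih =>
    rw [Finset.sum_insert ha, Finset.sum_insert ha, res'.add n K hK S _ ((hg a a.2).car hΛ.car) _
      (sum_mem fun (i : g) _ => (hg i i.2).car hΛ.car), ih]

theorem cn_cmb (hK : FF K (n + 1)) (hΛ : Smp Λ) (hg : ∀ G ∈ g, Rep Λ G) (t : Finset g) {k : ℝ}
    (k0 : 0 ≤ k) : Cn Λ g (k • ∑ i ∈ t, (i : BD K)) where
  dsc := Gs.dsc_smul hΛ _ ((Gs.dS hΛ).sum_mem fun i _ => dsc_rep hΛ (hg i i.2))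
  nn := smul_nonneg k0 (Finset.sum_nonneg fun i _ => (hg i i.2).1)
  th := fun P h => by
    rw [Pi.smul_apply, Finset.sum_apply, Finset.sum_eq_zero fun (i : g) _ => h i i.2, smul_zero]
  res := fun S Q h => by
    rw [res_cmb hK hΛ hg, Pi.smul_apply, Finset.sum_apply,
      Finset.sum_eq_zero fun (i : g) _ => h i i.2, smul_zero]

/-- a bound on the primes in the complement holds on all primes, up to a combination -/
theorem cover (hK : FF K (n + 1)) (hΛ : Smp Λ) (hb : Big Λ) (hg : ∀ G ∈ g, Rep Λ G)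
    (hΓ : Γ ∈ Car K) (hβ : β ∈ Car K) {p : Pl K → Prop}
    (hle : ∀ R, On n Λ R → (∀ G ∈ g, G R = 0) → p R → (⌈dsc (n + 1) Γ R⌉ : ℝ) ≤ β R) :
    ∃ G, Cn Λ g G ∧ ∀ R, On n Λ R → p R → (⌈dsc (n + 1) Γ R⌉ : ℝ) ≤ (β + G) R := by
  have i := Api.mod.isb n K hK
  have f1 := Hd.fin_on neg' hK hΛ hb i.2.1
  have f2 := Hd.fin_on neg' hK hΛ hb (i.1 Γ hΓ)
  have f3 := Hd.fin_on neg' hK hΛ hb (i.1 β hβ)
  obtain ⟨t, k, k0, hk⟩ := dom_fin (G := fun i : g => (i : BD K)) (fun i => (hg i i.2).1)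
    (T := {R | On n Λ R ∧ (¬ ∀ G ∈ g, G R = 0) ∧ β R < ⌈dsc (n + 1) Γ R⌉})
    (((f1.union f2).union f3).subset fun R hR => by
      by_contra hc
      simp only [mem_union, mem_ofPred_eq, hR.1, true_and, not_or, not_not] at hc
      have := hR.2.2
      simp [dsc, hc.1.1, hc.1.2, hc.2] at this)
    (fun R hR => by
      have := hR.2.1
      push Not at this
      obtain ⟨G, a, b⟩ := this
      exact ⟨⟨G, a⟩, b⟩) fun R => ⌈dsc (n + 1) Γ R⌉ - β R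
  have c := cn_cmb hK hΛ hg t k0
  refine ⟨_, c, fun R hR q => ?_⟩
  rw [Pi.add_apply]
  by_cases a : ∀ G ∈ g, G R = 0
  · linarith [hle R hR a q, c.nn R, show (0 : BD K) R = 0 from rfl]
  by_cases b : β R < ⌈dsc (n + 1) Γ R⌉
  · linarith [hk R ⟨hR, a, b⟩]
  · linarith [c.nn R, show (0 : BD K) R = 0 from rfl]

/-- **local `ceil_le`** -/
theorem ceil_loc (hK : FF K (n + 2)) (hΛ : Smp Λ) (hb : Big Λ) (hg : ∀ G ∈ g, Rep Λ G)
    (hO : On (n + 1) Λ S) (hS : ∀ G ∈ g, G S = 0) (hΓ : Dsc Λ Γ) (hP : dsc (n + 2) Γ S = -1)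
    (hβ : Dsc Λ β) (h0 : β S = 0) (hle : ∀ R, On (n + 1) Λ R → (∀ G ∈ g, G R = 0) → R ≠ S →
      (⌈dsc (n + 2) Γ R⌉ : ℝ) ≤ β R) {Q : Pl S.κ} (hQ : On n (res S Λ) Q)
    (hQ' : ∀ G ∈ g, res S G Q = 0) : (⌈dsc (n + 1) (adj (n + 1) S Γ) Q⌉ : ℝ) ≤ res S β Q := by
  obtain ⟨G, c, h⟩ := cover hK hΛ hb hg (Gs.dsc_car hΛ hΓ) (Gs.dsc_car hΛ hβ) hle
  have := ceil_le adh hK hΛ hb hO hΓ hP (Gs.dsc_add hΛ hβ c.dsc)
    (by rw [Pi.add_apply, h0, c.th S hS, add_zero]) h hQ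
  rwa [res'.add _ K hK S _ (Gs.dsc_car hΛ hβ) _ (Gs.dsc_car hΛ c.dsc), Pi.add_apply,
    c.res S Q hQ', add_zero] at this

/-- **local A3**: the different is effective -/
theorem l3 (hK : FF K (n + 2)) (hΛ : Smp Λ) (hb : Big Λ) (hg : ∀ G ∈ g, Rep Λ G)
    (hO : On (n + 1) Λ S) (hS : ∀ G ∈ g, G S = 0) (hΓ : Dsc Λ Γ) (hP : dsc (n + 2) Γ S = -1)
    (hB : ∀ R, On (n + 1) Λ R → (∀ G ∈ g, G R = 0) → dsc (n + 2) Γ R ≤ 0) {Q : Pl S.κ}
    (hQ : On n (res S Λ) Q) (hQ' : ∀ G ∈ g, res S G Q = 0) :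
    dsc (n + 1) (adj (n + 1) S Γ) Q ≤ 0 := by
  have := ceil_loc hK hΛ hb hg hO hS hΓ hP (Gs.dsc_zero hΛ) rfl
    (fun R a b _ => ceil_np (hB R a b)) hQ hQ'
  rw [res_zero res' hK] at this
  exact (Int.le_ceil _).trans this

/-- inversion of adjunction, off the support of `β` -/
theorem a5_gen (hK : FF K (n + 1)) (hΛ : Smp Λ) (hb : Big Λ) (hΓ : Dsc Λ Γ)
    (hP : dsc (n + 1) Γ S = -1) (hk : Klt n (adj n S Γ)) (hβ : Dsc Λ β) (β0 : 0 ≤ β)
    (βS : β S = 0) (hle : ∀ R, On n Λ R → R ≠ S → (⌈dsc (n + 1) Γ R⌉ : ℝ) ≤ β R) {R R₀ : Pl K}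
    (hR : R ≠ S) (βR : β R₀ = 0) (c : CLe Λ R₀ R) (c' : CLe Λ R₀ S) : -1 < dsc (n + 1) Γ R := by
  have hr := res'
  obtain ⟨s, ε, m, hs, -, -, -, hd, hm⟩ := setup hΛ hb hΓ
  obtain ⟨w, hw, e⟩ := exists_mx_nsmul s m
  have hd' : Dsc Λ (mx w) := e ▸ Gs.dsc_smul hΛ _ hd
  obtain ⟨g, hg, g0, e'⟩ := exists_gen hw (toFinite {S, R₀})
  have gP : S.ord g = -S.mz w := by
    have := e' S (by simp)
    rw [Pi.add_apply, dv_apply, mx_apply] at this
    exact eq_neg_of_add_eq_zero_left (by exact_mod_cast this)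
  have sg := sec_of_span hg
  have g1 := mul_ne_zero g0 (zpow_ne_zero (S.mz w) S.t_ne)
  have g2 : S.ord (g * S.t ^ S.mz w) = 0 := by rw [S.ord_mul_t g0, gP, neg_add_cancel]
  obtain ⟨f, f0, a, o, r, b⟩ := lift adh hK hΛ hb (Gs.dsc_car hΛ hΓ) hP hβ βS.ge hle
    (mx_mem_CarZ w) hd' (mx_apply w S) (e ▸ (hm m le_rfl).1) (e ▸ (hm m le_rfl).2) (rd_ne g1 g2)
    (Or.inr fun Q => by
      have a := hr.nn n K hK S _ (add_mem (dv_mem_Car g) (mx_mem_Car w)) (sg.resolve_left g0)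
        (e' S (by simp)) Q
      rw [hr.add n K hK S _ (dv_mem_Car g) _ (mx_mem_Car w), res_dv hr hK g0 gP] at a
      have b : (0 : ℝ) ≤ ⌈dsc n (adj n S Γ) Q⌉ := by
        exact_mod_cast Int.lt_add_one_iff.1 (sub_lt_iff_lt_add.1 (Int.lt_ceil.2 (by simpa using hk Q)))
      simp only [Pi.add_apply, Pi.zero_apply] at a ⊢
      linarith)
  have D : ∀ x : K, Dsc Λ (dv x + (β + mx w)) := fun x =>
    Gs.dsc_add hΛ (Gs.dsc_prn hΛ (dv_mem_Prn x)) (Gs.dsc_add hΛ hβ hd')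
  by_contra hc
  have p1 : 0 < (dv f + (β + mx w)) R₀ := cle_dsc (D f) a c (by
    have : (⌈dsc (n + 1) Γ R⌉ : ℝ) ≤ ((-1 : ℤ) : ℝ) :=
      Int.cast_le.2 (Int.ceil_le.2 (by simpa using hc))
    have := b R hR
    have := β0 R
    rw [Pi.add_apply, Pi.add_apply, dv_apply]
    rw [Pi.zero_apply] at this
    push_cast at *
    linarith)
  have p0 := e' R₀ (by simp)
  by_cases fg : f - g = 0
  · rw [sub_eq_zero.1 fg] at p1
    simp only [Pi.add_apply, βR] at p0 p1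
    linarith
  have f1 := mul_ne_zero f0 (zpow_ne_zero (S.mz w) S.t_ne)
  have f2 : S.ord (f * S.t ^ S.mz w) = 0 := by rw [S.ord_mul_t f0, o, neg_add_cancel]
  have m1 := (ord_nonneg_iff _ f1).1 f2.ge
  have m2 := (ord_nonneg_iff _ g1).1 g2.ge
  have s1 : Sec (β + mx w) (f - g) := by
    rw [sub_eq_add_neg, ← neg_one_smul ℂ g]
    exact Sec.add (Or.inr a) ((sg.mono (le_add_of_nonneg_left β0)).smul _)
  have p2 : 0 < (dv (f - g) + (β + mx w)) R₀ := cle_dsc (D _) (s1.resolve_left fg) c' (by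
    have := ord_pos_of_rd (Q := S) (mul_ne_zero fg (zpow_ne_zero (S.mz w) S.t_ne))
      (by rw [_root_.sub_mul]; exact sub_mem m1 m2)
      (by rw [_root_.sub_mul, rd_sub m1 m2, r, sub_self])
    rw [S.ord_mul_t fg] at this
    rw [Pi.add_apply, Pi.add_apply, βS, zero_add, dv_apply, mx_apply]; exact_mod_cast this)
  have q := min_ord_le_add R₀.toPlace f0 (neg_ne_zero.2 fg)
    (by rw [neg_sub, add_sub_cancel]; exact g0)
  rw [ord_neg, neg_sub, add_sub_cancel] at q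
  simp only [Pi.add_apply, dv_apply, βR] at p0 p1 p2
  rcases min_le_iff.1 q with q | q <;> have := Int.cast_le (R := ℝ).2 q <;> linarith

/-- **local A5**: inversion of adjunction on the complement of the members `g` -/
theorem l5 (hK : FF K (n + 1)) (hΛ : Smp Λ) (hb : Big Λ) (hg : ∀ G ∈ g, Rep Λ G) (hΓ : Dsc Λ Γ)
    (hB : ∀ R, On n Λ R → (∀ G ∈ g, G R = 0) → dsc (n + 1) Γ R ≤ 0) (hS : ∀ G ∈ g, G S = 0)
    (hP : dsc (n + 1) Γ S = -1)
    (hk : ∀ Q, (∀ G ∈ g, res S G Q = 0) → -1 < dsc n (adj n S Γ) Q) {R R₀ : Pl K} (hR : R ≠ S)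
    (h0 : ∀ G ∈ g, G R₀ = 0) (c : CLe Λ R₀ R) (c' : CLe Λ R₀ S) : -1 < dsc (n + 1) Γ R := by
  have cΓ := Gs.dsc_car hΛ hΓ
  obtain ⟨t, k, k0, hk'⟩ := klt_sub (Api.ffs.rsd n K hK S) (a1 n K hK S Γ cΓ).1
    (Λ := res S Λ) (res_smp res' hK hΛ).car (G := fun i : g => res S (i : BD K))
    (fun i => res_rep hK S hΛ.car (hg i i.2) (hS i i.2)) fun Q h => hk Q fun G a => h ⟨G, a⟩
  rw [← res_cmb hK hΛ hg] at hk'
  have u := cn_cmb hK hΛ hg t k0
  generalize k • ∑ i ∈ t, (i : BD K) = H at hk' u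
  have d := Gs.dsc_sub hΛ hΓ u.dsc
  have e : ∀ P, dsc (n + 1) (Γ - H) P = dsc (n + 1) Γ P + H P := fun P => by
    simp only [dsc, Pi.sub_apply]; ring
  have a4' := (a4 n K hK S _ (Gs.dsc_car hΛ d) _ (Gs.dsc_car hΛ u.dsc)).1
  rw [sub_add_cancel] at a4'
  rw [a4', add_sub_cancel_right] at hk'
  obtain ⟨G, v, h⟩ := cover (β := 0) (p := fun _ => True) hK hΛ hb hg (Gs.dsc_car hΛ d) (zero_mem _)
    fun R a b _ => ceil_np (by rw [e, u.th R b, add_zero]; exact hB R a b)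
  rw [zero_add] at h
  have := a5_gen hK hΛ hb d (by rw [e, u.th S hS, add_zero, hP]) hk' v.dsc v.nn (v.th S hS)
    (fun R a _ => h R a trivial) hR (v.th R₀ h0) c c'
  have z : H R = 0 := le_antisymm (not_lt.1 fun p =>
    (cle_dsc u.dsc u.nn c p).ne' (u.th R₀ h0)) (u.nn R)
  rwa [e, z, add_zero] at this

end Vale.Agent.P283R.H
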