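import Vale.Agent.P283R.H.Ks

/-!
# P283R, block H: monomial change of the frame
-/

open Vale.Agent.P285N.Brep (jac Fr)

namespace Vale.Agent.P283R.H

open Vale.Agent.P287D

variable {K : Type} [Field K] [Algebra ℂ K] {n : ℕ}

theorem kp_comp {ι ι' : Type} [Fintype ι] [Fintype ι'] (hK : FF K n) (e : Fin n ≃ ι) (σ : ι ≃ ι')
    (z : ι' → K) : kp (z ∘ σ) = kp z := by
  rw [kp_eq hK _ e, kp_eq hK _ (e.trans σ)]
  rfl

/-- change of the frame by a matrix -/
theorem kp_mat {ι : Type} [Fintype ι] [DecidableEq ι] (hK : FF K n) (e : Fin n ≃ ι) {z w : ι → K}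
    (M : Matrix ι ι K) (h : ∀ (D : Derivation ℂ K K) j, D (w j) = ∑ i, D (z i) * M i j)
    (hw : AlgebraicIndependent ℂ w) :
    AlgebraicIndependent ℂ z ∧ M.det ≠ 0 ∧ kp w = kp z + dv M.det := by
  obtain ⟨t, D, hF, -⟩ := Cb.exists_cn hK
  have e1 : jac D (w ∘ e) = jac D (z ∘ e) * M.det := by
    rw [← Matrix.det_submatrix_equiv_self e M, jac, jac, ← Matrix.det_mul]
    congr 1
    ext i j
    rw [Matrix.mul_apply, Matrix.of_apply, Function.comp_apply, h, ← e.sum_comp]
    rfl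
  have h1 := (Cb.jac_ne_iff hF _).2 (hw.comp e e.injective)
  have h2 := h1
  rw [e1] at h2
  have h3 := left_ne_zero_of_mul h2
  have h4 := right_ne_zero_of_mul h2
  refine ⟨(algebraicIndependent_equiv e).1 ((Cb.jac_ne_iff hF _).1 h3), h4, ?_⟩
  rw [kp_eq hK w e, kp_eq hK z e, Cb.kap_chg hF h1, Cb.kap_chg hF h3, e1, dv_mul h3 h4, add_assoc]

/-- `dlog w` is a constant combination of the `dlog z i` -/
def Dlg {ι : Type} [Fintype ι] (z : ι → K) (w : K) : Prop :=
  ∃ α : ι → ℂ, ∀ D : Derivation ℂ K K, D w = w * ∑ i, α i • (D (z i) / z i)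

section

variable {ι : Type} [Fintype ι] {z : ι → K} {w w' : K}

theorem Dlg.self (k : ι) (h : z k ≠ 0) : Dlg z (z k) := by
  classical
  refine ⟨Pi.single k 1, fun D => ?_⟩
  rw [Finset.sum_eq_single k (fun i _ hi => by simp [hi]) (by simp), Pi.single_eq_same, one_smul,
    mul_div_cancel₀ _ h]

theorem Dlg.mul (h : Dlg z w) (h' : Dlg z w') : Dlg z (w * w') := by
  obtain ⟨α, h⟩ := h
  obtain ⟨β, h'⟩ := h'
  refine ⟨α + β, fun D => ?_⟩
  simp only [Derivation.leibniz, h, h', Pi.add_apply, add_smul, Finset.sum_add_distrib, smul_eq_mul]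
  ring

theorem Dlg.pow (h : Dlg z w) (m : ℕ) : Dlg z (w ^ m) := by
  induction m with
  | zero => exact ⟨0, fun D => by simp⟩
  | succ m ih => exact pow_succ w m ▸ ih.mul h

theorem Dlg.inv (h : Dlg z w) : Dlg z w⁻¹ := by
  obtain ⟨α, h⟩ := h
  refine ⟨-α, fun D => ?_⟩
  simp only [Derivation.leibniz_inv, h, Pi.neg_apply, neg_smul, Finset.sum_neg_distrib, smul_eq_mul]
  by_cases h0 : w = 0
  · simp [h0]
  · field_simp

theorem Dlg.div (h : Dlg z w) (h' : Dlg z w') : Dlg z (w / w') :=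
  div_eq_mul_inv w w' ▸ h.mul h'.inv

/-- logarithmic change of the frame -/
theorem kp_log (hK : FF K n) (e : Fin n ≃ ι) {w : ι → K} (hz : ∀ i, z i ≠ 0)
    (h : ∀ j, Dlg z (w j)) (hw : AlgebraicIndependent ℂ w) :
    AlgebraicIndependent ℂ z ∧ kp z - ∑ i, dv (z i) = kp w - ∑ i, dv (w i) := by
  classical
  choose α h using h
  obtain ⟨h1, h2, h3⟩ := kp_mat hK e (z := z) (w := w)
    (Matrix.of fun i j => (z i)⁻¹ * (w j * algebraMap ℂ K (α j i))) (fun D j => by
      rw [h, Finset.mul_sum]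
      refine Finset.sum_congr rfl fun i _ => ?_
      rw [Algebra.smul_def, Matrix.of_apply, div_eq_mul_inv]
      ring) hw
  have e1 : (Matrix.of fun i j => (z i)⁻¹ * (w j * algebraMap ℂ K (α j i))).det =
      (∏ i, (z i)⁻¹) * ((∏ j, w j) * algebraMap ℂ K (Matrix.of fun i j => α j i).det) := by
    rw [RingHom.map_det, ← Matrix.det_mul_row, ← Matrix.det_mul_column]
    rfl
  rw [e1] at h2 h3
  have h4 := right_ne_zero_of_mul h2
  refine ⟨h1, ?_⟩
  rw [h3, dv_mul (left_ne_zero_of_mul h2) h4,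
    dv_mul (left_ne_zero_of_mul h4) (right_ne_zero_of_mul h4), dv_const,
    dv_prod _ fun i _ => inv_ne_zero (hz i), dv_prod _ fun i _ => hw.ne_zero i]
  simp only [dv_inv, Finset.sum_neg_distrib]
  abel

end

/-- the reindexing -/
def mix (N c : ℕ) : Option (Fin c ⊕ Fin N) ≃ Fin (c + 1) ⊕ Fin N where
  toFun o := o.elim (.inl 0) (Sum.map Fin.succ id)
  invFun := Sum.elim (Fin.cases none fun i => some (.inl i)) fun j => some (.inr j)
  left_inv o := by rcases o with _ | _ | _ <;> simp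
  right_inv o := by
    rcases o with i | _
    · refine Fin.cases ?_ (fun i => ?_) i <;> simp
    · simp

theorem mch : MCH := by
  intro N c K _ _ hK Φ a y ha hw
  have e : Fin (N + (c + 1)) ≃ Option (Fin c ⊕ Fin N) :=
    Fintype.equivOfCardEq (by simp; omega)
  have h0 : Φ 0 ≠ 0 := ne_zero_pow (ha 0).ne' (hw.ne_zero none)
  have hz : ∀ o, (Sum.elim Φ y ∘ mix N c) o ≠ 0 := by
    rintro (_ | i | j)
    · exact h0
    · exact ne_zero_pow (ha _).ne' (div_ne_zero_iff.1 (hw.ne_zero (some (.inl i)))).1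
    · exact hw.ne_zero (some (.inr j))
  obtain ⟨h1, h2⟩ := kp_log hK e hz (fun o => by
    rcases o with _ | i | j
    · exact (Dlg.self none h0).pow _
    · exact ((Dlg.self (some (.inl i)) (hz _)).pow _).div ((Dlg.self none h0).pow _)
    · exact Dlg.self (some (.inr j)) (hz _)) hw
  refine ⟨(algebraicIndependent_equiv (mix N c)).1 h1, ?_⟩
  rw [kp_comp hK e] at h2
  simp only [Fintype.sum_option, Fintype.sum_sum_type, mix, Function.comp_apply, Equiv.coe_fn_mk,
    Option.elim_none, Option.elim_some, Sum.map_inl, Sum.map_inr, Sum.elim_inl, Sum.elim_inr,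
    id] at h2
  rw [Fin.sum_univ_succ]
  linear_combination h2

end Vale.Agent.P283R.H
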