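import Vale.Agent.P283R.H.St
import Vale.Agent.P283M.Kl.Bas

/-!
# P283R, block H: one weighted blow up of a complete intersection (statements)
-/

open Set

noncomputable section

namespace Vale.Agent.P283R.H

open Vale.Agent.P287D Vale.Agent.P283M

section defs

variable {K L : Type} [Field K] [Algebra ℂ K] [Field L] [Algebra ℂ L]

/-- the b-divisor of the form `dz`, any index set -/
def kp {ι : Type} [Fintype ι] (z : ι → K) : BD K := kap (z ∘ (Fintype.equivFin ι).symm)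

theorem kp_eq {ι : Type} [Fintype ι] {n : ℕ} (hK : FF K n) (z : ι → K) (e : Fin n ≃ ι) :
    kp z = kap (z ∘ e) := by
  obtain rfl : n = Fintype.card ι := by simpa using Fintype.card_congr e
  rw [kp, ← Cb.kap_perm hK _ (e.trans (Fintype.equivFin ι))]
  congr 1
  funext i
  simp

/-- the centre of `Q` on `V Λ` contains the centre of `E` -/
def Upq (Λ : BD K) (S E : Pl K) (Q : Pl S.κ) : Prop := ∀ G, Rep Λ G → G E = 0 → res S G Q = 0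

/-- `a` is regular at the generic point of `ker ρ`, with the value `b` -/
def Lf (T : Subalgebra ℂ K) (ρ : T →ₐ[ℂ] L) (a : K) (b : L) : Prop :=
  ∃ s t : T, ρ t ≠ 0 ∧ a = s / t ∧ b = ρ s / ρ t

/-- the centre of `P` on `Spec T` contains the centre of `E` -/
def Tru (T : Subalgebra ℂ K) (E P : Pl K) : Prop :=
  ∀ a : T, (a : K) ∈ P.ring ∧ (P.rd a = 0 → E.rd a = 0)

/-- the log discrepancy for the form `dlog Φ ∧ dy` and the divisor of `ψ ^ (1 / M)` -/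
def ldk {N c : ℕ} (Φ : Fin c → K) (y : Fin N → K) (M : ℕ) (ψ : K) (P : Pl K) : ℝ :=
  1 + kp (Sum.elim Φ y) P - ∑ i, (P.ord (Φ i) : ℝ) - P.ord ψ / M

/-- near the centre of `E` the zero set of `Φ` in `Spec T` is `Spec (T / ker ρ)`, with the function
field `L` -/
structure Ci (N : ℕ) {c : ℕ} (T : Subalgebra ℂ K) (u : Finset K) (ρ : T →ₐ[ℂ] L) (Φ : Fin c → K)
    (E : Pl K) : Prop where
  ff : FF K (N + c)
  ff' : FF L N
  sub : ∀ a ∈ u, a ∈ T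
  ov : ∀ P, Ov u P → ∀ a ∈ T, a ∈ P.ring
  alg : ∀ a : K, IsAlgebraic (Algebra.adjoin ℂ (u : Set K)) a
  fr : ∀ b : L, ∃ s t : T, b = ρ s / ρ t
  mem : ∀ i, ∃ a : T, (a : K) = Φ i ∧ ρ a = 0
  ne : ∀ i, Φ i ≠ 0
  tru : Tru T E E
  van : ∀ i, E.rd (Φ i) = 0
  rad : ∀ P, Tru T E P → (∀ i, P.rd (Φ i) = 0) → ∀ a : T, ρ a = 0 → P.rd a = 0

/-- the system of the weighted blow up -/
def tau {c : ℕ} (Φ : Fin c → K) (a : Fin c → ℕ) : Finset K :=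
  open Classical in Finset.univ.image fun i => Φ i ^ a i

/-- the ratios -/
def rat {c : ℕ} (Φ : Fin (c + 1) → K) (a : Fin (c + 1) → ℕ) (i : Fin c) : K :=
  Φ i.succ ^ a i.succ / Φ 0 ^ a 0

/-- `P` is an exceptional prime divisor of the weighted blow up over the generic point -/
structure Ree {N c : ℕ} (T : Subalgebra ℂ K) (ρ : T →ₐ[ℂ] L) (Φ : Fin (c + 1) → K)
    (a : Fin (c + 1) → ℕ) (y : Fin N → L) (P : Pl K) (ι : L →ₐ[ℂ] P.κ) : Prop where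
  mem : ∀ s : T, (s : K) ∈ P.ring
  rd : ∀ s : T, ι (ρ s) = P.rd s
  pos : 0 < P.ord (Φ 0)
  reg : ∀ i, rat Φ a i ∈ P.ring
  ind : AlgebraicIndependent ℂ (Sum.elim (fun i => P.rd (rat Φ a i)) fun j => ι (y j))

end defs

/-- **ONE**: inversion of adjunction, precise form for negative discrepancy -/
def ONE : Prop := ∀ (n : ℕ) (K : Type) [Field K] [Algebra ℂ K], FF K (n + 2) →
  ∀ (Λ Γ b : BD K) (S E : Pl K), Smp Λ → Big Λ → CarQ Γ → Dsc Λ Γ → CarQ b → Dsc Λ b →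
    On (n + 1) Λ S → dsc (n + 2) Γ S = -1 → E ≠ S → CLe Λ E S → 0 < b S →
    (∀ R, CLe Λ E R → On (n + 1) Λ R →
      dsc (n + 2) Γ R ≤ 0 ∧ 0 ≤ b R ∧ (0 < b R → dsc (n + 2) Γ R = -1)) →
    (∀ Q, Upq Λ S E Q → -1 < dsc (n + 1) (adj (n + 1) S Γ) Q) → dsc (n + 2) Γ E < 0 →
    ∃ Q, Upq Λ S E Q ∧ Cq Λ S Q E ∧ dsc (n + 1) (adj (n + 1) S Γ) Q ≤ dsc (n + 2) Γ E

/-- **RSD**: the Poincaré residue -/
def RSD : Prop := ForP fun n K _ _ P => ∀ (z : K) (u : Fin n → K) (Γ : BD K), 0 < P.ord z →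
  (∀ i, u i ∈ P.ring) → (AlgebraicIndependent ℂ fun i => P.rd (u i)) →
  dsc (n + 1) Γ = kap (Fin.cons z u : Fin (n + 1) → K) - dv z →
    dsc (n + 1) Γ P = -1 ∧ dsc n (adj n P Γ) = kap fun i => P.rd (u i)

/-- **MCH**: monomial change of the frame -/
def MCH : Prop := ∀ (N c : ℕ) (K : Type) [Field K] [Algebra ℂ K], FF K (N + (c + 1)) →
  ∀ (Φ : Fin (c + 1) → K) (a : Fin (c + 1) → ℕ) (y : Fin N → K), (∀ i, 0 < a i) →
    AlgebraicIndependent ℂ (fun o : Option (Fin c ⊕ Fin N) =>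
      o.elim (Φ 0 ^ a 0) (Sum.elim (rat Φ a) y)) →
    AlgebraicIndependent ℂ (Sum.elim Φ y) ∧ kp (Sum.elim Φ y) - ∑ i, dv (Φ i) =
      kp (fun o : Option (Fin c ⊕ Fin N) => o.elim (Φ 0 ^ a 0) (Sum.elim (rat Φ a) y)) -
        dv (Φ 0 ^ a 0) - ∑ i, dv (rat Φ a i)

/-- **REE**: the prime divisors of the weighted blow up -/
def REE : Prop := ∀ (n N c : ℕ) (K L : Type) [Field K] [Algebra ℂ K] [Field L] [Algebra ℂ L]
  (T : Subalgebra ℂ K) (u : Finset K) (ρ : T →ₐ[ℂ] L) (Φ : Fin (c + 1) → K) (E : Pl K)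
  (a : Fin (c + 1) → ℕ) (y : Fin N → L), Ci N T u ρ Φ E → N + c = n → (∀ i, 0 < a i) →
    AlgebraicIndependent ℂ y →
    Big (inf u) ∧ (∀ P, CLe (inf u + mx (tau Φ a)) E P → Tru T E P) ∧
    (∃ P, On n (inf u + mx (tau Φ a)) P ∧ CLe (inf u + mx (tau Φ a)) E P ∧ mx (tau Φ a) P < 0) ∧
    ∀ P, On n (inf u + mx (tau Φ a)) P → Tru T E P →
      (mx (tau Φ a) P = 0 ∧ Cb.Sp P T) ∨ (mx (tau Φ a) P < 0 ∧ ∃ ι, Ree T ρ Φ a y P ι)

/-- **UPQ**: the places of the exceptional divisor through the centre of `E` -/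
def UPQ : Prop := ∀ (N c : ℕ) (K L : Type) [Field K] [Algebra ℂ K] [Field L] [Algebra ℂ L]
  (T : Subalgebra ℂ K) (u : Finset K) (ρ : T →ₐ[ℂ] L) (Φ : Fin c → K) (E : Pl K) (w : Finset K)
  (P : Pl K) (Q : Pl P.κ), Ci N T u ρ Φ E → Tru T E P →
    (Upq (inf u + mx w) P E Q → ∀ s : T, P.rd s ∈ Q.ring ∧ (Q.rd (P.rd s) = 0 → E.rd s = 0)) ∧
    (Upq (inf u + mx w) P E Q → Cq (inf u + mx w) P Q E → ∀ s : T, E.rd s = 0 → Q.rd (P.rd s) = 0)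

/-- **GAU**: forms on a fibration; the Gauss extension -/
def GAU : Prop := ∀ (N c : ℕ) (L κ : Type) [Field L] [Algebra ℂ L] [Field κ] [Algebra ℂ κ]
  (ι : L →ₐ[ℂ] κ) (y : Fin N → L) (t : Fin c → κ), FF L N → FF κ (N + c) →
    AlgebraicIndependent ℂ (Sum.elim t fun j => ι (y j)) →
    (∀ Q R, Lies ι.toRingHom Q R → Q.ord (ι R.t) * (1 + kap y R) + ∑ i, (Q.ord (t i) : ℝ) ≤
      1 + kp (Sum.elim t fun j => ι (y j)) Q) ∧
    (∀ Q : Pl κ, (∀ b, ι b ∈ Q.ring) → ∑ i, (Q.ord (t i) : ℝ) ≤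
      1 + kp (Sum.elim t fun j => ι (y j)) Q ∧
      ((∀ i, Q.ord (t i) = 0) → 0 ≤ kp (Sum.elim t fun j => ι (y j)) Q)) ∧
    ∀ R : Pl L, ∃ Q, Lies ι.toRingHom Q R ∧ (∀ i, Q.ord (t i) = 0) ∧
      1 + kp (Sum.elim t fun j => ι (y j)) Q = Q.ord (ι R.t) * (1 + kap y R)

/-- **ADK**: adjunction to an exceptional divisor of the weighted blow up -/
def ADK : Prop := ∀ (n N c : ℕ) (K L : Type) [Field K] [Algebra ℂ K] [Field L] [Algebra ℂ L]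
  (T : Subalgebra ℂ K) (ρ : T →ₐ[ℂ] L) (Φ : Fin (c + 1) → K) (a : Fin (c + 1) → ℕ)
  (y' : Fin N → K) (y : Fin N → L) (M : ℕ) (ψ : K) (ψ₀ : L) (P : Pl K) (ι : L →ₐ[ℂ] P.κ),
    N + c = n → FF K (n + 1) → (∀ i, 0 < a i) → Ree T ρ Φ a y P ι → (∀ j, Lf T ρ (y' j) (y j)) →
    Lf T ρ ψ ψ₀ → ψ₀ ≠ 0 → AlgebraicIndependent ℂ (Sum.elim Φ y') ∧
    ∀ Γ : BD K, (∀ R, 1 + dsc (n + 1) Γ R = ldk Φ y' M ψ R) → Γ ∈ Prn K ∧ CarQ Γ ∧
      dsc (n + 1) Γ P = -1 ∧ ∀ Q, dsc n (adj n P Γ) Q =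
        kp (Sum.elim (fun i => P.rd (rat Φ a i)) fun j => ι (y j)) Q -
          ∑ i, (Q.ord (P.rd (rat Φ a i)) : ℝ) - Q.ord (ι ψ₀) / M

/-- **TPD**: a place whose centre has codimension one -/
def TPD : Prop := ∀ (N : ℕ) (F : Type) [Field F] [Algebra ℂ F] (S : Subalgebra ℂ F) (P : Pl F),
  Aff N S → IsIntegrallyClosed S → Cb.Sp P S → PD S P

/-- **PLC**: places with a given centre -/
def PLC : Prop := ∀ (N : ℕ) (F : Type) [Field F] [Algebra ℂ F] (S : Subalgebra ℂ F) (p : Ideal S),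
  Aff N S → p.IsPrime → p ≠ ⊥ → ∃ P, Cen S p P

/-- **HK**: the lower bound for the log discrepancies goes up -/
def HK : Prop := ∀ (N c : ℕ) (K L : Type) [Field K] [Algebra ℂ K] [Field L] [Algebra ℂ L]
  (T : Subalgebra ℂ K) (u : Finset K) (ρ : T →ₐ[ℂ] L) (Φ : Fin (c + 1) → K) (E : Pl K)
  (y' : Fin N → K) (y : Fin N → L) (M : ℕ) (ψ : K) (ψ₀ : L) (ε δ : ℝ), Ci N T u ρ Φ E → 0 < N →
    0 < ε → 0 < δ → AlgebraicIndependent ℂ y → (∀ j, Lf T ρ (y' j) (y j)) → Lf T ρ ψ ψ₀ → ψ₀ ≠ 0 →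
    (∃ s : T, ρ s ≠ 0 ∧ E.rd s = 0) →
    (∀ P, Tru T E P → Cb.Sp P T → ldk Φ y' M ψ P + δ * ∑ i, (P.ord (Φ i) : ℝ) ≤ 1) →
    (∀ R : Pl L, (∀ s : T, ρ s ∈ R.ring ∧ (R.rd (ρ s) = 0 → E.rd s = 0)) → ε ≤ ld y M ψ₀ R) →
    min ε 1 ≤ ldk Φ y' M ψ E

/-- **FOL**: the back step: a place of `L` is followed by a place of `K` -/
def FOL : Prop := ∀ (N c : ℕ) (K L : Type) [Field K] [Algebra ℂ K] [Field L] [Algebra ℂ L]
  (T : Subalgebra ℂ K) (u : Finset K) (ρ : T →ₐ[ℂ] L) (Φ : Fin (c + 1) → K) (E : Pl K)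
  (y' : Fin N → K) (y : Fin N → L) (M : ℕ) (ψ : K) (ψ₀ : L), Ci N T u ρ Φ E →
    AlgebraicIndependent ℂ y → (∀ j, Lf T ρ (y' j) (y j)) → Lf T ρ ψ ψ₀ → ψ₀ ≠ 0 →
    AlgebraicIndependent ℂ (Sum.elim Φ y') ∧
    ∀ (R : Pl L), (∀ s : T, ρ s ∈ R.ring) → ∃ r : ℕ, 0 < r ∧ ∀ (W : Finset T) (k : ℤ),
      ∃ v : Pl K, (∀ s : T, (s : K) ∈ v.ring ∧ (v.rd s = 0 ↔ R.rd (ρ s) = 0)) ∧
        ldk Φ y' M ψ v = r * ld y M ψ₀ R ∧ ∀ s ∈ W, (s : K) ≠ 0 →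
          (ρ s ≠ 0 → v.ord s = r * R.ord (ρ s)) ∧ (ρ s = 0 → k ≤ v.ord s)

/-- **RES**, positive codimension -/
def RES1 : Prop := ForH fun F F' _ _ _ _ S S' π p => ∀ (N c M : ℕ) (f : Fin c → S')
  (z : Fin M → F') (D' : Fin M → Derivation ℂ F' F') (h : Up N π p f z D') (y : Fin N → F),
    0 < c → Frm y → ∃ j, j ≠ 0 ∧ Rs π h.dim D' f y j ∧ ∀ R, PDat S p R → kap y R = R.ord j

/-- **BCK**, positive codimension -/
def BCK1 : Prop := ForH fun F F' _ _ _ _ S S' π p => ∀ (N c M : ℕ) (f : Fin c → S')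
  (z : Fin M → F') (D' : Fin M → Derivation ℂ F' F') (h : Up N π p f z D') (y : Fin N → F) (j : F),
    0 < c → Frm y → j ≠ 0 → Rs π h.dim D' f y j →
    ∀ (R : Pl F) (T : Finset S') (a₀ : ℤ), Cen S p R →
      ∃ (P : Pl F') (e : ℕ), 0 < e ∧ Cen S' (p.comap π) P ∧
        (∀ a ∈ T, π a ≠ 0 → P.ord a = e * R.ord (π a)) ∧
        (∀ a ∈ T, π a = 0 → a ≠ 0 → e * a₀ ≤ P.ord a) ∧
        1 + kap z P - ∑ i, (P.ord (f i) : ℝ) ≤ e * (1 + kap y R - R.ord j)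

/-- **HUP**, positive codimension -/
def HUP1 : Prop := ForH fun F F' _ _ _ _ S S' π p => ∀ (N c M : ℕ) (f : Fin c → S')
  (z : Fin M → F') (D' : Fin M → Derivation ℂ F' F') (h : Up N π p f z D') (y : Fin N → F) (j : F)
  (A' : Subgroup (F' ≃ₐ[ℂ] F')) (A : Subgroup (F ≃ₐ[ℂ] F)) (g : S') (Q : ℕ) (ε : ℝ), 0 < c →
    p ≠ ⊥ → Frm y → j ≠ 0 → Rs π h.dim D' f y j → (∀ R, PDat S p R → kap y R = R.ord j) →
    Cor π p A' A → (∀ l, Eig A' (z l)) → (∀ i, Eig A' (f i : F')) → Eig A' (g : F') →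
    (∀ i, Fix A (y i)) → π g ≠ 0 → 0 < Q → 0 < ε → ε ≤ 1 →
    (∀ q : Ideal S, q ≤ p → Hyp ε A S q y Q (j ^ Q * π g)) →
    Hyp ε A' S' (p.comap π) z Q ((∏ i, (f i : F')) ^ Q * g)

/-- **CIU**: the outer frame gives the data `Ci` (trivial group) -/
def CIU : Prop := ForH fun F F' _ _ _ _ S S' π p => ∀ (N c M : ℕ) (f : Fin c → S')
  (z : Fin M → F') (D' : Fin M → Derivation ℂ F' F'), Up N π p f z D' →
    (∀ i, f i ≠ 0) ∧ IsIntegrallyClosed S' ∧ ∀ E, Cen S' (p.comap π) E →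
      ∃ u, Ci N S' u (S.val.comp π) (fun i => (f i : F')) E

end Vale.Agent.P283R.H
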