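import Vale.Agent.P283R.H.Acr
import Vale.Agent.P283R.H.Ks

/-!
# P283R, block H: the assembly, with `HUP` in positive codimension only
-/

set_option linter.all false

open Set
open Vale.Agent.P285N.Brep (jac Fr)
open Vale.Agent.P297Z

noncomputable section

namespace Vale.Agent.P283R.H

open Vale.Agent.P287D

theorem ac_zero (a0 : P283R.A0) : AC 0 := by
  intro N Q ε hQ hε
  obtain ⟨J, n₀, pos, H⟩ := a0 N Q ε hQ hε
  refine ⟨J, n₀, pos, fun n hn dn dQ F F' _ _ _ _ G S G' S' π f p y m g h pr l pri eq hy _ => ?_⟩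
  have inj : Function.Injective π := by
    rw [RingHom.injective_iff_ker_eq_bot, l.ker, range_eq_empty, Ideal.span_empty]
  have := l.sm
  exact H n hn dn dQ F G S p y m g h pr
    (Algebra.Smooth.of_equiv (AlgEquiv.ofBijective π ⟨inj, l.sur⟩)) pri eq (hy p le_rfl)

theorem ac_pos (pt : PT) (eig : EIG) (sem : SEM) (hrt : HRT) (der : DER) (gen : GEN) (res : RES)
    (chr : CHR) (bck : BCK) (hup : HUP1) {c : ℕ} (hc : 0 < c) : AC c := by
  intro N Q ε hQ hε
  obtain ⟨J, hJ⟩ := eig (N + c)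
  have ε0 : 0 < min ε 1 := lt_min hε one_pos
  choose n₀ pos H using fun k => pt k Q (min ε 1) hQ ε0
  refine ⟨J, ∏ k ∈ Finset.range (N + c + 1), n₀ k, Finset.prod_pos fun k _ => pos k, ?_⟩
  intro n hn dn dQ F F' _ _ _ _ G S G' S' π f p y m g h pr l pri eq hy _
  have pri' : (p.comap π).IsPrime := Ideal.comap_isPrime π p
  obtain ⟨A', k, r, x, t, ix, com, par, hx, ht⟩ := hJ F' S' G' _ l.aff l.sm l.fin l.stab pri'
  have dim : N + c = k + r := Gm.ff_uniq par.aff.ff l.aff.ff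
  have sA : Stab A' S' := fun σ hσ => l.stab σ (ix.le hσ)
  obtain ⟨idx, cor⟩ := Ac.idx pr.fin pr.stab l ix sA
  set A := Ac.img π G A' sA
  have prA : Pr N A S y m g := ⟨pr.aff, pr.nor, cor.fin, cor.stab,
    fun i σ hσ => pr.fy i σ (idx.le hσ), pr.fr, pr.pos, pr.ne, fun σ hσ => pr.fg σ (idx.le hσ)⟩
  obtain ⟨h₁, eq', eh, hS⟩ := sem _ Q F S p A y m g h prA pri idx.inr eq
  obtain ⟨⟨f', f1, f2, f3⟩, lift⟩ := gen F F' S S' π p c f A' A l.aff.fg l.sur l.ker pri cor com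
  obtain ⟨h', e', eh'⟩ := lift ⟨h₁, hS⟩ eh
  obtain rfl : h₁ = π h' := by rw [e']
  obtain ⟨D', fr, pre, -⟩ := der k r F' S' _ x t par
  have tA : ∀ i, Fix A' (t i : F') := fun i σ hσ => ht i σ (ix.le hσ)
  have up : Up N π p f' (Fin.append x fun i => (t i : F')) D' :=
    ⟨pr.aff, pr.nor, par.aff, l.sm, by omega, l.sur, pri, f1, f3, fr, fun a => by
      refine Fin.addCases (fun a => ?_) (fun a => ?_) a
      · obtain ⟨s, -, e⟩ := par.mem a
        rw [Fin.append_left, ← e]; exact s.2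
      · rw [Fin.append_right]; exact (t a).2, pre⟩
  obtain ⟨j, j0, rs, kj⟩ := res F F' S S' π p N c _ f' _ D' up y pr.fr
  have h1 : π h' ≠ 0 := fun e => eq'.2.1 (by rw [e]; rfl)
  have h2 : (h' : F') ≠ 0 := fun e => h1 (by rw [ZeroMemClass.coe_eq_zero.1 e, map_zero])
  refine ⟨A, idx, Ac.core (ε := min ε 1) hrt chr bck hQ hn dQ up par cor idx.le pr hx tA f2 eh' eq'
    j0 rs kj (fun q hq P hP e he dv => le_trans (mul_le_mul_of_nonneg_right (min_le_left _ _)
      (Nat.cast_nonneg _)) (hy q hq P hP e he dv)) fun p0 hq => ?_⟩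
  refine H k n hn ((Finset.dvd_prod_of_mem n₀ (Finset.mem_range.2 (by omega))).trans dn) dQ r F' S'
    _ x t A' _ par cor.fin' sA ix.inr hx tA ?_ ?_ ?_ (hup F F' S S' π p N c _ f' _ D' up y j A' A
      h' Q _ hc p0 pr.fr j0 rs kj cor (fun a => ?_) f2 eh' prA.fy h1 hQ ε0 (min_le_right _ _) hq)
  · exact ⟨(∏ i, f' i) ^ Q * h', 1, (Ideal.ne_top_iff_one _).1 pri'.ne_top, by simp⟩
  · exact mul_ne_zero (pow_ne_zero _ (Finset.prod_ne_zero_iff.2 fun i _ => Ac.f_ne j0 rs i)) h2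
  · intro σ hσ
    choose β hβ using fun i => f2 i σ hσ
    obtain ⟨γ, hγ⟩ := eh' σ hσ
    refine ⟨(∏ i, β i) ^ Q * γ, ?_⟩
    simp only [map_mul, map_pow, map_prod, hβ, hγ, Algebra.smul_def, mul_pow,
      Finset.prod_mul_distrib]
    ring
  · refine Fin.addCases (fun a => ?_) (fun a => ?_) a
    · rw [Fin.append_left]; exact hx a
    · rw [Fin.append_right]; exact fun σ hσ => ⟨1, by rw [tA a σ hσ, one_smul]⟩

/-- all codimensions -/
theorem acr1 (pt : PT) (eig : EIG) (sem : SEM) (hrt : HRT) (der : DER) (a0 : P283R.A0) (gen : GEN)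
    (res : RES) (chr : CHR) (bck : BCK) (hup : HUP1) (c : ℕ) : AC c :=
  c.eq_zero_or_pos.elim (fun e => e ▸ ac_zero a0) fun hc =>
    ac_pos pt eig sem hrt der gen res chr bck hup hc

end Vale.Agent.P283R.H
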