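import Vale.Agent.P283R.H.Ks
import Vale.Agent.P283R.H.Adf

/-!
# P283R, block H: adjunction to an exceptional divisor of the weighted blow up
-/

open Set

noncomputable section

namespace Vale.Agent.P283R.H

open Vale.Agent.P287D Vale.Agent.P287D.Cb

namespace Adk

variable {K L : Type} [Field K] [Algebra ℂ K] [Field L] [Algebra ℂ L] {n : ℕ} {P : Pl K}

theorem ord0 {x : K} (h : x ∈ P.ring) (k : P.rd x ≠ 0) : P.ord x = 0 := by
  have h4 : ¬ Mx P x := fun e => k ((rd_eq_zero h).2 e)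
  rw [mx_iff, not_or] at h4
  have := P297Z.Pl.ord_nonneg_of_mem _ h
  omega

/-- the residue of a function that is regular at the generic point of the kernel -/
theorem lf_rd {T : Subalgebra ℂ K} {ρ : T →ₐ[ℂ] L} {ι : L →ₐ[ℂ] P.κ}
    (hm : ∀ s : T, (s : K) ∈ P.ring) (hr : ∀ s : T, ι (ρ s) = P.rd s) {a : K} {b : L}
    (h : H.Lf T ρ a b) : a ∈ P.ring ∧ P.rd a = ι b := by
  obtain ⟨s, t, t0, rfl, rfl⟩ := h
  have t1 : P.rd t ≠ 0 := hr t ▸ (map_ne_zero ι).2 t0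
  have t2 : ¬ Mx P (t : K) := fun e => t1 ((rd_eq_zero (hm t)).2 e)
  have t3 : (t : K) ≠ 0 := fun e => t2 (e ▸ mx_zero)
  have m : (s : K) / t ∈ P.ring := div_eq_mul_inv (s : K) t ▸ mul_mem (hm s) (inv_mem_of t2)
  refine ⟨m, ?_⟩
  rw [map_div₀, hr, hr, eq_div_iff t1, ← rd_mul m (hm t), div_mul_cancel₀ _ t3]

theorem res_sum (hK : FF K (n + 1)) (P : Pl K) {ι : Type} (s : Finset ι) {w : ι → K}
    (hw : ∀ i, P.ord (w i) = 0) : res P (∑ i ∈ s, dv (w i)) = ∑ i ∈ s, dv (P.rd (w i)) := by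
  classical
  induction s using Finset.induction_on with
  | empty => simpa using Aj.res_smul hK P 0 (dv_mem_Car 0)
  | insert i s hi ih =>
    rw [Finset.sum_insert hi, Finset.sum_insert hi, Aj.res_add hK P (dv_mem_Car _)
      (sum_mem fun _ _ => dv_mem_Car _), ih, res_dv0 hK P (hw i)]

end Adk

open Adk in
/-- **ADK** -/
theorem adk_of (H : MCH) : ADK := by
  intro n N c K L _ _ _ _ T ρ Φ a y' y M ψ ψ₀ P ι hn hK ha hR hy hψ ψ0
  subst hn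
  let e : Fin (N + c) ≃ Fin c ⊕ Fin N := finSumFinEquiv.symm.trans (Equiv.sumComm _ _)
  let e' : Fin (N + c + 1) ≃ Option (Fin c ⊕ Fin N) := (finSuccEquiv _).trans e.optionCongr
  have m : ∀ i, Sum.elim (rat Φ a) y' i ∈ P.ring ∧ P.rd (Sum.elim (rat Φ a) y' i) =
      Sum.elim (fun i => P.rd (rat Φ a i)) (fun j => ι (y j)) i := by
    rintro (i | j)
    exacts [⟨hR.reg i, rfl⟩, lf_rd hR.mem hR.rd (hy j)]
  have hκ := Bm.ff_κ hK P
  have ey : (fun i => P.rd ((Sum.elim (rat Φ a) y' ∘ e) i)) =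
      Sum.elim (fun i => P.rd (rat Φ a i)) (fun j => ι (y j)) ∘ e := funext fun i => (m _).2
  have hφ : P.ord (Φ 0 ^ a 0) ≠ 0 := by
    rw [P297Z.Pl.ord_pow]
    exact mul_ne_zero (Int.natCast_ne_zero.2 (ha 0).ne') hR.pos.ne'
  obtain ⟨⟨D, h1⟩, h2, h3, h4⟩ := adf0 hK P (y := Sum.elim (rat Φ a) y' ∘ e) hφ
    (fun i => (m _).1) (by rw [ey]; exact fr_of hκ (hR.ind.comp e e.injective))
  have ee : (fun o : Option (Fin c ⊕ Fin N) => o.elim (Φ 0 ^ a 0) (Sum.elim (rat Φ a) y')) ∘ e' =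
      Fin.cons (Φ 0 ^ a 0) (Sum.elim (rat Φ a) y' ∘ e) := by
    funext i
    refine Fin.cases ?_ (fun i => ?_) i <;> simp [e']
  obtain ⟨k1, k2⟩ := H N c K hK Φ a y' ha
    ((algebraicIndependent_equiv e').1 (ee ▸ ind_of_fr h1))
  rw [kp_eq hK _ e', ee] at k2
  obtain ⟨ψ1, ψ2⟩ := lf_rd hR.mem hR.rd hψ
  have o1 : P.ord ψ = 0 := ord0 ψ1 (ψ2 ▸ (map_ne_zero ι).2 ψ0)
  have o2 : ∀ i, P.ord (rat Φ a i) = 0 := fun i => ord0 (hR.reg i) (hR.ind.ne_zero (Sum.inl i))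
  refine ⟨k1, fun Γ hΓ => ?_⟩
  have eΓ : Γ = cn K (N + c + 1) - kap (Fin.cons (Φ 0 ^ a 0) (Sum.elim (rat Φ a) y' ∘ e) :
      Fin (N + c + 1) → K) + dv (Φ 0 ^ a 0) + (∑ i, dv (rat Φ a i) + (M : ℝ)⁻¹ • dv ψ) := by
    funext R
    have a1 := hΓ R
    have a2 := congrFun k2 R
    simp only [dsc, ldk, Pi.sub_apply, Pi.add_apply, Pi.smul_apply, Finset.sum_apply, dv_apply,
      smul_eq_mul, div_eq_inv_mul] at a1 a2 ⊢
    linarith
  have c1 : ∑ i, dv (rat Φ a i) ∈ Prn K := sum_mem fun _ _ => dv_mem_Prn _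
  have c2 := Submodule.smul_mem _ (M : ℝ)⁻¹ (dv_mem_Prn ψ)
  subst eΓ
  refine ⟨add_mem ?_ (add_mem c1 c2), (CarZ.carQ h2).add ((CarQ.sum _ fun _ _ => carQ_dv _).add ?_),
    ?_, fun Q => ?_⟩
  · obtain ⟨f, -, ef⟩ := cn_kap hK (ind_of_fr h1)
    rw [ef, add_sub_cancel_left]
    exact add_mem (dv_mem_Prn _) (dv_mem_Prn _)
  · simpa using (carQ_dv ψ).qsmul (M : ℚ)⁻¹
  · simp only [dsc, Pi.sub_apply, Pi.add_apply, Pi.smul_apply, Finset.sum_apply, dv_apply, o1, o2,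
      smul_eq_mul] at h3 ⊢
    simpa using h3
  · have h5 := congrFun h4 Q
    rw [(a4 _ K hK P _ (CarZ.car h2) _ (Prn_le_Car (add_mem c1 c2))).1,
      Aj.res_add hK P (Prn_le_Car c1) (Prn_le_Car c2), res_sum hK P _ o2,
      Aj.res_smul hK P _ (dv_mem_Car _), res_dv0 hK P o1, ψ2, kp_eq hκ _ e, ← ey, ← h5]
    simp only [dsc, Pi.sub_apply, Pi.add_apply, Pi.smul_apply, Finset.sum_apply, dv_apply,
      smul_eq_mul, div_eq_inv_mul]
    ring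

end Vale.Agent.P283R.H
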