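import Vale.Agent.P283R.Tp.St

/-!
# P283R, block H: complete intersections (the outer frame)
-/

open Set
open Vale.Agent.P285N.Brep (jac Fr)

noncomputable section

namespace Vale.Agent.P283R.H

open Vale.Agent.P287D

section defs

variable {F F' : Type} [Field F] [Algebra ℂ F] [Field F'] [Algebra ℂ F'] {N c M : ℕ}
  {S : Subalgebra ℂ F} {S' : Subalgebra ℂ F'}

/-- `σ'` induces `σ` -/
def Ovr (π : S' →ₐ[ℂ] S) (σ' : F' ≃ₐ[ℂ] F') (σ : F ≃ₐ[ℂ] F) : Prop :=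
  ∀ a b : S', σ' a = b → σ (π a) = π b

/-- near `p` the normal variety `Spec S` is the complete intersection `f = 0` in the smooth variety
`Spec S'` with the etale coordinates `z` -/
structure Up (N : ℕ) (π : S' →ₐ[ℂ] S) (p : Ideal S) (f : Fin c → S') (z : Fin M → F')
    (D' : Fin M → Derivation ℂ F' F') : Prop where
  aff : Aff N S
  nor : IsIntegrallyClosed S
  aff' : Aff M S'
  sm : Algebra.Smooth ℂ S'
  dim : M = c + N
  sur : Function.Surjective π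
  pri : p.IsPrime
  ker : ∀ i, π (f i) = 0
  gen : ∀ a, π a = 0 → ∃ s, π s ∉ p ∧ s * a ∈ Ideal.span (range f)
  fr : Fr z D'
  mem : ∀ l, z l ∈ S'
  pre : ∀ l, ∀ a ∈ Lo S' (p.comap π), D' l a ∈ Lo S' (p.comap π)

/-- `dy = j η`, where `η` is the residue of the form `dz / ∏ f` -/
def Rs (π : S' →ₐ[ℂ] S) (h : M = c + N) (D' : Fin M → Derivation ℂ F' F') (f : Fin c → S')
    (y : Fin N → F) (j : F) : Prop :=
  ∃ (u : Fin N → S') (D : Fin N → Derivation ℂ F F) (a b : S'), Fr (fun i => (π (u i) : F)) D ∧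
    π b ≠ 0 ∧ jac D' (fun l => (Fin.append f u (Fin.cast h l) : S')) = a / b ∧
    j = jac D y * π a / π b

/-- the finite group `A'` lies in the inertia group of the point over `p` and induces `A` -/
structure Cor (π : S' →ₐ[ℂ] S) (p : Ideal S) (A' : Subgroup (F' ≃ₐ[ℂ] F'))
    (A : Subgroup (F ≃ₐ[ℂ] F)) : Prop where
  fin' : Finite A'
  fin : Finite A
  stab' : Stab A' S'
  stab : Stab A S
  inr' : ∀ σ' ∈ A', Inr S' (p.comap π) σ'
  inr : ∀ σ ∈ A, Inr S p σ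
  up : ∀ σ ∈ A, ∃ σ' ∈ A', Ovr π σ' σ
  down : ∀ σ' ∈ A', ∃ σ ∈ A, Ovr π σ' σ

end defs

/-- a statement for all maps of affine models -/
def ForH (P : ∀ (F F' : Type) [Field F] [Algebra ℂ F] [Field F'] [Algebra ℂ F']
    (S : Subalgebra ℂ F) (S' : Subalgebra ℂ F'), (S' →ₐ[ℂ] S) → Ideal S → Prop) : Prop :=
  ∀ (F F' : Type) [Field F] [Algebra ℂ F] [Field F'] [Algebra ℂ F'] (S : Subalgebra ℂ F)
    (S' : Subalgebra ℂ F') (π : S' →ₐ[ℂ] S) (p : Ideal S), P F F' S S' π p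

/-- **GEN**: semi-invariant local equations (possibly padded by `0`), semi-invariant lifts -/
def GEN : Prop := ForH fun F F' _ _ _ _ S S' π p => ∀ (c : ℕ) (f : Fin c → S')
  (A' : Subgroup (F' ≃ₐ[ℂ] F')) (A : Subgroup (F ≃ₐ[ℂ] F)), S'.FG → Function.Surjective π →
    RingHom.ker π = Ideal.span (range f) → p.IsPrime → Cor π p A' A →
    (∀ σ ∈ A', ∀ τ ∈ A', σ * τ = τ * σ) →
    (∃ f' : Fin c → S', (∀ i, π (f' i) = 0) ∧ (∀ i, Eig A' (f' i : F')) ∧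
      ∀ a, π a = 0 → ∃ s, π s ∉ p ∧ s * a ∈ Ideal.span (range f')) ∧
    ∀ h : S, Eig A (h : F) → ∃ h' : S', π h' = h ∧ Eig A' (h' : F')

/-- **RES**: the residue generates the canonical sheaf near `p` -/
def RES : Prop := ForH fun F F' _ _ _ _ S S' π p => ∀ (N c M : ℕ) (f : Fin c → S')
  (z : Fin M → F') (D' : Fin M → Derivation ℂ F' F') (h : Up N π p f z D') (y : Fin N → F),
    Frm y → ∃ j, j ≠ 0 ∧ Rs π h.dim D' f y j ∧ ∀ R, PDat S p R → kap y R = R.ord j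

/-- **CHR**: the character of the residue -/
def CHR : Prop := ForH fun F F' _ _ _ _ _ S' π p => ∀ (N c M : ℕ) (f : Fin c → S')
  (z : Fin M → F') (D' : Fin M → Derivation ℂ F' F') (h : Up N π p f z D') (y : Fin N → F) (j : F),
    j ≠ 0 → Rs π h.dim D' f y j → ∀ (σ' : F' ≃ₐ[ℂ] F') (σ : F ≃ₐ[ℂ] F) (α : Fin M → ℂ) (β : Fin c → ℂ),
      (∀ a ∈ S', σ' a ∈ S') → Ovr π σ' σ → (∀ l, σ' (z l) = α l • z l) →
      (∀ i, σ' (f i) = β i • (f i : F')) → (∀ i, σ (y i) = y i) →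
      (∏ l, α l) • σ j = (∏ i, β i) • j

/-- **BCK**: the back step -/
def BCK : Prop := ForH fun F F' _ _ _ _ S S' π p => ∀ (N c M : ℕ) (f : Fin c → S')
  (z : Fin M → F') (D' : Fin M → Derivation ℂ F' F') (h : Up N π p f z D') (y : Fin N → F) (j : F),
    Frm y → j ≠ 0 → Rs π h.dim D' f y j → ∀ (R : Pl F) (T : Finset S') (a₀ : ℤ), Cen S p R →
      ∃ (P : Pl F') (e : ℕ), 0 < e ∧ Cen S' (p.comap π) P ∧
        (∀ a ∈ T, π a ≠ 0 → P.ord a = e * R.ord (π a)) ∧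
        (∀ a ∈ T, π a = 0 → a ≠ 0 → e * a₀ ≤ P.ord a) ∧
        1 + kap z P - ∑ i, (P.ord (f i) : ℝ) ≤ e * (1 + kap y R - R.ord j)

/-- **HUP**: inversion of adjunction on the quotients -/
def HUP : Prop := ForH fun F F' _ _ _ _ S S' π p => ∀ (N c M : ℕ) (f : Fin c → S')
  (z : Fin M → F') (D' : Fin M → Derivation ℂ F' F') (h : Up N π p f z D') (y : Fin N → F) (j : F)
  (A' : Subgroup (F' ≃ₐ[ℂ] F')) (A : Subgroup (F ≃ₐ[ℂ] F)) (g : S') (Q : ℕ) (ε : ℝ),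
    p ≠ ⊥ → Frm y → j ≠ 0 → Rs π h.dim D' f y j → (∀ R, PDat S p R → kap y R = R.ord j) →
    Cor π p A' A → (∀ l, Eig A' (z l)) → (∀ i, Eig A' (f i : F')) → Eig A' (g : F') →
    (∀ i, Fix A (y i)) → π g ≠ 0 → 0 < Q → 0 < ε → ε ≤ 1 →
    (∀ q : Ideal S, q ≤ p → Hyp ε A S q y Q (j ^ Q * π g)) →
    Hyp ε A' S' (p.comap π) z Q ((∏ i, (f i : F')) ^ Q * g)

/-- **ACR**: the assembly -/
def ACR : Prop := PT → EIG → SEM → HRT → DER → GEN → RES → CHR → BCK → HUP → ∀ c, AC c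

end Vale.Agent.P283R.H
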