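import Vale.Agent.P283R.H.Bk2
import Vale.Agent.P283R.H.St
import Vale.Agent.P283R.Tp.Der
import Vale.Agent.P287D.Cb.Row

/-!
# P283R, block H: the back step (**BCK**)
-/

open Set
open Vale.Agent.P285N.Brep (jac Fr)
open Vale.Agent.P297Z

noncomputable section

namespace Vale.Agent.P283R.H

open Vale.Agent.P287D Vale.Agent.P287D.Cb

namespace Bk

variable {F F' : Type} [Field F] [Algebra ℂ F] [Field F'] [Algebra ℂ F'] {S' : Subalgebra ℂ F'}
  {π : S' →ₐ[ℂ] F} {R : Pl F} {c n : ℕ}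

/-- the valuation ring as an algebra -/
def rg (P : Pl F) : Subalgebra ℂ F := { P.ring.toSubring with algebraMap_mem' := P.con }

theorem close {τ : F'} (hτ : (τ, R.t) ∈ gr π) {L : Set (F' × F)} (hL : L.Finite) (h : L ⊆ gr π)
    (a₀ : ℤ) : ∃ G : Set F', G.Finite ∧ G ⊆ V π R ∧ ∀ P : Pl F', (∀ a ∈ G, a ∈ P.ring) → ∀ z ∈ L,
      (z.2 ≠ 0 → P.ord z.1 = P.ord τ * R.ord z.2) ∧
      (z.2 = 0 → z.1 ≠ 0 → P.ord τ * a₀ ≤ P.ord z.1) := by
  classical
  have t0 := R.t_ne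
  have τ0 := gr_ne hτ t0
  let g : F' × F → F' := fun z => z.1 / τ ^ if z.2 = 0 then a₀ else R.ord z.2
  have k : ∀ z ∈ L, (g z, z.2 / R.t ^ if z.2 = 0 then a₀ else R.ord z.2) ∈ gr π := fun z hz =>
    gr_div (h hz) (gr_zpow hτ t0 _) (zpow_ne_zero _ t0)
  have o : ∀ x : F, x ≠ 0 → R.ord (x / R.t ^ R.ord x) = 0 := fun x hx => by
    rw [Pl.ord_div _ hx (zpow_ne_zero _ t0), R.ord_t_zpow, sub_self]
  refine ⟨g '' L ∪ (fun z => (g z)⁻¹) '' (L ∩ {z | z.2 ≠ 0}),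
    (hL.image _).union ((hL.inter_of_left _).image _), ?_, fun P hP z hz => ⟨fun h0 => ?_,
      fun h0 h1 => ?_⟩⟩
  · rintro _ (⟨z, hz, rfl⟩ | ⟨z, ⟨hz, h0⟩, rfl⟩)
    · refine ⟨_, ?_, k z hz⟩
      split_ifs with h0
      · rw [h0, zero_div]; exact zero_mem _
      · exact mem_ord (o _ h0).ge
    · refine ⟨_, ?_, gr_inv (k z hz) (div_ne_zero h0 (zpow_ne_zero _ t0))⟩
      rw [if_neg h0]
      exact inv_mem_ord (o _ h0)
  · have := Pl.ord_unit _ (hP _ (.inl ⟨z, hz, rfl⟩)) (hP _ (.inr ⟨z, ⟨hz, h0⟩, rfl⟩))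
    simp only [g, if_neg h0] at this
    rw [Pl.ord_div _ (gr_ne (h hz) h0) (zpow_ne_zero _ τ0), Pl.ord_zpow] at this
    linarith
  · have := Pl.ord_nonneg_of_mem _ (hP _ (.inl ⟨z, hz, rfl⟩))
    simp only [g, if_pos h0] at this
    rw [Pl.ord_div _ h1 (zpow_ne_zero _ τ0), Pl.ord_zpow] at this
    linarith

/-- the canonical divisor at a weighted blow up -/
theorem kap_up (hF : FF F' (c + (n + 1))) {P : Pl F'} {f : Fin c → F'} {τ : F'} {v : Fin n → F'}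
    {k : ℕ} {E : Fin (c + (n + 1)) → Derivation ℂ F' F'}
    (hE : Fr (Fin.append f (Fin.cons τ v : Fin (n + 1) → F')) E) (hτ : 0 < P.ord τ)
    (ha : Ada P P.t (Fin.append (fun i => f i / τ ^ k) v)) {y : Fin (c + (n + 1)) → F'}
    (h0 : jac E y ≠ 0) :
    kap y P + 1 ≤ ∑ i, (P.ord (f i) : ℝ) + P.ord τ + P.ord (jac E y) := by
  have ne := ((jac_ne_iff hE _).1 (jac_ne hE hE)).ne_zero
  have f0 : ∀ i, f i ≠ 0 := fun i => by simpa using ne (Fin.castAdd _ i)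
  have τ0 : τ ≠ 0 := by simpa using ne (Fin.natAdd c 0)
  let w : Fin (c + (n + 1)) → F' := Fin.append f (Fin.cons τ 1 : Fin (n + 1) → F')
  have hw : ∀ l m, (w l • E l) (Fin.append f (Fin.cons τ v : Fin (n + 1) → F') m) / w m ∈ P.ring :=
    fun l m => by
      rw [Derivation.smul_apply, hE.dual]
      split_ifs with e
      · rw [e, smul_eq_mul, mul_one, div_self]
        · exact one_mem _
        · refine Fin.addCases (fun i => ?_) (fun i => ?_) m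
          · simpa [w] using f0 i
          · refine Fin.cases ?_ (fun i => ?_) i <;> simp [w, τ0]
      · rw [smul_zero, zero_div]; exact zero_mem _
  have lg : ∀ l, Lg P (w l • E l : Derivation ℂ F' F') := fun l => by
    obtain ⟨b, hb⟩ := lg_bdd hF P (w l • E l)
    have h1 : (w l • E l) τ / τ ∈ P.ring := by simpa [w] using hw l (Fin.natAdd c 0)
    refine lg_of (dr_of _) (ha.sp (n := c + n) hF) ?_
      (fun a => by rw [Derivation.map_algebraMap]; exact zero_mem _) hτ.ne' h1 b hb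
    rintro _ ⟨m, rfl⟩
    refine Fin.addCases (fun i => ?_) (fun i => ?_) m
    · have h2 : (w l • E l) (f i) / f i ∈ P.ring := by simpa [w] using hw l (Fin.castAdd _ i)
      have h3 := ha.mem (Fin.castAdd n i)
      have h4 := (dr_of (w l • E l)).ld_mul (f0 i) (zpow_ne_zero (-k : ℤ) τ0)
      rw [(dr_of (w l • E l)).ld_zpow τ0, zpow_neg, zpow_natCast, ← div_eq_mul_inv,
        RingHom.id_apply, div_eq_iff (div_ne_zero (f0 i) (pow_ne_zero _ τ0))] at h4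
      rw [Fin.append_left] at h3 ⊢
      exact h4 ▸ mul_mem (add_mem h2 (mul_mem (int_mem P _) h1)) h3
    · simpa [w] using hw l (Fin.natAdd c i.succ)
  have e : jac (fun l => w l • E l) y = (∏ i, f i) * τ * jac E y := by
    have : ∏ l, w l = (∏ i, f i) * τ := by simp [w, Fin.prod_univ_add, Fin.prod_univ_succ]
    rw [← this, jac, jac, ← Matrix.det_mul_column]
    rfl
  have p0 := Finset.prod_ne_zero_iff.2 fun i (_ : i ∈ Finset.univ) => f0 i
  have := kap_le hF lg (y := y) (e ▸ mul_ne_zero (mul_ne_zero p0 τ0) h0)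
  rw [e, Pl.ord_mul _ (mul_ne_zero p0 τ0) h0, Pl.ord_mul _ p0 τ0,
    P.ord_prod _ fun i _ => f0 i] at this
  exact_mod_cast this

end Bk

open Bk

/-- **BCK** -/
theorem bck : BCK := by
  intro F F' _ _ _ _ S S' π p N c M f z D' h y j hy j0 hr R T a₀ hR
  obtain rfl := h.dim
  cases N with
  | zero => exact (no_pl h.aff.ff R).elim
  | succ n =>
  obtain ⟨u, D, a, b, hD, b0, e1, e2⟩ := hr
  obtain ⟨ρ, hρ⟩ : ∃ ρ : S' →ₐ[ℂ] F, ∀ s, ρ s = π s := ⟨S.val.comp π, fun _ => rfl⟩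
  have z0 : ∀ s, ρ s = 0 ↔ π s = 0 := fun s => by rw [hρ, ZeroMemClass.coe_eq_zero]
  have hF' := h.aff'.ff
  have hs : ∀ x, ∃ a, (a, x) ∈ gr ρ := fun x => by
    obtain ⟨s, t, rfl⟩ := h.aff.fr x
    obtain ⟨s, rfl⟩ := h.sur s
    obtain ⟨t, rfl⟩ := h.sur t
    rw [← hρ, ← hρ]
    by_cases t0 : ρ t = 0
    · exact ⟨0, by rw [t0, div_zero]; exact zero_mem _⟩
    · exact ⟨_, gr_div (gr_coe s) (gr_coe t) t0⟩
  have pD : ∀ l, ∀ a ∈ O ρ, D' l a ∈ O ρ := fun l _ ⟨_, s, t, ht, e, _⟩ => by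
    have : p.IsPrime := h.pri
    obtain ⟨s', t', ht', e'⟩ := Dr13.der_lo (RingHom.ker_isPrime ρ) (p := p.comap π)
      (fun s hs => by rw [Ideal.mem_comap, (z0 s).1 hs]; exact zero_mem _)
      (fun s => h.pre l _ (Dr13.coe_mem inferInstance s)) ⟨s, t, ht, e⟩
    exact ⟨_, s', t', ht', e', rfl⟩
  have a1 : ρ a ≠ 0 := fun e => j0 (by rw [e2, ← hρ, e, mul_zero, zero_div])
  have b1 : ρ b ≠ 0 := fun e => b0 ((z0 b).1 e)
  have y0 : jac D y ≠ 0 := fun e => j0 (by rw [e2, e, zero_mul, zero_div])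
  have e3 : jac D' (Fin.append (fun i => (f i : F')) fun i => (u i : F')) = a / b := by
    rw [← e1]
    congr 1
    funext l
    refine Fin.addCases (fun i => ?_) (fun i => ?_) l <;> simp
  have g1 := gr_div (gr_coe a) (gr_coe b) b1
  have n1 := div_ne_zero a1 b1
  rw [← e3] at g1
  obtain ⟨E, hE⟩ := fr_of hF' ((jac_ne_iff h.fr _).1 (gr_ne g1 n1))
  have ap : ∀ s : Fin (n + 1) → F', (∀ i, s i ∈ O ρ) → ∀ l,
      Fin.append (fun i => (f i : F')) s l ∈ O ρ := fun s hs l => by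
    refine Fin.addCases (fun i => ?_) (fun i => ?_) l
    · rw [Fin.append_left]; exact ⟨_, gr_coe _⟩
    · rw [Fin.append_right]; exact hs i
  have pE := pres hE pD (ap _ fun i => ⟨_, gr_coe _⟩) (gr_ne g1 n1) ⟨_, gr_inv g1 n1⟩
  obtain ⟨v', ha⟩ := exists_ada h.aff.ff R
  choose v hv using fun i => hs (v' i)
  obtain ⟨τ, hτ⟩ := hs R.t
  have hc : ∀ i, ((Fin.cons τ v : Fin (n + 1) → F') i, (Fin.cons R.t v' : Fin (n + 1) → F) i) ∈
      gr ρ := Fin.cases hτ hv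
  have f0 : ∀ i, ρ (f i) = 0 := fun i => (z0 _).2 (h.ker i)
  have g2 := res_jac hs f0 (fun a ha => by
    obtain ⟨s, s0, hs⟩ := h.gen a ((z0 a).1 ha)
    exact ⟨s, fun e => s0 ((z0 s).1 e ▸ zero_mem _), hs⟩) (fun i => hρ (u i) ▸ gr_coe (u i)) hc hE pE hD
  have n2 := (jac_ne_iff hD _).2 ha.indep
  obtain ⟨E', hE'⟩ := fr_of hF' ((jac_ne_iff hE _).1 (gr_ne g2 n2))
  have pE' := pres hE' pE (ap _ fun i => ⟨_, hc i⟩) (gr_ne g2 n2) ⟨_, gr_inv g2 n2⟩
  have mR : ∀ s : S', ρ s ∈ R.ring := fun s => hρ s ▸ (hR (π s)).1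
  obtain ⟨W, w1, w2, w3, w4⟩ : ∃ W : Subalgebra ℂ (F' × F), W.FG ∧ (∀ s : S', ((s : F'), ρ s) ∈ W) ∧
      (∀ i, (v i, v' i) ∈ W) ∧ ∀ A : Subalgebra ℂ (F' × F), (∀ s : S', ((s : F'), ρ s) ∈ A) →
        (∀ i, (v i, v' i) ∈ A) → W ≤ A :=
    ⟨(⊤ : Subalgebra ℂ S').map (S'.val.prod ρ) ⊔ Algebra.adjoin ℂ (range fun i => (v i, v' i)),
      ((S'.fg_top.2 h.aff'.fg).map _).sup (Subalgebra.fg_def.2 ⟨_, finite_range _, rfl⟩),
      fun s => Algebra.mem_sup_left ⟨s, trivial, rfl⟩,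
      fun i => Algebra.mem_sup_right (Algebra.subset_adjoin ⟨i, rfl⟩), fun A k1 k2 =>
      sup_le (by rintro _ ⟨s, -, rfl⟩; exact k1 s) (Algebra.adjoin_le (range_subset_iff.2 k2))⟩
  have w5 : ∀ x : W, ((AlgHom.snd ℂ F' F).comp W.val) x ∈ R.ring := fun x =>
    w4 ((rg R).comap (AlgHom.snd ℂ F' F)) mR ha.mem x.2
  have := isNoetherianRing_of_fg w1
  obtain ⟨Z, hZ⟩ := IsNoetherian.noetherian (RingHom.ker (rdm R _ w5))
  obtain ⟨G, G1, G2, G3⟩ := close hτ (L := insert (_, _) ((fun s : S' => ((s : F'), ρ s)) ''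
      insert a (insert b T) ∪ Subtype.val '' (Z : Set W)))
    (((((T.finite_toSet.insert _).insert _).image _).union (Z.finite_toSet.image _)).insert _) (by
      rintro _ (rfl | ⟨s, -, rfl⟩ | ⟨x, -, rfl⟩)
      exacts [g2, gr_coe s, w4 _ gr_coe hv x.2]) (max a₀ 1)
  have du := fun i => hE'.dual (Fin.castAdd (n + 1) i)
  have ne : ∀ (i : Fin c) (m : Fin (n + 1)), Fin.castAdd (n + 1) i ≠ Fin.natAdd c m := fun i m => by
    simp [Fin.ext_iff]; omega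
  obtain ⟨k, P, p1, p2, p3, p4⟩ := core hF' h.aff'.fg mR hτ hv ha (f := fun i => (f i : F'))
    (fun i => f0 i ▸ gr_coe (f i)) (δ := fun i => E' (Fin.castAdd _ i)) (fun i => pE' _)
    (fun i m => by simpa using du i (Fin.castAdd _ m))
    (fun i => by simpa [ne] using du i (Fin.natAdd c 0))
    (fun i m => by simpa [ne] using du i (Fin.natAdd c m.succ)) G1 G2
  have q1 := G3 P p1
  have q2 := fun s hs => q1 _ (.inr (.inl ⟨s, hs, rfl⟩))
  have w6 : ∀ x : W, ((AlgHom.fst ℂ F' F).comp W.val) x ∈ P.ring := fun x =>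
    w4 ((rg P).comap (AlgHom.fst ℂ F' F)) (fun s => p2 s s.2)
      (fun i => show v i ∈ P.ring by simpa using p4.mem (Fin.natAdd c i)) x.2
  have k1 : ∀ x ∈ RingHom.ker (rdm R _ w5), rdm P _ w6 x = 0 := by
    rw [← hZ]
    refine (Ideal.span_le (I := RingHom.ker (rdm P _ w6))).2 fun x hx => ?_
    have h1 := mx_iff.1 ((rd_eq_zero (w5 x)).1 (hZ.le (Submodule.subset_span hx)))
    have h2 := q1 _ (.inr (.inr ⟨x, hx, rfl⟩))
    refine (rd_eq_zero (w6 x)).2 (mx_iff.2 (or_iff_not_imp_left.2 fun x0 => ?_))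
    by_cases e : x.1.2 = 0
    · exact (mul_pos p3 (lt_max_of_lt_right one_pos)).trans_le (h2.2 e x0)
    · exact (mul_pos p3 (h1.resolve_left e)).trans_eq (h2.1 e).symm
  obtain ⟨e, he⟩ := Int.eq_ofNat_of_zero_le p3.le
  refine ⟨P, e, by omega, fun s => ⟨p2 s s.2, ?_⟩, fun s hs s0 => ?_, fun s hs s0 s1 => ?_, ?_⟩
  · rw [Ideal.mem_comap, (hR (π s)).2, ← hρ]
    exact ⟨k1 ⟨_, w2 s⟩, ker_eq _ _ k1 (z := fun i => ⟨_, w3 i⟩) (by
      simpa [Function.comp_def, rdm_apply] using p4.ind.comp _ (Fin.natAdd_injective n c))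
      (trdeg_κ h.aff.ff R) (a := ⟨_, w2 s⟩)⟩
  · rw [← he, ← hρ]
    exact (q2 s (.inr (.inr hs))).1 fun e => s0 ((z0 s).1 e)
  · rw [← he]
    exact (mul_le_mul_of_nonneg_left (le_max_left _ _) p3.le).trans
      ((q2 s (.inr (.inr hs))).2 ((z0 s).2 s0) fun e => s1 (Subtype.ext e))
  · have c1 := jac_chain hE E' (Fin.append (fun i => (f i : F')) (Fin.cons τ v))
    rw [jac_self hE'] at c1
    have c2 := kap_up hF' hE' p3 p4 (left_ne_zero_of_mul_eq_one c1.symm)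
    have c3 := congrFun (kap_chg h.fr (gr_ne g1 n1)) P
    have c4 := congrFun (kap_chg hD n2) R
    have c5 := congrFun (kap_chg hD y0) R
    have c6 := (q1 _ (.inl rfl)).1 n2
    have c7 := (q2 a (.inl rfl)).1 a1
    have c8 := (q2 b (.inr (.inl rfl))).1 b1
    rw [eq_inv_of_mul_eq_one_left c1.symm, Pl.ord_inv, c3, c6, e3] at c2
    rw [ha.kap h.aff.ff] at c4
    simp only [Pi.add_apply, dv] at c2 c4 c5 c7 c8
    rw [Pl.ord_div _ (SemP.ne_of a1) (SemP.ne_of b1), c7, c8, he] at c2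
    rw [e2, ← hρ, ← hρ, Pl.ord_div _ (mul_ne_zero y0 a1) b1, Pl.ord_mul _ y0 a1, c5,
      eq_neg_of_add_eq_zero_left c4.symm]
    push_cast at c2 ⊢
    linarith

end Vale.Agent.P283R.H
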