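import Vale.Agent.P283R.H.St
import Vale.Agent.P287D.Cb.Fr

/-!
# P283R, block H: the character of the residue
-/

set_option linter.all false

open Set
open Vale.Agent.P285N.Brep (jac Fr)

noncomputable section

namespace Vale.Agent.P283R.H

open Vale.Agent.P287D

namespace Chr

variable {F F' : Type} [Field F] [Algebra ℂ F] [Field F'] [Algebra ℂ F'] {N c M : ℕ}
  {S : Subalgebra ℂ F} {S' : Subalgebra ℂ F'}

/-- the graph of the residue map at the kernel of `π` -/
def gr (π : S' →ₐ[ℂ] S) : Subring (F' × F) where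
  carrier := {q | ∃ s t : S', π t ≠ 0 ∧ q.1 * t = s ∧ q.2 * π t = π s}
  mul_mem' := by
    rintro a b ⟨s, t, h, h1, h2⟩ ⟨s', t', h', h1', h2'⟩
    refine ⟨s * s', t * t', by rw [map_mul]; exact mul_ne_zero h h', ?_, ?_⟩
    · simp only [Prod.fst_mul, Subalgebra.coe_mul]
      rw [← h1, ← h1']; ring
    · simp only [Prod.snd_mul, map_mul, Subalgebra.coe_mul]
      rw [← h2, ← h2']; ring
  one_mem' := ⟨1, 1, by simp, by simp, by simp⟩
  add_mem' := by
    rintro a b ⟨s, t, h, h1, h2⟩ ⟨s', t', h', h1', h2'⟩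
    refine ⟨s * t' + s' * t, t * t', by rw [map_mul]; exact mul_ne_zero h h', ?_, ?_⟩
    · simp only [Prod.fst_add, Subalgebra.coe_mul, Subalgebra.coe_add]
      rw [← h1, ← h1']; ring
    · simp only [Prod.snd_add, map_mul, map_add, Subalgebra.coe_mul, Subalgebra.coe_add]
      rw [← h2, ← h2']; ring
  zero_mem' := ⟨0, 1, by simp, by simp, by simp⟩
  neg_mem' := by
    rintro a ⟨s, t, h, h1, h2⟩
    refine ⟨-s, t, h, ?_, ?_⟩
    · simp only [Prod.fst_neg, Subalgebra.coe_neg]
      rw [← h1]; ring
    · simp only [Prod.snd_neg, map_neg, Subalgebra.coe_neg]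
      rw [← h2]; ring

variable {π : S' →ₐ[ℂ] S}

theorem gr_uniq {x : F'} {v w : F} (h : (x, v) ∈ gr π) (h' : (x, w) ∈ gr π) : v = w := by
  obtain ⟨s, t, h0, h1, h2⟩ := sub_mem h h'
  simp only [Prod.mk_sub_mk, sub_self, zero_mul] at h1 h2
  have : s = 0 := Subtype.ext h1.symm
  rw [this, map_zero] at h2
  exact sub_eq_zero.1 ((mul_eq_zero.1 h2).resolve_right fun e => h0 (Subtype.ext e))

theorem gr_self (a : S') : ((a : F'), (π a : F)) ∈ gr π := ⟨a, 1, by simp, by simp, by simp⟩

theorem gr_div (a : S') {b : S'} (h : π b ≠ 0) : ((a : F') / b, (π a : F) / π b) ∈ gr π :=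
  ⟨a, b, h, div_mul_cancel₀ _ fun e => h (by rw [show b = 0 from Subtype.ext e, map_zero]),
    div_mul_cancel₀ _ fun e => h (Subtype.ext e)⟩

theorem gr_cst (a : ℂ) : (algebraMap ℂ F' a, algebraMap ℂ F a) ∈ gr π := by
  simpa using gr_self (π := π) (algebraMap ℂ S' a)

theorem gr_det {n : ℕ} {a : Matrix (Fin n) (Fin n) F'} {b : Matrix (Fin n) (Fin n) F}
    (h : ∀ i j, (a i j, b i j) ∈ gr π) : (a.det, b.det) ∈ gr π := by
  let m : Matrix (Fin n) (Fin n) (gr π) := Matrix.of fun i j => ⟨_, h i j⟩
  have h1 := ((RingHom.fst F' F).comp (gr π).subtype).map_det m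
  have h2 := ((RingHom.snd F' F).comp (gr π).subtype).map_det m
  have : (a.det, b.det) = (m.det : F' × F) := Prod.ext h1.symm h2.symm
  exact this ▸ m.det.2

/-- a derivation along `π` which kills the kernel is a combination of the dual derivations -/
theorem expand (aff : Aff N S) (sur : Function.Surjective π) {δ : S' → F}
    (add : ∀ a b, δ (a + b) = δ a + δ b) (mul : ∀ a b, δ (a * b) = π a * δ b + π b * δ a)
    (cst : ∀ a, δ (algebraMap ℂ S' a) = 0) (ker : ∀ a, π a = 0 → δ a = 0) {u : Fin N → S'}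
    {D : Fin N → Derivation ℂ F F} (fr : Fr (fun i => (π (u i) : F)) D) (w : S') :
    δ w = ∑ i, δ (u i) * D i (π w) := by
  have eq : ∀ a b, π a = π b → δ a = δ b := fun a b e => by
    have := add (a - b) b
    rw [sub_add_cancel, ker (a - b) (by rw [map_sub, e, sub_self]), zero_add] at this
    exact this
  have ex : ∀ x : F, ∃ s t : S', (π t : F) ≠ 0 ∧ x * π t = π s := fun x => by
    obtain ⟨s, t, e⟩ := aff.fr x
    obtain ⟨s, rfl⟩ := sur s
    obtain ⟨t, rfl⟩ := sur t
    by_cases h : (π t : F) = 0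
    · exact ⟨0, 1, by simp, by simp [e, h]⟩
    · exact ⟨s, t, h, by rw [e, div_mul_cancel₀ _ h]⟩
  choose s t ht hs using ex
  set d : F → F := fun x => (δ (s x) - x * δ (t x)) / π (t x) with hd
  have key : ∀ (x : F) (a b : S'), x * π b = π a → d x * π b = δ a - x * δ b := fun x a b e => by
    have h1 : δ (s x * b) = δ (a * t x) := eq _ _ (Subtype.ext (by
      simp only [map_mul, Subalgebra.coe_mul]
      rw [← hs, ← e]; ring))
    rw [mul, mul, ← hs, ← e] at h1
    simp only [hd]
    field_simp [ht x]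
    linear_combination h1
  have one : δ 1 = 0 := by simpa using cst 1
  have dp : ∀ a, d (π a) = δ a := fun a => by simpa [one] using key (π a) a 1 (by simp)
  have dr : Cb.Dr (RingHom.id F) d := by
    refine ⟨fun x y => ?_, fun x y => ?_⟩
    · have h1 := key (x + y) (s x * t y + s y * t x) (t x * t y) (by
        simp only [map_mul, map_add, Subalgebra.coe_mul, Subalgebra.coe_add]
        rw [← hs, ← hs]; ring)
      have h2 := key x _ _ (hs x)
      have h3 := key y _ _ (hs y)
      rw [add, mul, mul, mul, ← hs, ← hs, map_mul, Subalgebra.coe_mul] at h1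
      refine mul_right_cancel₀ (mul_ne_zero (ht x) (ht y)) ?_
      linear_combination h1 - (π (t y) : F) * h2 - (π (t x) : F) * h3
    · have h1 := key (x * y) (s x * s y) (t x * t y) (by
        simp only [map_mul, Subalgebra.coe_mul]
        rw [← hs, ← hs]; ring)
      have h2 := key x _ _ (hs x)
      have h3 := key y _ _ (hs y)
      rw [mul, mul, ← hs, ← hs, map_mul, Subalgebra.coe_mul] at h1
      refine mul_right_cancel₀ (mul_ne_zero (ht x) (ht y)) ?_
      simp only [RingHom.id_apply]
      linear_combination h1 - y * (π (t y) : F) * h2 - x * (π (t x) : F) * h3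
  have := Cb.expand dr (fun a => by simpa [cst] using dp (algebraMap ℂ S' a)) fr (π w)
  simpa only [dp, RingHom.id_apply] using this

variable {p : Ideal S} {f : Fin c → S'} {z : Fin (c + N) → F'}
  {D' : Fin (c + N) → Derivation ℂ F' F'}

/-- **the residue of the Jacobian of `(f, w)`** -/
theorem key (h : Up N π p f z D') {u : Fin N → S'} {D : Fin N → Derivation ℂ F F}
    (fr : Fr (fun i => (π (u i) : F)) D) {J : F}
    (hJ : (jac D' fun l => (Fin.append f u l : S'), J) ∈ gr π) (w : Fin N → S') :
    (jac D' fun l => (Fin.append f w l : S'), J * jac D fun i => π (w i)) ∈ gr π := by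
  have hp := h.pri
  have ex : ∀ l (a : S'), ∃ v, (D' l a, v) ∈ gr π := fun l a => by
    obtain ⟨s, t, ht, e⟩ := h.pre l a ⟨a, 1, fun e => hp.ne_top (by
      rwa [Ideal.mem_comap, map_one, ← Ideal.eq_top_iff_one] at e), by simp⟩
    exact ⟨_, e ▸ gr_div s fun e => ht (by rw [Ideal.mem_comap, e]; exact zero_mem _)⟩
  choose d hd using ex
  have add : ∀ l a b, d l (a + b) = d l a + d l b := fun l a b =>
    gr_uniq (hd l (a + b)) (by simpa using add_mem (hd l a) (hd l b))
  have mul : ∀ l a b, d l (a * b) = π a * d l b + π b * d l a := fun l a b =>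
    gr_uniq (hd l (a * b)) (by
      simpa using add_mem (mul_mem (gr_self a) (hd l b)) (mul_mem (gr_self b) (hd l a)))
  have cst : ∀ l a, d l (algebraMap ℂ S' a) = 0 := fun l a =>
    gr_uniq (hd l _) (by
      have : D' l (algebraMap ℂ S' a : S') = 0 := (D' l).map_algebraMap a
      rw [this]; exact zero_mem (gr π))
  have sp : ∀ a : S', ((fun l => d l a) - ∑ i, D i (π a) • fun l => d l (u i)) ∈
      Submodule.span F (range fun i l => d l (f i)) := fun a => by
    rw [← Subspace.forall_mem_dualAnnihilator_apply_eq_zero_iff]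
    intro φ hφ
    rw [Submodule.mem_dualAnnihilator] at hφ
    have add' : ∀ a b, φ (fun l => d l (a + b)) = φ (fun l => d l a) + φ fun l => d l b :=
      fun a b => by rw [← map_add]; exact congrArg φ (funext fun l => add l a b)
    have mul' : ∀ a b, φ (fun l => d l (a * b)) =
        π a * φ (fun l => d l b) + π b * φ fun l => d l a := fun a b => by
      rw [← smul_eq_mul (π a : F), ← smul_eq_mul (π b : F), ← map_smul, ← map_smul, ← map_add]
      exact congrArg φ (funext fun l => mul l a b)
    have cst' : ∀ a, φ (fun l => d l (algebraMap ℂ S' a)) = 0 := fun a => by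
      simp only [cst]; exact map_zero φ
    have k0 : ∀ a ∈ Ideal.span (range f), π a = 0 ∧ φ (fun l => d l a) = 0 := fun a ha => by
      induction ha using Submodule.span_induction with
      | mem a ha =>
        obtain ⟨i, rfl⟩ := ha
        exact ⟨h.ker i, hφ _ (Submodule.subset_span ⟨i, rfl⟩)⟩
      | zero => exact ⟨map_zero _, by simpa using cst' 0⟩
      | add a b _ _ ha hb => exact ⟨by rw [map_add, ha.1, hb.1, add_zero], by
          rw [add', ha.2, hb.2, add_zero]⟩
      | smul a b _ hb => exact ⟨by rw [smul_eq_mul, map_mul, hb.1, mul_zero], by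
          rw [smul_eq_mul, mul', hb.1, hb.2]; simp⟩
    have := expand (δ := fun a => φ fun l => d l a) h.aff h.sur add' mul' cst' (fun a ha => by
      obtain ⟨s, hs, e⟩ := h.gen a ha
      have := (k0 _ e).2
      rw [mul', ha] at this
      simp only [ZeroMemClass.coe_zero, zero_mul, add_zero] at this
      exact (mul_eq_zero.1 this).resolve_left fun e => hs (by
        rw [show π s = 0 from Subtype.ext e]; exact zero_mem _)) fr a
    rw [map_sub, map_sum, this, sub_eq_zero]
    exact Finset.sum_congr rfl fun i _ => by rw [map_smul, smul_eq_mul, mul_comm]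
  choose e he using fun a => (Submodule.mem_span_range_iff_exists_fun F).1 (sp a)
  have g : ∀ w : Fin N → S', (jac D' fun l => (Fin.append f w l : S'),
      (Matrix.of fun l k => d l (Fin.append f w k)).det) ∈ gr π := fun w =>
    gr_det fun l k => hd l _
  rw [gr_uniq hJ (g u)]
  let B : Matrix (Fin c ⊕ Fin N) (Fin c ⊕ Fin N) F :=
    Matrix.fromBlocks 1 (Matrix.of fun i k => e (w k) i) 0 (Matrix.of fun i k => D i (π (w k)))
  have hB : (B.reindex finSumFinEquiv finSumFinEquiv).det = jac D fun i => π (w i) := by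
    rw [Matrix.det_reindex_self, Matrix.det_fromBlocks_zero₂₁, Matrix.det_one, one_mul, jac]
  rw [← hB, ← Matrix.det_mul]
  refine (congrArg (fun m : Matrix _ _ F => (_, m.det) ∈ gr π) ?_).mp (g w)
  ext l k
  rw [Matrix.mul_apply, Fin.sum_univ_add]
  refine Fin.addCases (fun k => ?_) (fun k => ?_) k
  · simp [B, Matrix.one_apply]
  · have := congrFun (he (w k)) l
    simp only [Finset.sum_apply, Pi.smul_apply, smul_eq_mul, Pi.sub_apply] at this
    simp [B]
    simp only [mul_comm (d l _)]
    linear_combination -this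

end Chr

open Chr in
theorem chr : CHR := by
  intro F F' _ _ _ _ S S' π p N c M f z D' h y j _ hr σ' σ α β st ov hz hf hy
  obtain rfl := h.dim
  obtain ⟨u, D, a, b, fr, hb, e, rfl⟩ := hr
  simp only [Fin.cast_eq_self] at e
  let τ : S' → S' := fun a => ⟨σ' a, st a a.2⟩
  have hτ : ∀ a, σ (π a) = π (τ a) := fun a => ov a (τ a) rfl
  have k := key h fr (e ▸ gr_div a hb) fun i => τ (u i)
  have c1 := P285N.Brep.chain ℂ F' _ z D' h.fr σ' fun l => (Fin.append f u l : S')
  have c2 := P285N.Brep.chain ℂ F _ _ D fr σ y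
  have e1 : jac D' (fun l => σ' (z l)) = algebraMap ℂ F' (∏ l, α l) := by
    rw [jac, map_prod, ← Matrix.det_diagonal]
    refine congrArg _ (Matrix.ext fun i j => ?_)
    rw [Matrix.of_apply, hz, Derivation.map_smul, h.fr.dual, Matrix.diagonal_apply]
    split_ifs with e
    · rw [e, Algebra.algebraMap_eq_smul_one]
    · rw [smul_zero]
  have e2 : jac D' (fun l => σ' (Fin.append f u l : S')) =
      algebraMap ℂ F' (∏ i, β i) * jac D' fun l => (Fin.append f (fun i => τ (u i)) l : S') := by
    have : algebraMap ℂ F' (∏ i, β i) =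
        ∏ l, algebraMap ℂ F' (Fin.append β (fun _ : Fin N => 1) l) := by
      simp [Fin.prod_univ_add]
    rw [this, jac, jac, ← Matrix.det_mul_row]
    refine congrArg _ (Matrix.ext fun i j => ?_)
    refine Fin.addCases (fun j => ?_) (fun j => ?_) j
    · simp [hf, Algebra.smul_def]
    · simp [τ]
  have hb' : π (τ b) ≠ 0 := fun e => hb (Subtype.ext (σ.injective (by rw [hτ, e]; simp)))
  have k1 := mul_mem (gr_cst (π := π) (∏ i, β i)) k
  have k2 := mul_mem (gr_div (τ a) hb') (gr_cst (π := π) (∏ l, α l))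
  rw [e1, e2, e, map_div₀] at c1
  rw [Prod.mk_mul_mk] at k1 k2
  rw [c1] at k1
  have k3 := gr_uniq k1 k2
  simp only [hy, hτ] at c2
  rw [Algebra.smul_def, Algebra.smul_def, map_div₀, map_mul, hτ, hτ]
  linear_combination (-σ (jac D y)) * k3 - algebraMap ℂ F (∏ i, β i) * (π a / π b) * c2

end Vale.Agent.P283R.H
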