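import Vale.Agent.P283R.H.Ks
import Vale.Agent.P283R.To.Gs2

/-!
# P283R, block H: forms on a fibration, the Gauss extension
-/

open Set

noncomputable section

namespace Vale.Agent.P283R.H

open Vale.Agent.P287D

theorem gau : GAU := by
  intro N c L κ _ _ _ _ ι y t hL hκ hi
  let e : Fin (N + c) ≃ Fin N ⊕ Fin c := finSumFinEquiv.symm
  let e' : Fin (N + c) ≃ Fin c ⊕ Fin N := e.trans (Equiv.sumComm _ _)
  have k : (Sum.elim t fun j => ι (y j)) ∘ e' =
      fun i => Sum.elim (fun j => ι.toRingHom (y j)) t (e i) := by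
    funext i
    simp only [e', Function.comp_apply, Equiv.trans_apply]
    rcases e i with j | j <;> rfl
  have hi' : AlgebraicIndependent ℂ fun i => Sum.elim (fun j => ι.toRingHom (y j)) t (e i) :=
    k ▸ hi.comp e' e'.injective
  have hc : ∀ a, ι.toRingHom (algebraMap ℂ L a) = algebraMap ℂ κ a := ι.commutes
  rw [kp_eq hκ _ e', k]
  refine ⟨fun Q R l => ?_, fun Q hQ => ⟨?_, fun h0 => ?_⟩, fun R => ?_⟩
  · have := Cb.fib_le hL hκ hc l e hi'
    rw [add_comm 1, add_comm 1]
    exact this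
  · have := Cb.sum_le_kap hκ hi' Q
    rw [e.sum_comp fun o => (Q.ord (Sum.elim (fun j => ι.toRingHom (y j)) t o) : ℝ),
      Fintype.sum_sum_type] at this
    have h1 : 0 ≤ ∑ j, (Q.ord (ι (y j)) : ℝ) := Finset.sum_nonneg fun j _ => by
      exact_mod_cast P297Z.Pl.ord_nonneg_of_mem _ (hQ _)
    simp only [Sum.elim_inl, Sum.elim_inr] at this
    change ∑ j, (Q.ord (ι (y j)) : ℝ) + _ ≤ _ at this
    linarith
  · refine Cb.kap_nonneg hκ fun i => ?_
    rcases e i with j | j
    · exact hQ _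
    · exact Cb.mem_ord (h0 j).ge
  · have hy : AlgebraicIndependent ℂ y :=
      AlgebraicIndependent.of_comp ι (hi.comp Sum.inr Sum.inr_injective)
    obtain ⟨u, l, h0, hk⟩ := To.gauss hL hκ hc hy e hi' R
    refine ⟨u, l, h0, ?_⟩
    rw [add_comm 1, add_comm 1]
    exact hk

end Vale.Agent.P283R.H
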