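import Vale.Agent.P283R.H.St
import Vale.Agent.P283R.Tp.Eig

/-!
# P283R, block H: semi-invariant local equations and semi-invariant lifts
-/

open Set

noncomputable section

namespace Vale.Agent.P283R.H

open Vale.Agent.P287D

namespace Gn

variable {R : Type} [CommRing R] {c : ℕ}

theorem mem_upd (g : Fin c → R) (i : Fin c) (e : R) {j : Fin c} (h : j ≠ i) :
    g j ∈ Ideal.span (range (Function.update g i e)) :=
  Ideal.subset_span ⟨j, Function.update_of_ne h _ _⟩

theorem split (g : Fin c → R) (i : Fin c) {a : R} (h : a ∈ Ideal.span (range g)) :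
    ∃ t, ∀ e, a - t * g i ∈ Ideal.span (range (Function.update g i e)) := by
  obtain ⟨r, rfl⟩ := Ideal.mem_span_range_iff_exists_fun.1 h
  refine ⟨r i, fun e => ?_⟩
  rw [← Finset.add_sum_erase _ _ (Finset.mem_univ i), add_sub_cancel_left]
  exact Ideal.sum_mem _ fun j hj => Ideal.mul_mem_left _ _ (mem_upd g i e (Finset.ne_of_mem_erase hj))

/-- the exchange step -/
theorem step (p : Ideal R) (hp : p.IsPrime) (E : Set R) (h0 : (0 : R) ∈ E) (g : Fin c → R)
    (i : Fin c) (hi : g i ∈ Ideal.span E)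
    (h : ∀ a ∈ Ideal.span E, ∃ s ∉ p, s * a ∈ Ideal.span (range g)) :
    ∃ e ∈ E, ∀ a ∈ Ideal.span E, ∃ s ∉ p, s * a ∈ Ideal.span (range (Function.update g i e)) := by
  have h1 : (1 : R) ∉ p := (Ideal.ne_top_iff_one p).1 hp.ne_top
  suffices k : ∃ e ∈ E, ∃ s ∉ p, s * g i ∈ Ideal.span (range (Function.update g i e)) by
    obtain ⟨e, he, s, hs, k⟩ := k
    refine ⟨e, he, fun a ha => ?_⟩
    obtain ⟨s', hs', k'⟩ := h a ha
    obtain ⟨t, ht⟩ := split g i k'
    refine ⟨s * s', fun m => (hp.mem_or_mem m).elim hs hs', ?_⟩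
    have e1 : s * s' * a = s * (s' * a - t * g i) + t * (s * g i) := by ring
    rw [e1]
    exact add_mem (Ideal.mul_mem_left _ _ (ht e)) (Ideal.mul_mem_left _ _ k)
  by_cases hc : ∀ e ∈ E, ∃ s ∉ p, ∃ t ∈ p,
      s * e - t * g i ∈ Ideal.span (range (Function.update g i 0))
  · have k : ∀ a ∈ Ideal.span E, ∃ s ∉ p, ∃ t ∈ p,
        s * a - t * g i ∈ Ideal.span (range (Function.update g i 0)) := by
      intro a ha
      induction ha using Submodule.span_induction with
      | mem e he => exact hc e he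
      | zero => exact ⟨1, h1, 0, p.zero_mem, by simp⟩
      | add a b _ _ ha hb =>
        obtain ⟨s, hs, t, ht, k⟩ := ha
        obtain ⟨s', hs', t', ht', k'⟩ := hb
        refine ⟨s * s', fun m => (hp.mem_or_mem m).elim hs hs', s' * t + s * t',
          add_mem (p.mul_mem_left _ ht) (p.mul_mem_left _ ht'), ?_⟩
        have e1 : s * s' * (a + b) - (s' * t + s * t') * g i =
            s' * (s * a - t * g i) + s * (s' * b - t' * g i) := by ring
        rw [e1]
        exact add_mem (Ideal.mul_mem_left _ _ k) (Ideal.mul_mem_left _ _ k')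
      | smul r a _ ha =>
        obtain ⟨s, hs, t, ht, k⟩ := ha
        refine ⟨s, hs, r * t, p.mul_mem_left _ ht, ?_⟩
        have e1 : s * (r • a) - r * t * g i = r * (s * a - t * g i) := by
          rw [smul_eq_mul]; ring
        rw [e1]
        exact Ideal.mul_mem_left _ _ k
    obtain ⟨s, hs, t, ht, k⟩ := k _ hi
    exact ⟨0, h0, s - t, fun m => hs (by simpa using add_mem m ht), by rwa [sub_mul]⟩
  · push Not at hc
    obtain ⟨e, he, hc⟩ := hc
    obtain ⟨s, hs, k⟩ := h e (Ideal.subset_span he)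
    obtain ⟨t, ht⟩ := split g i k
    refine ⟨e, he, t, fun m => hc s hs t m (ht 0), ?_⟩
    have e1 : t * g i = s * e - (s * e - t * g i) := by ring
    rw [e1]
    exact sub_mem (Ideal.mul_mem_left _ _ (Ideal.subset_span ⟨i, Function.update_self _ _ _⟩)) (ht e)

/-- local generators taken from a generating set -/
theorem pick (p : Ideal R) (hp : p.IsPrime) (E : Set R) (h0 : (0 : R) ∈ E) (f : Fin c → R)
    (hf : Ideal.span E = Ideal.span (range f)) :
    ∃ g : Fin c → R, (∀ i, g i ∈ E) ∧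
      ∀ a ∈ Ideal.span E, ∃ s ∉ p, s * a ∈ Ideal.span (range g) := by
  have h1 : (1 : R) ∉ p := (Ideal.ne_top_iff_one p).1 hp.ne_top
  have k : ∀ T : Finset (Fin c), ∃ g : Fin c → R, (∀ i, g i ∈ Ideal.span E) ∧ (∀ i ∈ T, g i ∈ E) ∧
      ∀ a ∈ Ideal.span E, ∃ s ∉ p, s * a ∈ Ideal.span (range g) := by
    intro T
    induction T using Finset.induction_on with
    | empty =>
      exact ⟨f, fun i => hf ▸ Ideal.subset_span ⟨i, rfl⟩, by simp,
        fun a ha => ⟨1, h1, by rwa [one_mul, ← hf]⟩⟩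
    | insert i T _ ih =>
      obtain ⟨g, g1, g2, g3⟩ := ih
      obtain ⟨e, he, k⟩ := step p hp E h0 g i (g1 i) g3
      refine ⟨_, fun j => ?_, fun j hj => ?_, k⟩
      · by_cases m : j = i
        · rw [m, Function.update_self]
          exact Ideal.subset_span he
        · rw [Function.update_of_ne m]
          exact g1 j
      · by_cases m : j = i
        · rw [m, Function.update_self]
          exact he
        · rw [Function.update_of_ne m]
          exact g2 j ((Finset.mem_insert.1 hj).resolve_left m)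
  obtain ⟨g, -, g2, g3⟩ := k Finset.univ
  exact ⟨g, fun i => g2 i (Finset.mem_univ i), g3⟩

end Gn

/-- **GEN** -/
theorem gen : GEN := by
  intro F F' _ _ _ _ S S' π p c f A' A _ hs hk hp hC hc
  have := hC.fin'
  let α := Eg.resG hC.stab'
  let W : Submodule ℂ S' := (RingHom.ker π).restrictScalars ℂ
  have hW : ∀ g : A', ∀ u ∈ W, Gr.rep α g u ∈ W := by
    intro g u hu
    obtain ⟨σ, -, k⟩ := hC.down g g.2
    have h1 := k u (α g u) rfl
    have h2 : π u = 0 := hu
    rw [h2, ZeroMemClass.coe_zero, map_zero] at h1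
    exact (Subtype.ext h1.symm : π (α g u) = 0)
  have eg : ∀ (v : S') (χ : A' →* ℂ), (∀ g, Gr.rep α g v = χ g • v) → Eig A' (v : F') :=
    fun v χ h σ hσ => ⟨χ ⟨σ, hσ⟩, congrArg Subtype.val (h ⟨σ, hσ⟩)⟩
  refine ⟨?_, fun h hh => ?_⟩
  · let E : Set S' := {v | v ∈ W ∧ ∃ χ : A' →* ℂ, ∀ g, Gr.rep α g v = χ g • v}
    have hE : Ideal.span E = RingHom.ker π :=
      le_antisymm (Ideal.span_le.2 fun v hv => hv.1) fun a ha =>
        Submodule.span_le_restrictScalars ℂ S' E
          (Gr.le_span_eig (fun a b => Subtype.ext (hc a a.2 b b.2)) (Gr.rep α) W hW ha)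
    obtain ⟨g, g1, g2⟩ := Gn.pick (p.comap π) (hp.comap π) E ⟨W.zero_mem, 1, fun g => by simp⟩ f
      (hE.trans hk)
    exact ⟨g, fun i => (g1 i).1, fun i => (g1 i).2.elim fun χ h => eg _ χ h,
      fun a ha => g2 a (hE ▸ ha)⟩
  · obtain ⟨v, rfl⟩ := hs h
    obtain ⟨v', h1, χ, h2⟩ := Gr.lift_eig (Gr.rep α) W hW v fun g => by
      obtain ⟨σ, hσ, k⟩ := hC.down g g.2
      obtain ⟨a, ha⟩ := hh σ hσ
      refine ⟨a, ?_⟩
      have h1 := (k v (α g v) rfl).symm.trans ha
      have h2 : π (α g v) = a • π v := Subtype.ext h1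
      change π (α g v - a • v) = 0
      rw [map_sub, map_smul, h2, sub_self]
    have h3 : π (v' - v) = 0 := h1
    exact ⟨v', sub_eq_zero.1 (by rwa [map_sub] at h3), eg _ χ h2⟩

end Vale.Agent.P283R.H
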