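import Vale.Agent.P283R.H.Ks
import Vale.Agent.P283R.H.Adf
import Vale.Agent.P287D.Api.All

/-!
# P283R, block H: the lower bound for the log discrepancies goes up
-/

open Set
open Vale.Agent.P297Z

noncomputable section

namespace Vale.Agent.P283R.H

open Vale.Agent.P287D Vale.Agent.P283M

section

variable {K : Type} [Field K] [Algebra ℂ K] {c n : ℕ} {Φ : Fin (c + 1) → K} {a : Fin (c + 1) → ℕ}
  {P : Pl K}

omit [Algebra ℂ K] in
theorem mem_tau {x : K} : x ∈ tau Φ a ↔ ∃ i, Φ i ^ a i = x := by simp [tau]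

/-- the members of the system -/
def gm (Φ : Fin (c + 1) → K) (a : Fin (c + 1) → ℕ) (i : Fin (c + 1)) : BD K :=
  dv (Φ i ^ a i) + mx (tau Φ a)

/-- the excess -/
def ex (Φ : Fin (c + 1) → K) (a : Fin (c + 1) → ℕ) : BD K := ∑ i, (a i : ℝ)⁻¹ • gm Φ a i

theorem gm_nn (h : ∀ i, Φ i ≠ 0) (i : Fin (c + 1)) : 0 ≤ gm Φ a i :=
  dv_add_mx_nonneg (mem_tau.2 ⟨i, rfl⟩) (pow_ne_zero _ (h i))

theorem gm_q (i : Fin (c + 1)) : CarQ (gm Φ a i) := (carQ_dv _).add (carQ_mx _)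

theorem ex_q : CarQ (ex Φ a) := .sum _ fun i _ => by
  simpa using (gm_q (Φ := Φ) (a := a) i).qsmul (a i : ℚ)⁻¹

theorem gm_zero (h : ∀ i, Φ i ≠ 0) {d : ℤ} (e : ∀ i, P.ord (Φ i ^ a i) = d) (i : Fin (c + 1)) :
    gm Φ a i P = 0 := by
  rw [gm, Pi.add_apply, dv_apply, mx_apply, P.mz_eq (mem_tau.2 ⟨i, rfl⟩) (pow_ne_zero _ (h i))
    fun g hg _ => by
      obtain ⟨j, rfl⟩ := mem_tau.1 hg
      rw [e, e]]
  simp

theorem ex_apply (P : Pl K) : ex Φ a P = ∑ i, (a i : ℝ)⁻¹ * gm Φ a i P := Finset.sum_apply _ _ _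

theorem ex_zero (h : ∀ i, gm Φ a i P = 0) : ex Φ a P = 0 := by simp [ex_apply, h]

theorem ex_off (ha : ∀ i, 0 < a i) (h : mx (tau Φ a) P = 0) :
    ex Φ a P = ∑ i, (P.ord (Φ i) : ℝ) := by
  rw [ex_apply]
  refine Finset.sum_congr rfl fun i _ => ?_
  have : (a i : ℝ) ≠ 0 := Nat.cast_ne_zero.2 (ha i).ne'
  rw [gm, Pi.add_apply, h, dv_pow, Pi.smul_apply, dv_apply, smul_eq_mul]
  field_simp
  simp

theorem ord_rat (h : ∀ i, Φ i ≠ 0) (e : ∀ i, P.ord (rat Φ a i) = 0) (i : Fin (c + 1)) :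
    P.ord (Φ i ^ a i) = P.ord (Φ 0 ^ a 0) := by
  refine Fin.cases rfl (fun i => ?_) i
  have := e i
  rw [rat, div_eq_mul_inv, Pl.ord_mul _ (pow_ne_zero _ (h _)) (inv_ne_zero (pow_ne_zero _ (h _))),
    Pl.ord_inv] at this
  omega

/-- the restriction of the excess -/
theorem res_ex (hK : FF K (n + 1)) (h : ∀ i, Φ i ≠ 0) (ha : ∀ i, 0 < a i)
    (e : ∀ i, P.ord (rat Φ a i) = 0) (Q : Pl P.κ) : 0 ≤ res P (ex Φ a) Q ∧
      (res P (ex Φ a) Q = 0 → ∀ i, Q.ord (P.rd (rat Φ a i)) = 0) := by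
  have z := gm_zero h (ord_rat h e)
  have nn : ∀ i, 0 ≤ res P (gm Φ a i) Q := fun i =>
    Aj.res_nonneg hK P (gm_q i).car (gm_nn h i) (z i) Q
  have ap : ∀ i, (0 : ℝ) < (a i : ℝ)⁻¹ := fun i => inv_pos.2 (Nat.cast_pos.2 (ha i))
  have s : res P (ex Φ a) Q = ∑ i, (a i : ℝ)⁻¹ * res P (gm Φ a i) Q := by
    rw [ex, P287D.res_sum hK P _ fun i _ => Submodule.smul_mem _ _ (gm_q i).car, Finset.sum_apply]
    exact Finset.sum_congr rfl fun i _ => by rw [Aj.res_smul hK P _ (gm_q i).car]; rfl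
  have n2 : ∀ i ∈ Finset.univ, 0 ≤ (a i : ℝ)⁻¹ * res P (gm Φ a i) Q := fun i _ =>
    mul_nonneg (ap i).le (nn i)
  refine ⟨s ▸ Finset.sum_nonneg n2, fun k i => ?_⟩
  have k' : ∀ i, res P (gm Φ a i) Q = 0 := fun i => (mul_eq_zero.1
    ((Finset.sum_eq_zero_iff_of_nonneg n2).1 (s ▸ k) i (Finset.mem_univ _))).resolve_left (ap i).ne'
  have d : gm Φ a i.succ = gm Φ a 0 + dv (rat Φ a i) := by
    rw [rat, dv_div (pow_ne_zero _ (h _)) (pow_ne_zero _ (h _)), gm, gm]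
    abel
  have := k' i.succ
  rw [d, Aj.res_add hK P (gm_q 0).car (dv_mem_Car _), res_dv0 hK P (e i), Pi.add_apply, k',
    zero_add, dv_apply] at this
  exact_mod_cast this

end

/-- the two inequalities of `GAU` -/
def GA2 : Prop := ∀ (N c : ℕ) (L κ : Type) [Field L] [Algebra ℂ L] [Field κ] [Algebra ℂ κ]
  (ι : L →ₐ[ℂ] κ) (y : Fin N → L) (t : Fin c → κ), FF L N → FF κ (N + c) →
    AlgebraicIndependent ℂ (Sum.elim t fun j => ι (y j)) →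
    (∀ Q R, Lies ι.toRingHom Q R → Q.ord (ι R.t) * (1 + kap y R) + ∑ i, (Q.ord (t i) : ℝ) ≤
      1 + kp (Sum.elim t fun j => ι (y j)) Q) ∧
    ∀ Q : Pl κ, (∀ b, ι b ∈ Q.ring) → ∑ i, (Q.ord (t i) : ℝ) ≤
      1 + kp (Sum.elim t fun j => ι (y j)) Q ∧
      ((∀ i, Q.ord (t i) = 0) → 0 ≤ kp (Sum.elim t fun j => ι (y j)) Q)

theorem ga2_of (h : GAU) : GA2 := fun N c L κ _ _ _ _ ι y t a b d =>
  ⟨(h N c L κ ι y t a b d).1, (h N c L κ ι y t a b d).2.1⟩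

theorem hk_of (one : ONE) (ree : REE) (upq : UPQ) (gau : GA2) (adk : ADK) : HK := by
  intro N c K L _ _ _ _ T u ρ Φ E y' y M ψ ψ₀ ε δ ci N0 ε0 δ0 hy ly lψ ψ0 ⟨s₀, s1, s2⟩ bdy eps
  obtain ⟨n, hn⟩ : ∃ n, N + c = n + 1 := ⟨N + c - 1, by omega⟩
  have hK : FF K (n + 2) := by
    have := ci.ff
    rwa [← add_assoc, hn] at this
  have mr : ∀ P, Tru T E P → ∀ i, Φ i ∈ P.ring := fun P h i =>
    let ⟨x, e, _⟩ := ci.mem i
    e ▸ (h x).1
  have w0 : ∀ i, 0 < E.ord (Φ i) := fun i =>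
    ((Bm.rd_zero_iff E (mr E ci.tru i)).1 (ci.van i)).resolve_left (ci.ne i)
  obtain ⟨a, ha, D, hD⟩ : ∃ a : Fin (c + 1) → ℕ, (∀ i, 0 < a i) ∧ ∃ D, ∀ i,
      E.ord (Φ i ^ a i) = D := by
    have p : ∀ i, 0 < (E.ord (Φ i)).toNat := fun i => by have := w0 i; omega
    have d := fun i => Finset.dvd_prod_of_mem (fun i => (E.ord (Φ i)).toNat) (Finset.mem_univ i)
    refine ⟨fun i => (∏ j, (E.ord (Φ j)).toNat) / (E.ord (Φ i)).toNat, fun i => Nat.div_pos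
      (Nat.le_of_dvd (Finset.prod_pos fun j _ => p j) (d i)) (p i),
      (∏ j, (E.ord (Φ j)).toNat : ℕ), fun i => ?_⟩
    have k := congrArg (Nat.cast : ℕ → ℤ) (Nat.div_mul_cancel (d i))
    rw [Nat.cast_mul, Int.toNat_of_nonneg (w0 i).le] at k
    rw [Pl.ord_pow]
    exact k
  obtain ⟨bu, tr, ⟨P, on, cl, ng⟩, all⟩ := ree (n + 1) N c K L T u ρ Φ E a y ci hn ha hy
  obtain ⟨q, q0, q1⟩ := exists_rat_btwn δ0
  set Λ := inf u + mx (tau Φ a)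
  have sΛ : Smp Λ := (Kl.inf_smp u).add (smp_mx _)
  have dm : Dsc Λ (mx (tau Φ a)) := .of_smp sΛ (smp_mx _) one_pos (by simpa [Λ] using Kl.inf_smp u)
  have dx : Dsc Λ (ex Φ a) := .sum sΛ _ fun i _ => ((Dsc.dv sΛ _).add dm).smul _
  let Γ : BD K := fun R => cn K (n + 2) R + 1 - ldk Φ y' M ψ R
  have hΓ : ∀ R, 1 + dsc (n + 2) Γ R = ldk Φ y' M ψ R := fun R => by
    simp only [dsc, Pi.sub_apply, Γ]; ring
  have e1 : ∀ R, dsc (n + 2) (Γ + (-q : ℝ) • ex Φ a) R = dsc (n + 2) Γ R + q * ex Φ a R :=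
    fun R => by rw [Pr.dsc_add_smul]; ring
  have un : ∀ {R ι}, Ree T ρ Φ a y R ι → ∀ i, R.ord (rat Φ a i) = 0 := fun {R _} r i => by
    have := mt (Bm.rd_zero_iff R (r.reg i)).2 (r.ind.ne_zero (.inl i))
    have := Pl.ord_nonneg_of_mem _ (r.reg i)
    omega
  have lc : ∀ {R ι}, Ree T ρ Φ a y R ι → dsc (n + 2) (Γ + (-q : ℝ) • ex Φ a) R = -1 :=
    fun {R ι} r => by
      rw [e1, ex_zero (gm_zero ci.ne (ord_rat ci.ne (un r))), mul_zero, add_zero]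
      exact ((adk (n + 1) N c K L T ρ Φ a y' y M ψ ψ₀ R ι hn hK ha r ly lψ ψ0).2 Γ hΓ).2.2.1
  obtain ⟨ι, r⟩ := ((all P on (tr P cl)).resolve_left fun k => ng.ne k.1).2
  obtain ⟨g1, g2, -, g3⟩ := (adk (n + 1) N c K L T ρ Φ a y' y M ψ ψ₀ P ι hn hK ha r ly lψ ψ0).2 Γ hΓ
  have hκ := Api.ffs.rsd _ K hK P
  obtain ⟨u1, u2⟩ := gau N c L P.κ ι y _ ci.ff' (hn ▸ hκ) r.ind
  have e2 : ∀ Q, dsc (n + 1) (adj (n + 1) P (Γ + (-q : ℝ) • ex Φ a)) Q =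
      dsc (n + 1) (adj (n + 1) P Γ) Q + q * res P (ex Φ a) Q := fun Q => by
    rw [(a4 _ K hK P Γ g2.car _ (Submodule.smul_mem _ _ ex_q.car)).1,
      Aj.res_smul hK P _ ex_q.car, Pr.dsc_add_smul]
    ring
  have rx := res_ex hK ci.ne ha (un r)
  have ver : ∀ Q R, Upq Λ P E Q → Lies ι.toRingHom Q R →
      ε ≤ dsc (n + 1) (adj (n + 1) P (Γ + (-q : ℝ) • ex Φ a)) Q + 1 := fun Q R h l => by
    have k := (upq N _ K L T u ρ Φ E _ P Q ci (tr P cl)).1 h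
    have k1 := eps R fun s => by
      have m : ρ s ∈ R.ring := (l _).2 (by simpa [r.rd] using (k s).1)
      refine ⟨m, fun z => (k s).2 ((Bm.rd_zero_iff Q (k s).1).2 ?_)⟩
      rw [← r.rd]
      exact ((Bm.rd_zero_iff R m).1 z).imp (fun z => by rw [z, map_zero]) (l.ord_pos_iff _).2
    have k2 := u1 Q R l
    have k3 : (1 : ℝ) ≤ Q.ord (ι R.t) := by exact_mod_cast l.e_pos
    have k4 : (Q.ord (ι ψ₀) : ℝ) = Q.ord (ι R.t) * R.ord ψ₀ := by exact_mod_cast l.ord ψ₀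
    have k5 := mul_nonneg q0.le (rx Q).1
    have k6 := mul_le_mul k3 k1 ε0.le (zero_le_one.trans k3)
    rw [ld, mul_sub, ← mul_div_assoc] at k6
    rw [e2, g3, k4]
    linarith
  have dich := fun Q => Api.pb.lies N (n + 1) L P.κ ι.toRingHom ci.ff' hκ ι.commutes Q
  by_contra hc
  rw [not_le, lt_min_iff, ← hΓ] at hc
  have eE : dsc (n + 2) (Γ + (-q : ℝ) • ex Φ a) E = dsc (n + 2) Γ E := by
    rw [e1, ex_zero (gm_zero ci.ne hD), mul_zero, add_zero]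
  have i0 : ι (ρ s₀) ≠ 0 := (map_ne_zero ι).2 s1
  obtain ⟨Q, v1, v2, v3⟩ := one n K hK Λ (Γ + (-q : ℝ) • ex Φ a) (-mx (tau Φ a)) P E sΛ
    (bu.add_smp (smp_mx _)) (g2.add (by simpa using (ex_q (Φ := Φ) (a := a)).qsmul (-q)))
    ((Dsc.of_prn sΛ g1).add (dx.smul _)) (carQ_mx _).neg dm.neg on (lc r)
    (fun z => i0 (by rw [r.rd, ← z]; exact s2)) cl (neg_pos.2 ng)
    (fun R x z => by
      rcases all R z (tr R x) with ⟨k, k'⟩ | ⟨k, j, k'⟩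
      · have b := bdy R (tr R x) k'
        have : (0 : ℝ) ≤ ∑ i, (R.ord (Φ i) : ℝ) := Finset.sum_nonneg fun i _ =>
          Int.cast_nonneg (Pl.ord_nonneg_of_mem _ (mr R (tr R x) i))
        rw [e1, ex_off ha k, Pi.neg_apply, k, neg_zero]
        refine ⟨?_, le_rfl, fun z => absurd z (lt_irrefl _)⟩
        linarith [hΓ R, mul_le_mul_of_nonneg_right q1.le this]
      · exact ⟨by rw [lc k']; norm_num, (neg_pos.2 k).le, fun _ => lc k'⟩)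
    (fun Q h => by
      rcases dich Q with t | ⟨R, l⟩
      · obtain ⟨t1, t2⟩ := u2 Q t
        have o : Q.ord (ι ψ₀) = 0 := by
          have a1 := Pl.ord_nonneg_of_mem _ (t ψ₀)
          have a2 := Pl.ord_nonneg_of_mem _ (t ψ₀⁻¹)
          rw [map_inv₀, Pl.ord_inv] at a2
          exact le_antisymm (neg_nonneg.1 a2) a1
        rw [e2, g3, o, Int.cast_zero, zero_div]
        rcases (rx Q).1.eq_or_lt with z | z
        · have z' := (rx Q).2 z.symm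
          have := t2 z'
          simp only [z', ← z, Int.cast_zero, Finset.sum_const_zero]
          linarith
        · linarith [mul_pos q0 z]
      · linarith [ver Q R h l])
    (by rw [eE]; linarith [hc.2])
  rcases dich Q with t | ⟨R, l⟩
  · have k := upq N _ K L T u ρ Φ E (tau Φ a) P Q ci (tr P cl)
    have k1 := (Bm.rd_zero_iff Q (k.1 v1 s₀).1).1 (k.2 v1 v2 s₀ s2)
    rw [← r.rd] at k1
    have a2 := Pl.ord_nonneg_of_mem _ (t (ρ s₀)⁻¹)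
    rw [map_inv₀, Pl.ord_inv] at a2
    exact (k1.resolve_left i0).not_ge (neg_nonneg.1 a2)
  · linarith [ver Q R v1 l, hc.1]

end Vale.Agent.P283R.H
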