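import Vale.Agent.P283R.H.Ks
import Vale.Agent.P283R.Tp.Quo2
import Vale.Agent.P283R.Tp.Ufd
import Vale.Agent.P287D.Cb.Ad

/-!
# P283R, block H: the row `CIU`
-/

set_option linter.all false

open Set

noncomputable section

namespace Vale.Agent.P283R.H

open Vale.Agent.P287D Vale.Agent.P283M Vale.Agent.P297Z

namespace Ciu

variable {F F' : Type} [Field F] [Algebra ℂ F] [Field F'] [Algebra ℂ F'] {N c M : ℕ}
  {S : Subalgebra ℂ F} {S' : Subalgebra ℂ F'}

theorem td_aff (h : Aff N S) : Dim.td ℂ S = N := by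
  have : IsFractionRing S F := IsFractionRing.of_field _ _ h.fr
  have : Algebra.FiniteType ℂ S := (Subalgebra.fg_iff_finiteType S).1 h.fg
  have b := (Qw.trd (S := S) F).symm.trans h.ff.trdeg
  rwa [Dim.trdeg_eq_td, Nat.cast_inj] at b

variable {π : S' →ₐ[ℂ] S} {p : Ideal S} {f : Fin c → S'} {z : Fin M → F'}
  {D' : Fin M → Derivation ℂ F' F'}

theorem height_ker (h : Up N π p f z D') : (RingHom.ker π).height = c := by
  have : Algebra.FiniteType ℂ S' := (Subalgebra.fg_iff_finiteType S').1 h.aff'.fg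
  have : (RingHom.ker π).IsPrime := RingHom.ker_isPrime π
  have a := Dim.height_add_td (k := ℂ) (RingHom.ker π)
  have b : Dim.td ℂ (S' ⧸ RingHom.ker π) = N := by
    rw [← td_aff h.aff]
    exact congrArg _ (Ideal.quotientKerAlgEquivOfSurjective h.sur).trdeg_eq
  rw [b, td_aff h.aff', h.dim, Nat.cast_add] at a
  exact WithTop.add_right_cancel (ENat.natCast_ne_top _) a

theorem ker_min (h : Up N π p f z D') : RingHom.ker π ∈ (Ideal.span (range f)).minimalPrimes := by
  refine ⟨⟨RingHom.ker_isPrime π, Ideal.span_le.2 ?_⟩, fun q hq hle a ha => ?_⟩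
  · rintro _ ⟨i, rfl⟩
    exact h.ker i
  · obtain ⟨s, hs, e⟩ := h.gen a ha
    exact (hq.1.mem_or_mem (hq.2 e)).resolve_left fun k => hs (by
      rw [show π s = 0 from hle k]; exact zero_mem _)

theorem f_ne (h : Up N π p f z D') (i : Fin c) : f i ≠ 0 := fun e => by
  classical
  have : Algebra.FiniteType ℂ S' := (Subalgebra.fg_iff_finiteType S').1 h.aff'.fg
  have := Algebra.FiniteType.isNoetherianRing ℂ S'
  have h1 : Ideal.span (range f) = Ideal.span ((Finset.univ.erase i).image f : Finset S') := by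
    refine le_antisymm (Ideal.span_le.2 ?_) (Ideal.span_mono (by simp))
    rintro _ ⟨j, rfl⟩
    by_cases hj : j = i
    · rw [hj, e]; exact zero_mem _
    · exact Ideal.subset_span (by simpa using ⟨j, hj, rfl⟩)
  have h2 := Ideal.height_le_card_of_mem_minimalPrimes_span_finset (h1 ▸ ker_min h)
  rw [height_ker h, Nat.cast_le] at h2
  have h3 := h2.trans Finset.card_image_le
  rw [Finset.card_erase_of_mem (Finset.mem_univ i), Finset.card_univ, Fintype.card_fin] at h3
  have := i.2
  omega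

end Ciu

theorem ciu : CIU := by
  intro F F' _ _ _ _ S S' π p N c M f z D' h
  have hp := h.pri
  refine ⟨Ciu.f_ne h, (ufd M 1 F' S' _ z 1 1 h.aff' h.sm (Ideal.comap_isPrime π p)
    ⟨D', h.fr⟩).1, fun E hE => ?_⟩
  obtain ⟨u, hu⟩ := h.aff'.fg
  refine ⟨u, by rw [add_comm, ← h.dim]; exact h.aff'.ff, h.aff.ff,
    fun a ha => hu ▸ Algebra.subset_adjoin ha, fun P hP a ha => ?_, fun a => ?_, fun b => ?_,
    fun i => ⟨f i, rfl, by simp [h.ker]⟩, fun i e => Ciu.f_ne h i (Subtype.ext e),
    fun a => ⟨(hE a).1, id⟩, fun i => (hE (f i)).2.1 (by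
      rw [Ideal.mem_comap, h.ker]; exact zero_mem _), fun P hP h0 a ha => ?_⟩
  · rw [← hu] at ha
    induction ha using Algebra.adjoin_induction with
    | mem a ha => exact hP a ha
    | algebraMap a => exact P.con a
    | add a b _ _ ha hb => exact add_mem ha hb
    | mul a b _ _ ha hb => exact mul_mem ha hb
  · have : IsFractionRing S' F' := IsFractionRing.of_field _ _ h.aff'.fr
    rw [hu]
    exact (IsLocalization.isAlgebraic F' (nonZeroDivisors S')).isAlgebraic a
  · obtain ⟨s, t, e⟩ := h.aff.fr b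
    obtain ⟨s, rfl⟩ := h.sur s
    obtain ⟨t, rfl⟩ := h.sur t
    exact ⟨s, t, e⟩
  · obtain ⟨s, hs, e⟩ := h.gen a (Subtype.ext ha)
    let r := Cb.rdA (P := P) S' fun a ha => (hP ⟨a, ha⟩).1
    have k : Ideal.span (range f) ≤ RingHom.ker r := Ideal.span_le.2 (by
      rintro _ ⟨i, rfl⟩
      exact h0 i)
    have := k e
    rw [RingHom.mem_ker, map_mul] at this
    exact (mul_eq_zero.1 this).resolve_left fun e => hs ((hE s).2.2 ((hP s).2 e))

end Vale.Agent.P283R.H
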