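import Vale.Agent.P283R.H.Ks
import Vale.Agent.P283R.Tp.Fre
import Vale.Agent.P283R.Tp.Top0
import Vale.Agent.P283R.Tp.Hrt
import Vale.Agent.P287D.On.Lf
import Vale.Agent.P287D.Bm.Pl

/-!
# P283R, block H: invariant fields and rings of a complete intersection
-/

open Set Polynomial

noncomputable section

namespace Vale.Agent.P283R.H.Hc

open Vale.Agent.P287D Vale.Agent.P283M MulSemiringAction

section one

variable {F : Type} [Field F] [Algebra ℂ F] {N : ℕ} {A : Subgroup (F ≃ₐ[ℂ] F)}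
  {S : Subalgebra ℂ F} {p q : Ideal S}

/-- the field of invariants -/
abbrev Kf (A : Subgroup (F ≃ₐ[ℂ] F)) : IntermediateField ℂ F := IntermediateField.fixedField A

/-- the ring of invariants -/
abbrev Tf (A : Subgroup (F ≃ₐ[ℂ] F)) (S : Subalgebra ℂ F) : Subalgebra ℂ (Kf A) :=
  S.comap (Kf A).val

theorem mem_Kf {x : F} : x ∈ Kf A ↔ Fix A x := IntermediateField.mem_fixedField_iff A x

theorem fix_val (x : Kf A) : Fix A (x : F) := mem_Kf.1 x.2

/-- the inclusion -/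
def toS (A : Subgroup (F ≃ₐ[ℂ] F)) (S : Subalgebra ℂ F) : Tf A S →ₐ[ℂ] S :=
  ((Kf A).val.comp (Tf A S).val).codRestrict S fun s => s.2

theorem toS_coe (s : Tf A S) : (toS A S s : F) = (s : Kf A) := rfl

/-- an invariant element of `S` -/
def mk (a : S) (h : Fix A (a : F)) : Tf A S := ⟨⟨a, mem_Kf.2 h⟩, a.2⟩

theorem toS_mk (a : S) (h : Fix A (a : F)) : toS A S (mk a h) = a := rfl

/-- the conjugates -/
def cj (hA : Stab A S) (σ : A) (a : S) : S := ⟨σ.1 a, hA σ σ.2 a a.2⟩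

/-- the norm -/
def nrm [Fintype A] (hA : Stab A S) (a : S) : S := ∏ σ : A, cj hA σ a

theorem nrm_coe [Fintype A] (hA : Stab A S) (a : S) : (nrm hA a : F) = ∏ σ : A, σ.1 a :=
  SubmonoidClass.coe_finsetProd _ _

theorem nrm_fix [Fintype A] (hA : Stab A S) (a : S) : Fix A (nrm hA a : F) :=
  nrm_coe hA a ▸ Fre.fix_prod _

theorem dvd_nrm [Fintype A] (hA : Stab A S) (a : S) : a ∣ nrm hA a :=
  Finset.dvd_prod_of_mem (fun σ => cj hA σ a) (Finset.mem_univ 1)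

theorem nrm_ne [Fintype A] (hA : Stab A S) {a : S} (h : (a : F) ≠ 0) : (nrm hA a : F) ≠ 0 := by
  rw [nrm_coe]
  exact Finset.prod_ne_zero_iff.2 fun σ _ => (map_ne_zero σ.1).2 h

theorem of_nrm [Fintype A] (hA : Stab A S) (hp : p.IsPrime) (hi : ∀ σ ∈ A, Inr S p σ) {a : S}
    (h : nrm hA a ∈ p) : a ∈ p := by
  obtain ⟨σ, -, e⟩ := Ideal.IsPrime.prod_mem_iff.1 h
  obtain ⟨b, hb, e'⟩ := hi σ σ.2 a
  have : a = cj hA σ a - b := Subtype.ext (by
    rw [AddSubgroupClass.coe_sub, ← e']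
    exact (sub_sub_cancel _ _).symm)
  exact this ▸ p.sub_mem e hb

theorem ff_fix [Finite A] (h : FF F N) : FF (Kf A) N := by
  have := Fintype.ofFinite A
  obtain ⟨m, -, hm⟩ := Gm.ff_sub h (Kf A)
  have : Algebra.IsAlgebraic (Kf A) F := ⟨fun x => (Fre.int_of (monic_charpoly A x)
    (fun i => ⟨⟨_, mem_Kf.2 (Fre.coeff_fix x i)⟩, rfl⟩) (eval_charpoly A x)).isAlgebraic⟩
  have e := trdeg_add_eq ℂ (Kf A) (A := F)
  rw [trdeg_eq_zero (A := F), add_zero, hm.trdeg, h.trdeg] at e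
  exact (Nat.cast_injective e : m = N) ▸ hm

theorem up (h : FF F N) (P : Pl (Kf A)) : ∃ R, Lies (algebraMap (Kf A) F) R P := Pb.up_alg h P

theorem down [Finite A] (h : FF F N) (R : Pl F) : ∃ P, Lies (algebraMap (Kf A) F) R P :=
  Pb.down (ff_fix h) h R

theorem frac [Finite A] (h : Aff N S) (hA : Stab A S) (b : Kf A) :
    ∃ s t : Tf A S, b = (s : Kf A) / t := by
  have := Fintype.ofFinite A
  obtain ⟨s, t, e⟩ := h.fr b
  by_cases t0 : (t : F) = 0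
  · exact ⟨0, 1, Subtype.ext (by simpa [t0] using e)⟩
  obtain ⟨w, hw⟩ := dvd_nrm hA t
  have n0 := nrm_ne hA t0
  have e' : ((s * w : S) : F) = b * nrm hA t := by
    rw [e, hw]
    push_cast
    field_simp
  refine ⟨mk (s * w) fun σ hσ => ?_, mk _ (nrm_fix hA t), Subtype.ext ?_⟩
  · rw [e', map_mul, fix_val b σ hσ, nrm_fix hA t σ hσ]
  · change (b : F) = ((s * w : S) : F) / nrm hA t
    rw [e', mul_div_cancel_right₀ _ n0]

variable {R : Pl F} {P : Pl (Kf A)}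

theorem mem_ring [Fintype A] (l : Lies (algebraMap (Kf A) F) R P) {s : F}
    (h : ∀ i, (⟨_, mem_Kf.2 (Fre.coeff_fix s i)⟩ : Kf A) ∈ P.ring) : s ∈ R.ring := by
  have i : IsIntegral R.ring s := Fre.int_of (monic_charpoly A s)
    (fun i => ⟨⟨_, (l _).1 (h i)⟩, rfl⟩) (eval_charpoly A s)
  obtain ⟨y, rfl⟩ := IsIntegrallyClosed.isIntegral_iff.1 i
  exact y.2

theorem sub_ring [Finite A] (hA : Stab A S) (l : Lies (algebraMap (Kf A) F) R P)
    (h : ∀ a ∈ Tf A S, a ∈ P.ring) (s : F) (hs : s ∈ S) : s ∈ R.ring :=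
  have := Fintype.ofFinite A
  mem_ring l fun i => h _ (Fre.coeff_mem S.toSubring (fun σ => hA σ σ.2 s hs) i)

theorem cen_rd (l : Lies (algebraMap (Kf A) F) R P) (c : Cen S q R) (a : Tf A S) :
    (a : Kf A) ∈ P.ring ∧ (toS A S a ∈ q ↔ P.rd a = 0) :=
  have m := (l a).2 (c (toS A S a)).1
  ⟨m, (c (toS A S a)).2.trans (Tq.rd_lies l m)⟩

/-- the centre upstairs passes through `p` -/
theorem cen [Finite A] (hA : Stab A S) (hp : p.IsPrime) (hi : ∀ σ ∈ A, Inr S p σ)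
    (l : Lies (algebraMap (Kf A) F) R P)
    (h : ∀ a : Tf A S, (a : Kf A) ∈ P.ring ∧ (P.rd a = 0 → toS A S a ∈ p)) :
    ∃ q ≤ p, Cen S q R := by
  have := Fintype.ofFinite A
  obtain ⟨q, c⟩ := Tq.exists_cen (sub_ring hA l fun a ha => (h ⟨a, ha⟩).1)
  exact ⟨q, fun a ha => of_nrm hA hp hi ((h (mk _ (nrm_fix hA a))).2
    ((cen_rd l c _).2.1 (q.mem_of_dvd (dvd_nrm hA a) ha))), c⟩

/-- a divisor downstairs is a divisor upstairs -/
theorem sp_up [Finite A] (hF : FF F N) (hA : Stab A S) (l : Lies (algebraMap (Kf A) F) R P)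
    (h : Cb.Sp P (Tf A S)) : Cb.Sp R S := by
  refine ⟨sub_ring hA l h.1, fun x => ?_⟩
  obtain _ | n := N
  · exact (Bm.no_pl hF R).elim
  let := l.κ.toAlgebra
  have : IsScalarTower ℂ P.κ R.κ := IsScalarTower.of_algebraMap_eq fun c => by
    rw [← Bm.rd_const P, ← Bm.rd_const R]
    exact (l.isRd _ (P.con c)).symm
  have a1 : Algebra.IsAlgebraic P.κ R.κ := On.alg_of_trdeg
    (by rw [Bm.trdeg_κ hF]; exact Cardinal.natCast_lt_aleph0)
    (by rw [Bm.trdeg_κ hF, Bm.trdeg_κ (ff_fix hF)])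
  have a2 : Algebra.IsAlgebraic (Algebra.adjoin ℂ (P.rd '' Tf A S)) P.κ := ⟨h.2⟩
  have a3 := Algebra.IsAlgebraic.trans (Algebra.adjoin ℂ (P.rd '' Tf A S)) P.κ R.κ
  have le : (Algebra.adjoin ℂ (P.rd '' Tf A S)).map (IsScalarTower.toAlgHom ℂ P.κ R.κ) ≤
      Algebra.adjoin ℂ (R.rd '' S) := by
    rw [AlgHom.map_adjoin]
    refine Algebra.adjoin_mono ?_
    rintro _ ⟨_, ⟨a, ha, rfl⟩, rfl⟩
    exact ⟨a, ha, (l.isRd a (h.1 ha)).symm⟩
  exact On.alg_mono (R := Algebra.adjoin ℂ (P.rd '' Tf A S))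
    (l.κ.injective.comp Subtype.val_injective) Subtype.val_injective
    (fun r => ⟨⟨_, le ⟨r, r.2, rfl⟩⟩, rfl⟩) (a3.isAlgebraic x)

theorem exists_e (l : Lies (algebraMap (Kf A) F) R P) :
    ∃ e : ℕ, 0 < e ∧ (e : ℤ) = R.ord (algebraMap (Kf A) F P.t) ∧ Dv A R e := by
  obtain ⟨e, he⟩ := Int.eq_ofNat_of_zero_le l.e_pos.le
  exact ⟨e, by have := l.e_pos; omega, he.symm, fun h _ k =>
    ⟨_, he ▸ l.ord ⟨h, mem_Kf.2 k⟩⟩⟩

theorem le_e (l : Lies (algebraMap (Kf A) F) R P) {e : ℕ} (h : Dv A R e) :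
    (e : ℤ) ≤ R.ord (algebraMap (Kf A) F P.t) :=
  Int.le_of_dvd l.e_pos (h _ ((_root_.map_ne_zero _).2 (Pb.t_ne P)) (fix_val _))

end one

variable {F F' : Type} [Field F] [Algebra ℂ F] [Field F'] [Algebra ℂ F'] {N c M : ℕ}
  {S : Subalgebra ℂ F} {S' : Subalgebra ℂ F'} {π : S' →ₐ[ℂ] S} {p : Ideal S}
  {A' : Subgroup (F' ≃ₐ[ℂ] F')} {A : Subgroup (F ≃ₐ[ℂ] F)}

theorem fix_pi (hc : Cor π p A' A) {a : S'} (h : Fix A' (a : F')) : Fix A (π a : F) :=
  fun σ hσ => let ⟨σ', h', o⟩ := hc.up σ hσ; o a a (h σ' h')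

/-- the map of the invariants -/
def rho (hc : Cor π p A' A) : Tf A' S' →ₐ[ℂ] Kf A where
  toFun s := ⟨π (toS A' S' s), mem_Kf.2 (fix_pi hc (fix_val _))⟩
  map_one' := Subtype.ext (by simp)
  map_mul' _ _ := Subtype.ext (by simp)
  map_zero' := Subtype.ext (by simp)
  map_add' _ _ := Subtype.ext (by simp)
  commutes' _ := Subtype.ext (by simp)

theorem rho_coe (hc : Cor π p A' A) (s : Tf A' S') : (rho hc s : F) = π (toS A' S' s) := rfl

theorem rho_zero (hc : Cor π p A' A) (s : Tf A' S') : rho hc s = 0 ↔ π (toS A' S' s) = 0 :=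
  ⟨fun h => Subtype.ext (congrArg (fun x : Kf A => (x : F)) h),
    fun h => Subtype.ext (congrArg (fun x : S => (x : F)) h)⟩

theorem rho_sur (hc : Cor π p A' A) (su : Function.Surjective π) (t : Tf A S) :
    ∃ s, rho hc s = t := by
  have := hc.fin'
  have := Fintype.ofFinite A'
  obtain ⟨a, ha⟩ := su (toS A S t)
  have n0 : (Fintype.card A' : ℂ) ≠ 0 := Nat.cast_ne_zero.2 Fintype.card_ne_zero
  refine ⟨mk ((Fintype.card A' : ℂ)⁻¹ • ∑ σ : A', cj hc.stab' σ a) fun τ hτ => ?_, Subtype.ext ?_⟩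
  · have := Fre.fix_sum (G := A') (a : F') τ hτ
    rw [Subalgebra.coe_smul, map_smul, AddSubmonoidClass.coe_finsetSum]
    exact congrArg _ this
  · have e : ∀ σ : A', π (cj hc.stab' σ a) = π a := fun σ => by
      obtain ⟨τ, hτ, o⟩ := hc.down σ σ.2
      refine Subtype.ext ((o a _ rfl).symm.trans ?_)
      rw [ha]
      exact fix_val (t : Kf A) τ hτ
    change (π ((Fintype.card A' : ℂ)⁻¹ • ∑ σ : A', cj hc.stab' σ a) : F) = _
    rw [map_smul, map_sum, Finset.sum_congr rfl fun σ _ => e σ, Finset.sum_const,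
      Finset.card_univ, ← Nat.cast_smul_eq_nsmul ℂ, inv_smul_smul₀ n0, ha]
    rfl

theorem lift (h : Aff N S) (hc : Cor π p A' A) (su : Function.Surjective π) (b : Kf A) :
    ∃ s t : Tf A' S', rho hc t ≠ 0 ∧ b = rho hc s / rho hc t := by
  have := hc.fin
  obtain ⟨s, t, rfl⟩ := frac h hc.stab b
  obtain ⟨s', e⟩ := rho_sur hc su s
  obtain ⟨t', e'⟩ := rho_sur hc su t
  by_cases z : rho hc t' = 0
  · exact ⟨0, 1, by simp, by simp [← e', z]⟩
  · exact ⟨s', t', z, by rw [e, e']⟩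

theorem pi_cj (hc : Cor π p A' A) (σ : A') {a : S'} (h : π a ≠ 0) : π (cj hc.stab' σ a) ≠ 0 := by
  obtain ⟨τ, -, o⟩ := hc.down σ σ.2
  exact fun z => h (Subtype.ext ((_root_.map_eq_zero τ).1
    ((o a (cj hc.stab' σ a) rfl).trans (congrArg Subtype.val z))))

/-- invariant functions which are regular along the subvariety -/
theorem lf (hc : Cor π p A' A) {s t : S'} (ht : π t ≠ 0) (h : Fix A' ((s : F') / t)) :
    ∃ (ψ : Kf A') (ψ₀ : Kf A), (ψ : F') = s / t ∧ (ψ₀ : F) = π s / π t ∧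
      Lf (Tf A' S') (rho hc) ψ ψ₀ := by
  have := hc.fin'
  have := Fintype.ofFinite A'
  obtain ⟨w, hw⟩ := dvd_nrm hc.stab' t
  have n1 : π (nrm hc.stab' t) ≠ 0 := by
    rw [nrm, map_prod]
    exact Finset.prod_ne_zero_iff.2 fun σ _ => pi_cj hc σ ht
  have n2 : (π w : F) ≠ 0 := fun z => n1 (by rw [hw, map_mul, ZeroMemClass.coe_eq_zero.1 z, mul_zero])
  have w0 : (w : F') ≠ 0 := fun z => n2 (by rw [ZeroMemClass.coe_eq_zero.1 z, map_zero]; rfl)
  have t0 : (t : F') ≠ 0 := fun z => ht (by rw [ZeroMemClass.coe_eq_zero.1 z, map_zero])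
  have e : ((s * w : S') : F') = s / t * nrm hc.stab' t := by
    rw [hw]
    push_cast
    field_simp
  have k : Fix A' ((s * w : S') : F') := fun σ hσ => by
    rw [e, map_mul, h σ hσ, nrm_fix hc.stab' t σ hσ]
  refine ⟨⟨_, mem_Kf.2 h⟩, _, rfl, ?_, mk _ k, mk _ (nrm_fix hc.stab' t),
    fun z => n1 ((rho_zero hc _).1 z), Subtype.ext ?_, rfl⟩
  · change (π (s * w) : F) / π (nrm hc.stab' t) = _
    rw [hw, map_mul, map_mul]
    push_cast
    rw [mul_div_mul_right _ _ n2]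
  · change (s : F') / t = ((s * w : S') : F') / nrm hc.stab' t
    rw [e, mul_div_cancel_right₀ _ (nrm_ne _ t0)]

variable {P' : Pl F'} {E : Pl (Kf A')}

/-- centres upstairs -/
theorem cen_up (hc : Cor π p A' A) (hp : p.IsPrime) (c : Cen S' (p.comap π) P')
    (l : Lies (algebraMap (Kf A') F') P' E) {R : Pl F'} {P : Pl (Kf A')}
    (l' : Lies (algebraMap (Kf A') F') R P) (h : Tru (Tf A' S') E P) :
    ∃ q ≤ p.comap π, Cen S' q R :=
  have := hc.fin'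
  cen hc.stab' (Ideal.IsPrime.comap π) hc.inr' l' fun a =>
    ⟨(h a).1, fun k => (cen_rd l c a).2.2 ((h a).2 k)⟩

/-- centres downstairs -/
theorem cen_dn (hc : Cor π p A' A) (su : Function.Surjective π) (hp : p.IsPrime)
    (c : Cen S' (p.comap π) P') (l : Lies (algebraMap (Kf A') F') P' E) {R : Pl F} {P : Pl (Kf A)}
    (l' : Lies (algebraMap (Kf A) F) R P)
    (h : ∀ s : Tf A' S', rho hc s ∈ P.ring ∧ (P.rd (rho hc s) = 0 → E.rd s = 0)) :
    ∃ q ≤ p, Cen S q R :=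
  have := hc.fin
  cen hc.stab hp hc.inr l' fun a => by
    obtain ⟨s, e⟩ := rho_sur hc su a
    have e' : π (toS A' S' s) = toS A S a := Subtype.ext (congrArg (fun x : Kf A => (x : F)) e)
    exact ⟨e ▸ (h s).1, fun k => e' ▸ (cen_rd l c s).2.2 ((h s).2 (e ▸ k))⟩

theorem ex_s (hc : Cor π p A' A) (su : Function.Surjective π) (h0 : p ≠ ⊥)
    (c : Cen S' (p.comap π) P') (l : Lies (algebraMap (Kf A') F') P' E) :
    ∃ s : Tf A' S', rho hc s ≠ 0 ∧ E.rd s = 0 := by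
  have := hc.fin
  have := Fintype.ofFinite A
  obtain ⟨a, ha, a0⟩ := Submodule.exists_mem_ne_zero_of_ne_bot h0
  obtain ⟨s, e⟩ := rho_sur hc su (mk _ (nrm_fix hc.stab a))
  have e' : π (toS A' S' s) = nrm hc.stab a := Subtype.ext (congrArg (fun x : Kf A => (x : F)) e)
  refine ⟨s, fun k => nrm_ne hc.stab (fun z => a0 (Subtype.ext z)) ?_, (cen_rd l c s).2.1 ?_⟩
  · rw [← e', (rho_zero hc s).1 k]
    rfl
  · rw [Ideal.mem_comap, e']
    exact p.mem_of_dvd (dvd_nrm _ a) ha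

/-- the data `Ci` on the quotient -/
theorem ci {f : Fin c → S'} {z : Fin M → F'} {D' : Fin M → Derivation ℂ F' F'}
    (h : Up N π p f z D') (hc : Cor π p A' A) (f0 : ∀ i, (f i : F') ≠ 0) {m : ℕ} (hm : 0 < m)
    {Φ : Fin c → Kf A'} (hΦ : ∀ i, (Φ i : F') = f i ^ m) (c' : Cen S' (p.comap π) P')
    (l : Lies (algebraMap (Kf A') F') P' E) : ∃ u, Ci N (Tf A' S') u (rho hc) Φ E := by
  classical
  have := hc.fin'
  have := hc.fin
  have := Fintype.ofFinite A'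
  have hp := h.pri
  have hK : FF (Kf A') (N + c) := add_comm c N ▸ h.dim ▸ ff_fix h.aff'.ff
  obtain ⟨G, hG⟩ := h.aff'.fg
  let cf : F' → ℕ → Kf A' := fun s i => ⟨_, mem_Kf.2 (Fre.coeff_fix s i)⟩
  let u := G.biUnion fun s => (charpoly A' s).support.image (cf s)
  have ov : ∀ P, Ov u P → ∀ a ∈ Tf A' S', a ∈ P.ring := fun P o a ha => by
    obtain ⟨R, k⟩ := up h.aff'.ff P
    refine (k a).2 (On.adjoin_le_val R.con (S := G) (fun s hs => mem_ring k fun i => ?_) _ (hG ▸ ha))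
    by_cases z : i ∈ (charpoly A' s).support
    · exact o _ (Finset.mem_biUnion.2 ⟨s, hs, Finset.mem_image_of_mem _ z⟩)
    · have e : cf s i = 0 := Subtype.ext (Polynomial.notMem_support_iff.1 z)
      change cf s i ∈ _
      exact e ▸ zero_mem _
  have mΦ : ∀ i, Φ i ∈ Tf A' S' := fun i => by
    change (Φ i : F') ∈ S'
    exact hΦ i ▸ pow_mem (f i).2 m
  have eΦ : ∀ i, toS A' S' ⟨_, mΦ i⟩ = f i ^ m := fun i => Subtype.ext (hΦ i)
  have zΦ : ∀ i, π (toS A' S' ⟨_, mΦ i⟩) = 0 := fun i => by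
    rw [eΦ, map_pow, h.ker, zero_pow hm.ne']
  refine ⟨u, hK, ff_fix h.aff.ff, fun a ha => ?_, ov, fun a => ?_, fun b => ?_,
    fun i => ⟨⟨_, mΦ i⟩, rfl, (rho_zero hc _).2 (zΦ i)⟩,
    fun i z => pow_ne_zero m (f0 i) (by rw [← hΦ, z]; rfl), fun a => ⟨(cen_rd l c' a).1, id⟩,
    fun i => (cen_rd l c' ⟨_, mΦ i⟩).2.1 (by rw [Ideal.mem_comap, zΦ]; exact zero_mem _),
    fun P t v a a0 => ?_⟩
  · obtain ⟨s, hs, k⟩ := Finset.mem_biUnion.1 ha
    obtain ⟨i, -, rfl⟩ := Finset.mem_image.1 k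
    exact Fre.coeff_mem S'.toSubring
      (fun σ => hc.stab' σ σ.2 s (hG ▸ Algebra.subset_adjoin hs)) i
  · have i : ∀ s : Tf A' S', IsIntegral (Algebra.adjoin ℂ (u : Set (Kf A'))) (s : Kf A') :=
      fun s => by_contra fun k =>
        let ⟨P, k1, k2⟩ := On.val hK (Subalgebra.fg_adjoin_finset u) k
        k2 (ov P (fun b hb => k1 b (Algebra.subset_adjoin hb)) _ s.2)
    obtain ⟨s, t, rfl⟩ := frac h.aff' hc.stab' a
    rw [div_eq_mul_inv]
    exact (i s).isAlgebraic.mul (i t).isAlgebraic.inv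
  · obtain ⟨s, t, rfl⟩ := frac h.aff hc.stab b
    obtain ⟨s', e⟩ := rho_sur hc h.sur s
    obtain ⟨t', e'⟩ := rho_sur hc h.sur t
    exact ⟨s', t', by rw [e, e']⟩
  · obtain ⟨R, k⟩ := up h.aff'.ff P
    obtain ⟨q, le, cq⟩ := cen_up hc hp c' l k t
    have hq := Hr.cen_prime cq
    obtain ⟨s, s0, hs⟩ := h.gen _ ((rho_zero hc a).1 a0)
    have : Ideal.span (range f) ≤ q := Ideal.span_le.2 (by
      rintro _ ⟨i, rfl⟩
      exact hq.mem_of_pow_mem m (eΦ i ▸ (cen_rd k cq ⟨_, mΦ i⟩).2.2 (v i)))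
    exact (cen_rd k cq a).2.1 ((hq.mem_or_mem (this hs)).resolve_left fun z => s0 (le z))

end Vale.Agent.P283R.H.Hc
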