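import Vale.Agent.P283R.H.Hu1
import Vale.Agent.P283R.H.Hc
import Vale.Agent.P283R.H.Ciu
import Vale.Agent.P283R.Tp.Der

/-!
# P283R, block H: inversion of adjunction on the quotients
-/

set_option linter.all false

open Set
open Vale.Agent.P285N.Brep (jac Fr)
open Vale.Agent.P297Z

noncomputable section

namespace Vale.Agent.P283R.H

open Vale.Agent.P287D Chr

namespace Hu

variable {F F' K L : Type} [Field F] [Algebra ℂ F] [Field F'] [Algebra ℂ F'] [Field K]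
  [Algebra ℂ K] [Field L] [Algebra ℂ L] {N c : ℕ} {S : Subalgebra ℂ F} {S' : Subalgebra ℂ F'}
  {π : S' →ₐ[ℂ] S} {p : Ideal S} {A' : Subgroup (F' ≃ₐ[ℂ] F')} {A : Subgroup (F ≃ₐ[ℂ] F)}

/-- the quotients -/
structure Qt (π : S' →ₐ[ℂ] S) (A' : Subgroup (F' ≃ₐ[ℂ] F')) (A : Subgroup (F ≃ₐ[ℂ] F))
    (ι' : K →ₐ[ℂ] F') (ι : L →ₐ[ℂ] F) (T : Subalgebra ℂ K) (ρ : T →ₐ[ℂ] L) : Prop where
  fx : ∀ a, Fix A' a ↔ ∃ b, ι' b = a
  fy : ∀ a, Fix A a → ∃ b, ι b = a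
  mem : ∀ a, a ∈ T ↔ ι' a ∈ S'
  rho : ∀ (a : T) (s : S'), ι' a = s → ι (ρ a) = π s

variable {ι' : K →ₐ[ℂ] F'} {ι : L →ₐ[ℂ] F} {T : Subalgebra ℂ K} {ρ : T →ₐ[ℂ] L}

theorem lf (q : Qt π A' A ι' ι T ρ) (hc : Cor π p A' A) {a : K} {b : F} (h : (ι' a, b) ∈ gr π) :
    ∃ b₀, ι b₀ = b ∧ Lf T ρ a b₀ := by
  classical
  have := hc.fin'
  have := Fintype.ofFinite A'
  obtain ⟨s, t, t0, e1, e2⟩ := h
  let τ : A' → S' := fun σ => ⟨σ.1 t, hc.stab' σ σ.2 t t.2⟩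
  have n0 : π (∏ σ, τ σ) ≠ 0 := by
    rw [map_prod]
    refine Finset.prod_ne_zero_iff.2 fun σ _ e => t0 (Subtype.ext ?_)
    obtain ⟨σ₀, -, k⟩ := hc.down σ σ.2
    exact σ₀.injective (by rw [k t (τ σ) rfl, e]; simp)
  obtain ⟨t₀, ht⟩ := (q.fx _).1 (Fre.fix_prod (G := A') t)
  have ht' : ι' t₀ = (∏ σ, τ σ : S') := by rw [ht]; simp [τ]
  obtain ⟨r, hr⟩ : t ∣ ∏ σ, τ σ := Finset.dvd_prod_of_mem τ (Finset.mem_univ 1)
  have hs : ι' (a * t₀) = (s * r : S') := by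
    rw [map_mul, ht', hr, Subalgebra.coe_mul, Subalgebra.coe_mul, ← mul_assoc]
    exact congrArg (· * (r : F')) e1
  let t₁ : T := ⟨t₀, (q.mem _).2 (ht' ▸ SetLike.coe_mem _)⟩
  let s₁ : T := ⟨a * t₀, (q.mem _).2 (hs ▸ SetLike.coe_mem _)⟩
  have k1 := q.rho t₁ _ ht'
  have k2 := q.rho s₁ _ hs
  have k3 : ι (ρ t₁) ≠ 0 := k1 ▸ fun e => n0 (Subtype.ext e)
  have k4 : ρ t₁ ≠ 0 := fun e => k3 (by rw [e, map_zero])
  refine ⟨ρ s₁ / ρ t₁, ?_, s₁, t₁, k4, ?_, rfl⟩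
  · rw [map_div₀, div_eq_iff k3, k1, k2, hr, map_mul, map_mul, Subalgebra.coe_mul,
      Subalgebra.coe_mul, ← mul_assoc]
    exact congrArg (· * (π r : F)) e2.symm
  · exact (mul_div_cancel_right₀ a fun e : t₀ = 0 =>
      k4 (by rw [show t₁ = 0 from Subtype.ext e, map_zero])).symm

theorem dim_pos (h : Aff N S) (hp : p.IsPrime) (p0 : p ≠ ⊥) : 0 < N := by
  refine Nat.pos_of_ne_zero fun e => p0 (eq_bot_iff.2 fun s hs => by_contra fun s0 => ?_)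
  have : Algebra.IsAlgebraic ℂ F := trdeg_eq_zero_iff.1 (by rw [h.ff.trdeg, e, Nat.cast_zero])
  refine hp.ne_top (p.eq_top_of_isUnit_mem hs (IsUnit.of_mul_eq_one
    ⟨_, S.inv_mem_of_algebraic (x := s) (this.isAlgebraic _)⟩ (Subtype.ext ?_)))
  exact mul_inv_cancel₀ fun k => s0 (Subtype.ext k)

theorem core (hk : HK) (tpd : TPD) (q : Qt π A' A ι' ι T ρ) (hc : Cor π p A' A)
    {f : Fin (c + 1) → S'} {z : Fin (c + 1 + N) → F'} {D' : Fin (c + 1 + N) → Derivation ℂ F' F'}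
    (h : Up N π p f z D') {y : Fin N → F} {j : F} {g : S'} {Q : ℕ} {ε : ℝ} (p0 : p ≠ ⊥)
    (j0 : j ≠ 0) (rs : Rs π h.dim D' f y j) (hz : ∀ l, Eig A' (z l))
    (hf : ∀ i, Eig A' (f i : F')) (hg : Eig A' (g : F')) (g0 : π g ≠ 0) (hQ : 0 < Q) (hε : 0 < ε)
    (h1 : ε ≤ 1) (H : ∀ q : Ideal S, q ≤ p → Hyp ε A S q y Q (j ^ Q * π g)) {P : Pl F'} {E : Pl K}
    (l : Lies ι'.toRingHom P E) {Φ : Fin (c + 1) → K} (hΦ : ∀ i, ι' (Φ i) = f i ^ Nat.card A')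
    {u : Finset K} (ci : Ci N T u ρ Φ E) (ex : ∃ s : T, ρ s ≠ 0 ∧ E.rd s = 0)
    (up : ∀ P₀ R, Tru T E P₀ → Lies ι'.toRingHom R P₀ → Cb.Sp P₀ T →
      Cb.Sp R S' ∧ ∃ q ≤ p.comap π, Cen S' q R)
    (dn : ∀ R₀ R, (∀ s : T, ρ s ∈ R₀.ring ∧ (R₀.rd (ρ s) = 0 → E.rd s = 0)) →
      Lies ι.toRingHom R R₀ → ∃ q ≤ p, Cen S q R) :
    ε * P.ord (ι' E.t) ≤ ld z Q ((∏ i, (f i : F')) ^ Q * g) P := by
  have := hc.fin'
  have hm : 0 < Nat.card A' := Nat.card_pos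
  have pp := Ideal.comap_isPrime π p (H := h.pri)
  obtain ⟨v, D, a, b, fr, hb, e, rfl⟩ := rs
  simp only [Fin.cast_eq_self] at e
  obtain ⟨w, hw⟩ := ex_tb ρ ci.ff' ci.fr
  let w' : Fin N → S' := fun i => ⟨_, (q.mem _).1 (w i).2⟩
  have ew : ∀ i, ι (ρ (w i)) = π (w' i) := fun i => q.rho _ _ rfl
  have k := key h fr (e ▸ gr_div a hb) w'
  have ea : (fun l => ((Fin.append f w' l : S') : F')) =
      Fin.append (fun i => (f i : F')) fun i => ι' (w i) := funext fun l => by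
    refine Fin.addCases (fun j => ?_) (fun j => ?_) l <;> simp [w']
  rw [ea] at k
  rw [mul_div_assoc] at j0 H
  have r0 := right_ne_zero_of_mul j0
  have w0 : jac D (fun i => (π (w' i) : F)) ≠ 0 := (Cb.jac_ne_iff fr _).2 (by
    simp only [← ew]
    exact hw.map' (f := ι) ι.toRingHom.injective)
  have J0 : jac D' (Fin.append (fun i => (f i : F')) fun i => ι' (w i)) ≠ 0 := fun e =>
    mul_ne_zero r0 w0 (gr_uniq (e ▸ k) (zero_mem (gr π)))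
  have g1 : (π g : F) ≠ 0 := fun e => g0 (Subtype.ext e)
  have g2 : (g : F') ≠ 0 := fun e => g0 (by rw [show g = 0 from Subtype.ext e, map_zero])
  obtain ⟨ψ, hψ⟩ := (q.fx _).1 (fix_pow (eig_mul (eig_pow (eig_jac h.fr hz
    (w := Fin.append (fun i => (f i : F')) fun i => ι' (w i)) fun l => by
      refine Fin.addCases (fun j => ?_) (fun j => ?_) l
      · simpa using hf j
      · rw [Fin.append_right]
        exact fun σ hσ => ⟨1, by rw [one_smul]; exact (q.fx _).2 ⟨_, rfl⟩ σ hσ⟩) Q) hg))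
  obtain ⟨ψ₀, e0, lψ⟩ := lf q hc (a := ψ) (by
    rw [hψ]
    exact pow_mem (mul_mem (pow_mem k Q) (gr_self g)) (Nat.card A'))
  have e0' : ι ψ₀ = ((π a / π b * jac D fun i => (π (w' i) : F)) ^ Q * π g) ^ Nat.card A' := e0
  have hK : FF K (c + 1 + N) := add_comm N _ ▸ ci.ff
  have U : ∀ {R R₀}, Lies ι'.toRingHom R R₀ → _ := fun l =>
    up_id ι' hK h.fr hm hQ g2 J0 hΦ (fun _ => rfl) hψ l
  have m0 : (0 : ℝ) < Nat.card A' := Nat.cast_pos.2 hm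
  have key := hk N c K L T u ρ Φ E (fun i => w i) (fun i => ρ (w i)) (Q * Nat.card A') ψ ψ₀ ε
    (Nat.card A' : ℝ)⁻¹ ci (dim_pos h.aff h.pri p0) hε (inv_pos.2 m0) hw
    (fun i => ⟨w i, 1, by simp, by simp, by simp⟩) lψ (fun e => by
      rw [e, map_zero] at e0'
      exact pow_ne_zero _ (mul_ne_zero (pow_ne_zero _ (mul_ne_zero r0 w0)) g1) e0'.symm) ex
    (fun P₀ t s => ?_) fun R₀ t => ?_
  · rw [← U l, mul_comm, ← min_eq_left h1]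
    exact mul_le_mul_of_nonneg_left key (by exact_mod_cast l.e_pos.le)
  · obtain ⟨R, lR⟩ := Pb.up (φ := ι'.toRingHom) ι'.commutes h.aff'.ff P₀
    obtain ⟨sp, q', le, cq⟩ := up P₀ R t lR s
    obtain ⟨q'', cq', lo⟩ := tpd _ F' S' R h.aff' (ciu F F' S S' π p N _ _ f z D' h).2.1 sp
    obtain rfl : q' = q'' := Ideal.ext fun a => (cq a).2.trans (cq' a).2.symm
    have k0 := Dr13.der_kap pp h.fr (fun l => Dr13.coe_mem pp ⟨_, h.mem l⟩) h.pre R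
      ⟨q', le, cq, lo⟩
    have f0 : ∀ i, (f i : F') ≠ 0 := fun i => by simpa using ne_of_jac J0 (Fin.castAdd N i)
    have e1 := U lR
    have e2 : ∀ i, (R.ord (ι' P₀.t) : ℝ) * P₀.ord (Φ i) = Nat.card A' * R.ord (f i) := fun i => by
      have : R.ord (ι' (Φ i)) = R.ord (ι' P₀.t) * P₀.ord (Φ i) := lR.ord _
      rw [hΦ, Pl.ord_pow] at this
      exact_mod_cast this.symm
    have e3 : (1 : ℝ) ≤ R.ord (ι' P₀.t) := by exact_mod_cast lR.e_pos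
    have e4 : (0 : ℝ) ≤ R.ord g / Q :=
      div_nonneg (by exact_mod_cast Pl.ord_nonneg_of_mem R.toPlace (cq g).1) (Nat.cast_nonneg _)
    rw [ld, k0, Pl.ord_mul _ (pow_ne_zero _ (Finset.prod_ne_zero_iff.2 fun i _ => f0 i)) g2,
      Pl.ord_pow, A0r.ord_prod R _ _ f0] at e1
    push_cast at e1
    rw [add_div, mul_div_cancel_left₀ _ (Nat.cast_ne_zero.2 hQ.ne')] at e1
    refine le_of_mul_le_mul_left ?_ (one_pos.trans_le e3)
    rw [mul_add, e1, mul_left_comm, Finset.mul_sum]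
    simp only [e2]
    rw [← Finset.mul_sum, inv_mul_cancel_left₀ m0.ne']
    linarith
  · obtain ⟨R, lR⟩ := Pb.up (φ := ι.toRingHom) ι.commutes h.aff.ff R₀
    obtain ⟨q', le, cq⟩ := dn R₀ R t lR
    obtain ⟨n, hn⟩ := Int.eq_ofNat_of_zero_le lR.e_pos.le
    have hn' : R.ord (ι R₀.t) = n := hn
    have e3 : (0 : ℝ) < n := by exact_mod_cast hn ▸ lR.e_pos
    have := H q' le R cq n (by exact_mod_cast e3) fun x _ hx => by
      obtain ⟨b, rfl⟩ := q.fy x hx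
      exact ⟨_, hn ▸ lR.ord b⟩
    rw [← dn_id ι ci.ff' fr (left_ne_zero_of_mul j0) w0 r0 g1 hm hQ ew e0' lR, hn', mul_comm,
      Int.cast_natCast] at this
    exact le_of_mul_le_mul_left this e3

end Hu

open Hu Hc in
/-- **HUP**, positive codimension -/
theorem hup1_of (hk : HK) (tpd : TPD) : HUP1 := by
  intro F F' _ _ _ _ S S' π p N c M f z D' h y j A' A g Q ε hc0 p0 _ j0 rs _ hc hz hf hg _ g0 hQ
    hε h1 H P cP e _ dv
  obtain rfl := h.dim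
  obtain ⟨c, rfl⟩ : ∃ n, c = n + 1 := ⟨_, (Nat.succ_pred_eq_of_pos hc0).symm⟩
  have := hc.fin'
  obtain ⟨E, l⟩ := down (A := A') h.aff'.ff P
  let Φ : Fin (c + 1) → Kf A' := fun i => ⟨_, mem_Kf.2 (fix_pow (hf i))⟩
  obtain ⟨u, hu⟩ := ci h hc (fun i e => Ciu.f_ne h i (Subtype.ext e)) Nat.card_pos (Φ := Φ)
    (fun _ => rfl) cP l
  refine le_trans (mul_le_mul_of_nonneg_left (by exact_mod_cast le_e l dv) hε.le)
    (core hk tpd (π := π) (ι' := (Kf A').val) (ι := (Kf A).val) (ρ := rho hc)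
      ⟨fun a => ⟨fun k => ⟨⟨a, mem_Kf.2 k⟩, rfl⟩, fun ⟨b, k⟩ => k ▸ fix_val b⟩,
        fun a k => ⟨⟨a, mem_Kf.2 k⟩, rfl⟩, fun _ => Iff.rfl,
        fun a s k => congrArg (fun x => (π x : F)) (Subtype.ext k : toS A' S' a = s)⟩
      hc h p0 j0 rs hz hf hg g0 hQ hε h1 H l (fun _ => rfl) hu (ex_s hc h.sur p0 cP l)
      (fun _ _ t k s => ⟨sp_up h.aff'.ff hc.stab' k s, cen_up hc h.pri cP l k t⟩)
      fun _ _ t k => cen_dn hc h.sur h.pri cP l k t)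

end Vale.Agent.P283R.H
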