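import Vale.Agent.P283R.H.Ks

/-!
# P283R, block H: the prime divisors of the weighted blow up
-/

open Set
open scoped Pointwise
open Vale.Agent.P297Z Vale.Agent.P287D Vale.Agent.P287D.On Vale.Agent.P283M

noncomputable section

namespace Vale.Agent.P283R.H

namespace Re

section alg

variable {κ L : Type} [Field κ] [Algebra ℂ κ] [Field L] [Algebra ℂ L] {n : ℕ} {X Y : Set κ} {b : κ}

/-- `b` is algebraic over the ring generated by `X` -/
def Al (X : Set κ) (b : κ) : Prop := IsAlgebraic (Algebra.adjoin ℂ X) b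

theorem Al.of_mem (h : b ∈ Algebra.adjoin ℂ X) : Al X b :=
  isAlgebraic_algebraMap (⟨b, h⟩ : Algebra.adjoin ℂ X)

theorem Al.of_fld (h : b ∈ IntermediateField.adjoin ℂ X) : Al X b :=
  IntermediateField.isAlgebraic_adjoin_iff.1
    (isAlgebraic_algebraMap (⟨b, h⟩ : IntermediateField.adjoin ℂ X))

theorem Al.trans (h : Al X b) (k : ∀ a ∈ X, Al Y a) : Al Y b :=
  IsAlgebraic.adjoin_of_forall_isAlgebraic (fun a ha => k a ha.1) h

theorem card_le {ι : Type} [Fintype ι] (h : FF κ n) {x : ι → κ} (hx : AlgebraicIndependent ℂ x) :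
    Fintype.card ι ≤ n := by
  have := hx.cardinalMk_le_trdeg
  rw [Bm.trdeg_eq h, Cardinal.mk_fintype] at this
  exact_mod_cast this

theorem fin_of {ι : Type} (h : FF κ n) {x : ι → κ} (hx : AlgebraicIndependent ℂ x) : Finite ι := by
  have := hx.cardinalMk_le_trdeg
  rw [Bm.trdeg_eq h] at this
  exact Cardinal.mk_lt_aleph0_iff.1 (this.trans_lt (Cardinal.natCast_lt_aleph0 ..))

theorem le_card {ι : Type} [Fintype ι] (h : FF κ n) {x : ι → κ} (hx : ∀ b, Al (range x) b) :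
    n ≤ Fintype.card ι := by
  have : Algebra.IsAlgebraic (Algebra.adjoin ℂ (range x)) κ := ⟨hx⟩
  have := (Algebra.IsAlgebraic.trdeg_le_cardinalMk ℂ (range x)).trans Cardinal.mk_range_le
  rw [Bm.trdeg_eq h, Cardinal.mk_fintype] at this
  exact_mod_cast this

theorem ind_of {ι : Type} [Fintype ι] (h : FF κ n) {x : ι → κ} (hx : ∀ b, Al (range x) b)
    (e : Fintype.card ι = n) : AlgebraicIndependent ℂ x := by
  have : Algebra.IsAlgebraic (Algebra.adjoin ℂ (range x)) κ := ⟨hx⟩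
  refine (Algebra.IsAlgebraic.isTranscendenceBasis_of_le_trdeg_of_finite ℂ x ?_).1
  rw [Bm.trdeg_eq h, Cardinal.mk_fintype, e]

theorem al_map (h : FF L n) (ι : L →ₐ[ℂ] κ) {y : Fin n → L} (hy : AlgebraicIndependent ℂ y)
    (a : L) : Al (range fun j => ι (y j)) (ι a) := by
  by_contra z
  have h1 := AlgebraicIndependent.option_iff.2 ⟨hy.map' (f := ι) ι.injective, z⟩
  have h2 : AlgebraicIndependent ℂ fun o : Option (Fin n) => o.elim a y :=
    AlgebraicIndependent.of_comp ι (by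
      have e : (ι ∘ fun o : Option (Fin n) => o.elim a y) = fun o => o.elim (ι a) (ι ∘ y) :=
        funext fun o => by cases o <;> rfl
      rwa [e])
  have := card_le h h2
  simp at this

/-- the map of the fields of fractions -/
theorem exists_iota {T : Type} [CommRing T] [Algebra ℂ T] (ρ : T →ₐ[ℂ] L) (φ : T →ₐ[ℂ] κ)
    (fr : ∀ b : L, ∃ s t : T, b = ρ s / ρ t) (h : ∀ s, ρ s = 0 ↔ φ s = 0) :
    ∃ ι : L →ₐ[ℂ] κ, ∀ s, ι (ρ s) = φ s := by
  have : IsFractionRing ρ.range L := IsFractionRing.of_field _ _ fun b =>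
    let ⟨s, t, e⟩ := fr b
    ⟨⟨_, s, rfl⟩, ⟨_, t, rfl⟩, e⟩
  have su : Function.Surjective ρ.rangeRestrict := ρ.rangeRestrict_surjective
  have kl : RingHom.ker ρ.rangeRestrict.toRingHom ≤ RingHom.ker φ.toRingHom := fun s hs =>
    (h s).1 (congrArg Subtype.val (RingHom.mem_ker.1 hs))
  have ap := AlgHom.liftOfSurjective_apply ρ.rangeRestrict su φ kl
  have inj : Function.Injective (AlgHom.liftOfSurjective ρ.rangeRestrict su φ kl) :=
    (injective_iff_map_eq_zero _).2 fun a ha => by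
      obtain ⟨s, rfl⟩ := su a
      exact Subtype.ext ((h s).2 ((ap s).symm.trans ha))
  exact ⟨IsFractionRing.liftAlgHom inj, fun s =>
    (IsFractionRing.lift_algebraMap inj (ρ.rangeRestrict s)).trans (ap s)⟩

/-- the count of the transcendence degrees -/
theorem count {T : Type} [CommRing T] [Algebra ℂ T] {N c : ℕ} (hL : FF L N) (hκ : FF κ (N + c))
    (ρ : T →ₐ[ℂ] L) (φ : T →ₐ[ℂ] κ) (fr : ∀ b : L, ∃ s t : T, b = ρ s / ρ t)
    (h : ∀ s, ρ s = 0 → φ s = 0) {r : Fin c → κ} (hr : ∀ b, Al (range φ ∪ range r) b)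
    {y : Fin N → L} (hy : AlgebraicIndependent ℂ y) : ∃ ι : L →ₐ[ℂ] κ, (∀ s, ι (ρ s) = φ s) ∧
      AlgebraicIndependent ℂ (Sum.elim r fun j => ι (y j)) := by
  have k : ∀ s, φ s = 0 → ρ s = 0 := fun s hs => by_contra fun z => by
    obtain ⟨I, hI⟩ := (AlgebraicIndependent.matroid ℂ κ).exists_isBasis (range φ)
    obtain ⟨i1, i2, i3⟩ := AlgebraicIndependent.matroid_isBasis_iff.1 hI
    choose w hw using fun i : I => i2 i.2
    have i4 : AlgebraicIndependent ℂ fun i : I => φ (w i) := by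
      rw [funext hw]
      exact i1
    have := fin_of hκ i4
    have := Fintype.ofFinite I
    have c1 := card_le hL (Aj.drop' ρ φ h i4 z hs)
    have c2 := le_card hκ (ι := I ⊕ Fin c) (x := Sum.elim (fun i => i.1) r) fun b => (hr b).trans fun a ha => by
      rcases ha with ha | ⟨i, rfl⟩
      · exact Al.trans (i3 a ha) fun a ha => .of_mem (Algebra.subset_adjoin ⟨.inl ⟨a, ha⟩, rfl⟩)
      · exact .of_mem (Algebra.subset_adjoin ⟨.inr i, rfl⟩)
    simp only [Fintype.card_option, Fintype.card_sum, Fintype.card_fin] at c1 c2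
    omega
  obtain ⟨ι, hι⟩ := exists_iota ρ φ fr fun s => ⟨h s, k s⟩
  refine ⟨ι, hι, ind_of hκ (fun b => (hr b).trans fun a ha => ?_) (by simp [add_comm])⟩
  rcases ha with ⟨s, rfl⟩ | ⟨i, rfl⟩
  · rw [← hι]
    refine (al_map hL ι hy _).trans ?_
    rintro _ ⟨j, rfl⟩
    exact .of_mem (Algebra.subset_adjoin ⟨.inr j, rfl⟩)
  · exact .of_mem (Algebra.subset_adjoin ⟨.inl i, rfl⟩)

end alg

variable {K L : Type} [Field K] [Algebra ℂ K] [Field L] [Algebra ℂ L] {n N c : ℕ}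
  {T : Subalgebra ℂ K} {u w : Finset K} {ρ : T →ₐ[ℂ] L} {E P : Pl K} {f : K}

/-- the residue field of a prime divisor of `V (inf u + mx w)` over `V` -/
theorem al_on (hK : FF K (n + 1)) (hP : On n (inf u + mx w) P) (o : Ov u P) (hf : f ∈ w)
    (c : On.Ch (mx w) f P) (b : P.κ) : Al (P.rd '' u ∪ (fun g => P.rd (g / f)) '' w) b := by
  classical
  have n1 : Nz (insert (1 : K) u) := ⟨1, Finset.mem_insert_self _ _, one_ne_zero⟩
  have e : inf u + mx w = mx (insert 1 u * w) := by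
    rw [mx_mul n1 ⟨f, hf, c.ne⟩, inf]
  have m : f ∈ insert 1 u * w := by
    simpa using Finset.mul_mem_mul (Finset.mem_insert_self (1 : K) u) hf
  have c' : On.Ch (mx (insert 1 u * w)) f P := ⟨c.ne, sec_of_mem m, by
    rw [← e, Pi.add_apply, Kl.inf_zero.2 o, zero_add]
    exact c.eq⟩
  rw [e, on_iff_big hK P (smp_mx _).nef, res_mx hK, big_mx_iff (Gm.ff_κ P hK), rts_rs m c'] at hP
  refine Al.trans (IntermediateField.isAlgebraic_adjoin_iff.1 (hP b)) ?_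
  rintro _ ⟨a, ha, rfl⟩
  have le : Bf (insert 1 u * w) f ≤ ((Algebra.adjoin ℂ (P.rd '' u ∪ (fun g => P.rd (g / f)) '' w)).comap
      (rh P _ c'.mem)).map (Af (mx (insert 1 u * w)) f).val := Algebra.adjoin_le (by
    rintro _ ⟨g, hg, rfl⟩
    refine ⟨⟨g / f, Bf_le c.ne (mem_Bf hg)⟩, ?_, rfl⟩
    obtain ⟨g₁, h1, g₂, h2, rfl⟩ := Finset.mem_mul.1 hg
    have r2 : g₂ / f ∈ P.ring := c.mem _ (Bf_le c.ne (mem_Bf h2))
    have m2 : P.rd (g₂ / f) ∈ Algebra.adjoin ℂ (P.rd '' u ∪ (fun g => P.rd (g / f)) '' w) :=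
      Algebra.subset_adjoin (Or.inr ⟨g₂, h2, rfl⟩)
    refine (Subalgebra.mem_comap _ _ _).2 ?_
    rw [rh_apply]
    rcases Finset.mem_insert.1 h1 with rfl | h1
    · simpa using m2
    · simp only [mul_div_assoc]
      rw [On.rd_mul P (o _ h1) r2]
      exact mul_mem (Algebra.subset_adjoin (Or.inl ⟨g₁, h1, rfl⟩)) m2)
  obtain ⟨a, z, rfl⟩ := le ha
  have z' := (Subalgebra.mem_comap _ _ _).1 z
  rw [rh_apply] at z'
  exact .of_mem z'

variable {Φ : Fin (c + 1) → K} {a : Fin (c + 1) → ℕ}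

omit [Algebra ℂ K] in
theorem mem_tau (i : Fin (c + 1)) : Φ i ^ a i ∈ tau Φ a := by
  classical
  unfold tau
  simp only [Finset.mem_image, Finset.mem_univ, true_and]
  exact ⟨i, rfl⟩

omit [Algebra ℂ K] in
theorem of_tau (h : f ∈ tau Φ a) : ∃ i, Φ i ^ a i = f := by
  unfold tau at h
  simpa only [Finset.mem_image, Finset.mem_univ, true_and] using h

theorem phi_mem (h : Ci N T u ρ Φ E) (i : Fin (c + 1)) : Φ i ∈ T :=
  let ⟨s, e, _⟩ := h.mem i
  e ▸ s.2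

theorem tau_ne (h : Ci N T u ρ Φ E) (i : Fin (c + 1)) : Φ i ^ a i ≠ 0 := pow_ne_zero _ (h.ne i)

theorem exists_j (h : Ci N T u ρ Φ E) (P : Pl K) : ∃ j, On.Ch (mx (tau Φ a)) (Φ j ^ a j) P := by
  obtain ⟨f, hf, k⟩ := exists_ch (s := tau Φ a) ⟨_, mem_tau 0, tau_ne h 0⟩ P
  obtain ⟨j, rfl⟩ := of_tau hf
  exact ⟨j, k⟩

theorem big (h : Ci N T u ρ Φ E) : Big (inf u) := by
  classical
  refine (big_mx_iff h.ff).2 fun f => IntermediateField.isAlgebraic_adjoin_iff.2 ?_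
  exact Al.trans (h.alg f) fun b hb => .of_mem (Algebra.subset_adjoin
    ⟨b, by simp [show b ∈ u from hb], 1, by simp, (div_one b).symm⟩)

theorem tru_of (h : Ci N T u ρ Φ E) (k : CLe (inf u + mx w) E P) : Tru T E P := by
  have hK : FF K (N + c + 1) := h.ff
  have s1 := (Kl.inf_smp u).add (smp_mx w)
  have d : Dsc (inf u + mx w) (inf u) := Dsc.self_add (Kl.inf_smp u) (smp_mx w)
  have oE : inf u E = 0 := Kl.inf_zero.2 fun b hb => (h.tru ⟨b, h.sub b hb⟩).1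
  have oP : inf u P = 0 :=
    ((Kl.inf_nn u P).eq_or_lt.resolve_right fun z => (k.pos d (Kl.inf_nn u) z).ne' oE).symm
  have mP := h.ov P (Kl.inf_zero.1 oP)
  refine fun s => ⟨mP s s.2, fun z => (On.rd_zero_iff E (h.tru s).1).2 ?_⟩
  refine ((On.rd_zero_iff P (mP s s.2)).1 z).imp_right fun z => ?_
  obtain ⟨t, -, ht⟩ := Kl.harto hK ((big h).add_smp (smp_mx w)) (Dsc.dv s1 (s : K)) d
    fun R o _ => (Int.cast_nonneg_iff (R := ℝ)).2 (Pl.ord_nonneg_of_mem _ (h.ov R o s s.2))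
  have := k.pos ((Dsc.dv s1 (s : K)).add (d.smul t)) (ht t le_rfl) (by
    simpa [oP, dv_apply] using z)
  simpa [oE, dv_apply] using this

theorem mx_le (h : Ci N T u ρ Φ E) (k : ∀ s ∈ T, s ∈ P.ring) : mx (tau Φ a) P ≤ 0 := by
  obtain ⟨j, e⟩ := exists_j (a := a) h P
  have : (0 : ℝ) ≤ P.ord (Φ j ^ a j) :=
    (Int.cast_nonneg_iff (R := ℝ)).2 (Pl.ord_nonneg_of_mem _ (k _ (pow_mem (phi_mem h j) _)))
  linarith [e.eq]

theorem exists_exc (h : Ci N T u ρ Φ E) (ha : ∀ i, 0 < a i) :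
    ∃ P, On (N + c) (inf u + mx (tau Φ a)) P ∧ CLe (inf u + mx (tau Φ a)) E P ∧
      mx (tau Φ a) P < 0 := by
  have hK : FF K (N + c + 1) := h.ff
  have s1 := (Kl.inf_smp u).add (smp_mx (tau Φ a))
  have b1 := (big h).add_smp (smp_mx (tau Φ a))
  have d : Dsc (inf u + mx (tau Φ a)) (inf u) := Dsc.self_add (Kl.inf_smp u) (smp_mx _)
  have d' : Dsc (inf u + mx (tau Φ a)) (-mx (tau Φ a)) :=
    (Dsc.add_self (Kl.inf_smp u) (smp_mx _)).neg
  obtain ⟨t, -, ht⟩ := Kl.harto hK b1 d' d fun R o _ => neg_nonneg.2 (mx_le h (h.ov R o))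
  have oE : inf u E = 0 := Kl.inf_zero.2 fun b hb => (h.tru ⟨b, h.sub b hb⟩).1
  obtain ⟨j, e⟩ := exists_j (a := a) h E
  have p : 0 < E.ord (Φ j) :=
    ((On.rd_zero_iff E (h.tru ⟨_, phi_mem h j⟩).1).1 (h.van j)).resolve_left (h.ne j)
  have p' : (0 : ℝ) < E.ord (Φ j ^ a j) := by
    rw [Pl.ord_pow]
    have := ha j
    positivity
  obtain ⟨P, p1, p2, p3⟩ := (Pr.pos_iff res' (.of Ba.mod) hK s1 b1 (d'.add (d.smul t)) (ht t le_rfl)
    (Q := E)).1 (by
      simp only [Pi.add_apply, Pi.neg_apply, Pi.smul_apply, oE, smul_zero, add_zero]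
      linarith [e.eq])
  refine ⟨P, p1, p3, ?_⟩
  have oP : inf u P = 0 := Kl.inf_zero.2 fun b hb => (tru_of h p3 ⟨b, h.sub b hb⟩).1
  simpa [oP] using p2

theorem aux (h : Ci N T u ρ Φ E) {y : Fin N → L} (hy : AlgebraicIndependent ℂ y)
    (hP : On (N + c) (inf u + mx (tau Φ a)) P) (k : Tru T E P) (v : ∀ i, P.rd (Φ i) = 0)
    {j : Fin (c + 1)} (e : On.Ch (mx (tau Φ a)) (Φ j ^ a j) P) :
    ∃ ι : L →ₐ[ℂ] P.κ, (∀ s : T, ι (ρ s) = P.rd s) ∧ AlgebraicIndependent ℂ (Sum.elim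
      (fun i => P.rd (Φ (j.succAbove i) ^ a (j.succAbove i) / Φ j ^ a j)) fun j => ι (y j)) := by
  have hK : FF K (N + c + 1) := h.ff
  have mP : ∀ s ∈ T, s ∈ P.ring := fun s hs => (k ⟨s, hs⟩).1
  obtain ⟨ι, i1, i2⟩ := count h.ff' (Gm.ff_κ P hK) ρ (rh P T mP) h.fr
    (fun s z => (rh_apply P mP s).trans (h.rad P k v s z))
    (r := fun i => P.rd (Φ (j.succAbove i) ^ a (j.succAbove i) / Φ j ^ a j)) (fun b => by
      refine (al_on hK hP (fun s hs => mP s (h.sub s hs)) (mem_tau j) e b).trans ?_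
      rintro _ (⟨s, hs, rfl⟩ | ⟨g, hg, rfl⟩)
      · exact .of_mem (Algebra.subset_adjoin (Or.inl ⟨⟨s, h.sub s hs⟩, rh_apply P mP _⟩))
      obtain ⟨i, rfl⟩ := of_tau hg
      by_cases z : i = j
      · subst z
        simp only [div_self e.ne, On.rd_one]
        exact .of_mem (one_mem _)
      · obtain ⟨i, rfl⟩ := Fin.exists_succAbove_eq z
        exact .of_mem (Algebra.subset_adjoin (Or.inr ⟨i, rfl⟩))) hy
  exact ⟨ι, fun s => (i1 s).trans (rh_apply P mP s), i2⟩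

end Re

open Re

theorem ree : REE := by
  intro n N c K L _ _ _ _ T u ρ Φ E a y h hn ha hy
  subst hn
  have hK : FF K (N + c + 1) := h.ff
  refine ⟨big h, fun P => tru_of h, exists_exc h ha, fun P hP k => ?_⟩
  have mP : ∀ s ∈ T, s ∈ P.ring := fun s hs => (k ⟨s, hs⟩).1
  have mt : ∀ i, Φ i ^ a i ∈ T := fun i => pow_mem (phi_mem h i) _
  obtain ⟨j, e⟩ := exists_j (a := a) h P
  have rg : ∀ {j}, On.Ch (mx (tau Φ a)) (Φ j ^ a j) P → ∀ i, Φ i ^ a i / Φ j ^ a j ∈ P.ring :=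
    fun e i => e.mem _ (Bf_le e.ne (mem_Bf (mem_tau i)))
  rcases (mx_le (a := a) h mP).eq_or_lt with z | z
  · refine Or.inl ⟨z, mP, fun b => ?_⟩
    refine (al_on hK hP (fun s hs => mP s (h.sub s hs)) (mem_tau j) e b).trans ?_
    rintro _ (⟨s, hs, rfl⟩ | ⟨g, hg, rfl⟩)
    · exact .of_mem (Algebra.subset_adjoin ⟨s, h.sub s hs, rfl⟩)
    obtain ⟨i, rfl⟩ := of_tau hg
    have o : P.ord (Φ j ^ a j) = 0 := by
      have := e.eq
      rw [z, add_zero] at this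
      exact_mod_cast this
    have := (Pl.ord_eq_zero_iff _ e.ne).1 o
    simp only
    rw [rd_div P (mP _ (mt i)) this.1 this.2]
    exact .of_fld (div_mem (mem_img P (S := T) (mt i)) (mem_img P (S := T) (mt j)))
  have o : 0 < P.ord (Φ j ^ a j) := by
    have : (0 : ℝ) < P.ord (Φ j ^ a j) := by linarith [e.eq]
    exact_mod_cast this
  have p : ∀ i, 0 < P.ord (Φ i) := fun i => by
    have h1 := Pl.ord_nonneg_of_mem _ (rg e i)
    rw [Pl.ord_div _ (tau_ne h i) e.ne] at h1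
    have h2 : 0 < P.ord (Φ i ^ a i) := by omega
    rw [Pl.ord_pow] at h2
    exact pos_of_mul_pos_right h2 (by positivity)
  have v : ∀ i, P.rd (Φ i) = 0 := fun i =>
    (On.rd_zero_iff P (mP _ (phi_mem h i))).2 (Or.inr (p i))
  have e0 : On.Ch (mx (tau Φ a)) (Φ 0 ^ a 0) P := by
    by_cases j0 : 0 = j
    · rwa [j0]
    obtain ⟨i, hi⟩ := Fin.exists_succAbove_eq j0
    obtain ⟨ι, -, i2⟩ := aux h hy hP k v e
    have h1 : P.rd (Φ 0 ^ a 0 / Φ j ^ a j) ≠ 0 := hi ▸ i2.ne_zero (.inl i)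
    rw [Ne, On.rd_zero_iff P (rg e 0), not_or, Pl.ord_div _ (tau_ne h 0) e.ne] at h1
    have h2 := Pl.ord_nonneg_of_mem _ (rg e 0)
    rw [Pl.ord_div _ (tau_ne h 0) e.ne] at h2
    have h3 : P.ord (Φ 0 ^ a 0) = P.ord (Φ j ^ a j) := by omega
    exact ⟨tau_ne h 0, sec_of_mem (mem_tau 0), by rw [h3]; exact e.eq⟩
  obtain ⟨ι, i1, i2⟩ := aux h hy hP k v e0
  exact Or.inr ⟨z, ι, fun s => mP s s.2, i1, p 0, fun i => rg e0 i.succ, i2⟩

end Vale.Agent.P283R.H
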