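import Vale.Agent.P283R.H.Res1
import Vale.Agent.P283R.H.St

/-!
# P283R, block H: the row RES
-/

open Set
open Vale.Agent.P285N.Brep (jac Fr)
open Vale.Agent.P297Z

noncomputable section

namespace Vale.Agent.P283R.H

open Vale.Agent.P287D Dr13 Re

variable {F F' : Type} [Field F] [Algebra ℂ F] [Field F'] [Algebra ℂ F'] {S : Subalgebra ℂ F}
  {S' : Subalgebra ℂ F'} {π : S' →ₐ[ℂ] S} {p : Ideal S} {N c : ℕ} {f : Fin c → S'}
  {z : Fin (c + N) → F'} {D' : Fin (c + N) → Derivation ℂ F' F'}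

theorem Up.lc (h : Up N π p f z D') : Lc π (p.comap π) f D' := by
  have := h.pri
  have hp : (p.comap π).IsPrime := inferInstance
  refine ⟨h.aff, h.sur, h.ker, fun s e => by rw [Ideal.mem_comap, e]; simp, fun s e => ?_,
    fun l s => h.pre l _ (coe_mem hp s)⟩
  obtain ⟨t, ht, k⟩ := h.gen s e
  obtain ⟨b, hb⟩ := Ideal.mem_span_range_iff_exists_fun.1 k
  refine ⟨fun i => b i / t, fun i => ⟨_, _, ht, rfl⟩, ?_⟩
  have := congrArg (fun x : S' => (x : F')) hb
  simp only [AddSubmonoidClass.coe_finsetSum, MulMemClass.coe_mul] at this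
  simp only [div_mul_eq_mul_div, ← Finset.sum_div, this]
  rw [mul_div_cancel_left₀ _ (ne_of hp ht)]

/-- the residue in terms of the restriction of functions -/
theorem rs_iff {y : Fin N → F} {j : F} (h : Up N π p f z D') : Rs π rfl D' f y j ↔
    ∃ (u : Fin N → S') (D : Fin N → Derivation ℂ F F), Fr (fun i => rh π (u i)) D ∧
      j = jac D y * rh π (jac D' (Fin.append (fun i => (f i : F')) fun i => u i)) := by
  have hI := ker_prime π
  refine exists_congr fun u => exists_congr fun D => ?_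
  simp only [rh_coe, Fin.cast_eq_self, coe_append]
  refine ⟨fun ⟨a, b, h1, h2, h3, h4⟩ => ⟨h1, by rw [h3, rh_div _ h2, h4, mul_div_assoc]⟩,
    fun ⟨h1, h2⟩ => ?_⟩
  obtain ⟨⟨_, a, b, hb, rfl⟩, k, -⟩ := om_dA (B := loc hI)
    (fun l _ => der_lo hI h.lc.ker (h.lc.der l))
    (Fin.append (fun i => ⟨f i, coe_mem hI _⟩) fun i => ⟨u i, coe_mem hI _⟩)
  rw [coe_append] at k
  exact ⟨a, b, h1, hb, k.symm, by rw [h2, ← k, rh_div _ hb, mul_div_assoc]⟩

theorem res : RES := by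
  intro F F' _ _ _ _ S S' π p N c M f z D' h y ⟨D₀, hy⟩
  obtain rfl := h.dim
  have hI := ker_prime π
  have := h.pri
  have hp : (p.comap π).IsPrime := inferInstance
  have : Algebra.IsAlgebraic (Algebra.adjoin ℂ (S : Set F)) F := ⟨fun x => by
    obtain ⟨s, t, rfl⟩ := h.aff.fr x
    have m : ∀ s : S, (s : F) ∈ IntermediateField.adjoin ℂ (S : Set F) :=
      fun s => IntermediateField.subset_adjoin _ _ s.2
    exact IntermediateField.isAlgebraic_adjoin_iff.1
      (isAlgebraic_algebraMap (⟨_, div_mem (m s) (m t)⟩ : IntermediateField.adjoin ℂ (S : Set F)))⟩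
  obtain ⟨t, ht, b⟩ := exists_isTranscendenceBasis_subset (R := ℂ) (S : Set F)
  obtain ⟨e⟩ := Cardinal.mk_eq_nat_iff.1 (b.cardinalMk_eq_trdeg.trans h.aff.ff.trdeg)
  choose u hu using fun i => h.sur ⟨e.symm i, ht (e.symm i).2⟩
  have hi : AlgebraicIndependent ℂ fun i => rh π (u i) := by
    simp only [rh_coe, hu]
    exact b.1.comp _ e.symm.injective
  obtain ⟨D, hD⟩ := Cb.fr_of h.aff.ff hi
  have j0 := Cb.jac_ne hy hD
  have zm : ∀ l, z l ∈ Lo S' (p.comap π) := fun l => coe_mem hp ⟨_, h.mem l⟩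
  have n := h.lc.ne h.fr zm (fun i => coe_mem hI (u i)) hi
  refine ⟨_, mul_ne_zero j0 n, (rs_iff h).2 ⟨u, D, hD, rfl⟩, fun R hR => ?_⟩
  rw [Cb.kap_chg hD j0, Pi.add_apply, (h.lc.kap h.fr zm le_rfl hR (fun i => coe_mem hI (u i)) hi).2,
    Pl.ord_mul _ j0 n, add_comm]
  push_cast
  rfl

end Vale.Agent.P283R.H
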