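import Vale.Agent.P287D.Api.All

/-!
# P283R, block H: a place of the prime divisor `S` with the centre of a given place `E`
-/

open Set
open Vale.Agent.P297Z Vale.Agent.P287D Vale.Agent.P287D.On

noncomputable section

namespace Vale.Agent.P283R.H

variable {K : Type} [Field K] [Algebra ℂ K] {n : ℕ} {Λ G : BD K} {S E : Pl K} {s : Finset K}
  {f : K}

/-- a place of `S` with the centre of `E` on a finitely generated ring -/
theorem qz_ring (hK : FF K (n + 1)) {A : Subalgebra ℂ K} (hA : A.FG) (hS : ∀ a ∈ A, a ∈ S.ring)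
    (hE : ∀ a ∈ A, a ∈ E.ring) (h : ∀ a ∈ A, 0 < S.ord a → 0 < E.ord a)
    (h' : ∃ a ∈ A, 0 < E.ord a ∧ ¬ 0 < S.ord a) :
    ∃ Q : Pl S.κ, (∀ a ∈ A, S.rd a ∈ Q.ring) ∧
      ∀ a ∈ A, (S.rd a = 0 ∨ 0 < Q.ord (S.rd a) ↔ a = 0 ∨ 0 < E.ord a) := by
  let ψ := rh S A hS
  have hB : ψ.range.FG := by
    rw [← Algebra.map_top]
    exact ((Subalgebra.fg_top A).2 hA).map ψ
  have su : Function.Surjective ψ.rangeRestrict := ψ.rangeRestrict_surjective
  have kp := RingHom.ker_isPrime (rh E A hE)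
  have kl : RingHom.ker ψ.rangeRestrict ≤ RingHom.ker (rh E A hE) := fun a ha =>
    ker_le hE hS h (congrArg Subtype.val ((RingHom.mem_ker).1 ha))
  have qp := Ideal.map_isPrime_of_surjective (f := ψ.rangeRestrict) su kl
  have mq : ∀ a : A, ψ.rangeRestrict a ∈ (RingHom.ker (rh E A hE)).map ψ.rangeRestrict ↔
      (a : K) = 0 ∨ 0 < E.ord a := fun a => by
    rw [← Ideal.mem_comap, Ideal.comap_map_of_surjective _ su, ← RingHom.ker_eq_comap_bot,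
      sup_eq_left.2 kl, mem_ker]
  have ev : ∀ a : A, (ψ.rangeRestrict a : S.κ) = S.rd a := fun a => rh_apply S hS a
  obtain ⟨b, hb, b1, b2⟩ := h'
  obtain ⟨Q, q1, q2⟩ := ctr (Gm.ff_κ S hK) hB ((RingHom.ker (rh E A hE)).map ψ.rangeRestrict)
    fun z => by
      have := (mq ⟨b, hb⟩).2 (Or.inr b1)
      rw [z, Ideal.mem_bot] at this
      exact ((mem_ker S hS ⟨b, hb⟩).1 (congrArg Subtype.val this)).elim
        (fun w : b = 0 => by simp [w] at b1) b2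
  refine ⟨Q, fun a ha => q1 _ ⟨⟨a, ha⟩, rh_apply S hS ⟨a, ha⟩⟩, fun a ha => ?_⟩
  have := (q2 (ψ.rangeRestrict ⟨a, ha⟩)).symm.trans (mq ⟨a, ha⟩)
  rwa [ev] at this

/-- the member of the section of the chart does not pass through the centre of `Q` -/
theorem res_ch (hK : FF K (n + 1)) (hf : f ∈ s) (c : Ch (mx s) f S) {Q : Pl S.κ}
    (h : ∀ a ∈ Af (mx s) f, S.rd a ∈ Q.ring) : res S (dv f + mx s) Q = 0 := by
  classical
  have e : S.ord f + S.mz s = 0 := by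
    have := c.eq
    rw [mx_apply] at this
    exact_mod_cast this
  have a0 := mul_ne_zero c.ne (zpow_ne_zero (S.mz s) S.t_ne)
  have a1 : S.ord (f * S.t ^ S.mz s) = 0 := by rw [S.ord_mul_t c.ne]; omega
  have a2 := (Pl.ord_eq_zero_iff _ a0).1 a1
  have c' : Ch (mx (S.rs s)) (S.rd (f * S.t ^ S.mz s)) Q :=
    ch_of (Finset.mem_image_of_mem _ hf) (Loq.rd_ne a0 a1) fun g hg => by
      obtain ⟨g, hg', rfl⟩ := Finset.mem_image.1 hg
      rw [← rd_div S (S.mem_ring_mz (Submodule.subset_span hg')) a2.1 a2.2,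
        mul_div_mul_right _ _ (zpow_ne_zero _ S.t_ne)]
      exact h _ (Bf_le c.ne (mem_Bf hg'))
  rw [res_add hK S (dv_mem_Car f) (mx_mem_Car s), res_dv' hK S c.ne e, res_mx hK]
  exact c'.eq

theorem add_pos_iff_pos_or_pos' {a b : ℝ} (ha : 0 ≤ a) (hb : 0 ≤ b) :
    0 < a + b ↔ 0 < a ∨ 0 < b :=
  ⟨fun h => by_contra fun z => by
    rw [not_or, not_lt, not_lt] at z
    linarith [z.1, z.2], fun h => h.elim (fun z => by linarith) fun z => by linarith⟩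

theorem qz_mx (hK : FF K (n + 1)) (hs : Nz s) (h : CLe (mx s) E S) (h' : ¬ CLe (mx s) S E) :
    ∃ Q : Pl S.κ, ∀ G, Rep (mx s) G → G S = 0 → (0 < res S G Q ↔ 0 < G E) := by
  obtain ⟨f, hf, c⟩ := exists_ch hs E
  have c' := c.of_cle h
  obtain ⟨Q, q1, q2⟩ := qz_ring hK (fg_Af hK hf c.ne) c'.mem c.mem (c.pos h) (by
    by_contra z
    exact h' (c'.cle hK (carQ_mx s) c fun b hb w => by_contra fun v => z ⟨b, hb, w, v⟩))
  refine ⟨Q, fun G hG => (rep_ind hK (carQ_mx s)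
    (p := fun _ G => 0 ≤ G ∧ G ∈ Car K ∧ (G S = 0 → (0 < res S G Q ↔ 0 < G E)))
    ⟨le_rfl, zero_mem _, fun _ => by simp [res_zero hK]⟩
    (fun _ G _ G' a b => ⟨add_nonneg a.1 b.1, add_mem a.2.1 b.2.1, fun e => ?_⟩)
    (fun _ G c hc a => ⟨smul_nonneg hc a.1, (Car K).smul_mem c a.2.1, fun e => ?_⟩)
    (fun m w w0 hw => ⟨(hw.rep w0).nonneg,
      add_mem (dv_mem_Car w) ((Car K).smul_mem _ (mx_mem_Car s)), fun e => ?_⟩) hG).2.2⟩
  · obtain ⟨e1, e2⟩ := (add_eq_zero_iff_of_nonneg (a.1 S) (b.1 S)).1 e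
    have r1 : 0 ≤ res S G Q := res_nonneg hK S a.2.1 a.1 e1 Q
    have r2 : 0 ≤ res S G' Q := res_nonneg hK S b.2.1 b.1 e2 Q
    have r3 : 0 ≤ G E := a.1 E
    have r4 : 0 ≤ G' E := b.1 E
    rw [res_add hK S a.2.1 b.2.1, Pi.add_apply, Pi.add_apply, add_pos_iff_pos_or_pos' r1 r2,
      add_pos_iff_pos_or_pos' r3 r4, a.2.2 e1, b.2.2 e2]
  · rcases hc.eq_or_lt with rfl | hc
    · simp [res_zero hK]
    rw [res_smul hK S c a.2.1, Pi.smul_apply, Pi.smul_apply, smul_eq_mul, smul_eq_mul,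
      mul_pos_iff_of_pos_left hc, mul_pos_iff_of_pos_left hc]
    exact a.2.2 ((mul_eq_zero.1 e).resolve_left hc.ne')
  · have b0 := div_ne_zero w0 (pow_ne_zero m c.ne)
    have o : S.ord (w / f ^ m) = 0 := by
      rw [c'.val' w0] at e
      exact_mod_cast e
    have d : dv w + (m : ℝ) • mx s = dv (w / f ^ m) + (m : ℝ) • (dv f + mx s) := by
      rw [dv_div w0 (pow_ne_zero m c.ne), dv_pow, smul_add]
      abel
    have k := q2 _ (div_mem_Af c.ne hw)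
    rw [or_iff_right (Loq.rd_ne b0 o), or_iff_right b0] at k
    rw [c.val' w0, d, res_add_smul hK S (dv_mem_Car _) (add_mem (dv_mem_Car f) (mx_mem_Car s)),
      res_dv_unit hK S b0 o, Pi.add_apply, Pi.smul_apply, res_ch hK hf c' q1, smul_zero, add_zero,
      dv_apply]
    exact_mod_cast k

/-- **(Q0)**: a place `Q` of `S` with the centre of `E` on `V Λ` -/
theorem qz (hK : FF K (n + 1)) (hΛ : Smp Λ) (h : CLe Λ E S) (h' : ¬ CLe Λ S E) :
    ∃ Q : Pl S.κ, ∀ G, 0 ≤ G → Dsc Λ G → G S = 0 → (0 < res S G Q ↔ 0 < G E) := by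
  obtain ⟨s, h1, hs⟩ := hΛ.exists_ampOn
  obtain ⟨Q, q⟩ := qz_mx hK ⟨1, h1, one_ne_zero⟩ (hs.cle_iff.1 h) fun z => h' (hs.cle_iff.2 z)
  have key : ∀ G, 0 ≤ G → Dsc (mx s) G → G S = 0 → ∃ (ε : ℝ) (H : BD K), 0 < ε ∧ 0 ≤ H ∧
      Dsc (mx s) H ∧ H S = 0 ∧ H E = 0 ∧ (0 < ε * res S G Q + res S H Q ↔ 0 < G E) :=
    fun G g0 d gS => by
      obtain ⟨ε, e0, e1⟩ := d.exists_sub
      obtain ⟨H, r, z⟩ := e1.exists_rep (T := {S, E}) (toFinite _)
      have zS := z S (by simp)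
      have zE := z E (by simp)
      have dH : Dsc (mx s) H := ((Dsc.refl d.smp).sub (d.smul ε)).congr r.2
      have r' := r.add ((Rep.refl g0).smul e0.le)
      rw [sub_add_cancel] at r'
      have := q _ r' (by simp [zS, gS])
      rw [res_add_smul hK S dH.car d.car] at this
      simp only [Pi.add_apply, Pi.smul_apply, smul_eq_mul, zE, zero_add,
        mul_pos_iff_of_pos_left e0] at this
      exact ⟨ε, H, e0, r.nonneg, dH, zS, zE, by rwa [add_comm]⟩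
  have zer : ∀ G, 0 ≤ G → Dsc (mx s) G → G S = 0 → G E = 0 → res S G Q = 0 :=
    fun G g0 d gS gE => by
      obtain ⟨ε, H, e0, h0, dH, zS, -, k⟩ := key G g0 d gS
      have r1 : 0 ≤ res S G Q := res_nonneg hK S d.car g0 gS Q
      have r2 : 0 ≤ res S H Q := res_nonneg hK S dH.car h0 zS Q
      refine r1.eq_or_lt.elim Eq.symm fun w => ?_
      exact absurd (k.1 (add_pos_of_pos_of_nonneg (mul_pos e0 w) r2)) gE.not_gt
  refine ⟨Q, fun G g0 d gS => ?_⟩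
  obtain ⟨ε, H, e0, h0, dH, zS, zE, k⟩ := key G g0 (hs.dsc_iff.1 d) gS
  rwa [zer H h0 dH zS zE, add_zero, mul_pos_iff_of_pos_left e0] at k

theorem rep_dsc (hΛ : Smp Λ) (r : Rep Λ G) : Dsc Λ G := (Dsc.refl hΛ).congr r.2

/-- **(Q0)** in the words of the plan -/
theorem qz_cq (hK : FF K (n + 1)) (hΛ : Smp Λ) (h : CLe Λ E S) (h' : ¬ CLe Λ S E) :
    ∃ Q : Pl S.κ, Cq Λ S Q E ∧ (∀ G, Rep Λ G → G S = 0 → G E = 0 → res S G Q = 0) ∧
      ∀ G, 0 ≤ G → Dsc Λ G → G S = 0 → (0 < res S G Q ↔ 0 < G E) := by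
  obtain ⟨Q, q⟩ := qz hK hΛ h h'
  refine ⟨Q, fun G r a b => (q G r.nonneg (rep_dsc hΛ r) a).2 b, fun G r a b => ?_, q⟩
  exact le_antisymm (not_lt.1 fun w => ((q G r.nonneg (rep_dsc hΛ r) a).1 w).ne' b)
    (res_nonneg hK S (r.car hΛ.car) r.nonneg a Q)

/-- **(Q0)** for a prime divisor `S` of `V Λ` -/
theorem qz_on (hK : FF K (n + 1)) (hΛ : Smp Λ) (hb : Big Λ) (hS : On n Λ S) (h : CLe Λ E S)
    (h' : E ≠ S) :
    ∃ Q : Pl S.κ, Cq Λ S Q E ∧ (∀ G, Rep Λ G → G S = 0 → G E = 0 → res S G Q = 0) ∧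
      ∀ G, 0 ≤ G → Dsc Λ G → G S = 0 → (0 < res S G Q ↔ 0 < G E) :=
  qz_cq hK hΛ h fun z => h' ((Loq.sep_of balg Gm.ffs res' n K hK Λ S E hΛ hb hS).2 z)

end Vale.Agent.P283R.H
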