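import Vale.Agent.P283R.H.Ext95
import Vale.Agent.P283R.H.Qz
import Vale.Agent.P283R.H.Ks

/-!
# P283R, block H: inversion of adjunction, precise form for negative discrepancy
-/

open Set

noncomputable section

namespace Vale.Agent.P283R.H

open Vale.Agent.P287D Vale.Agent.P287D.Ae

variable {K : Type} [Field K] [Algebra ℂ K] {n : ℕ} {Λ Λ' β Γ : BD K} {S E : Pl K}

/-- a divisor which is effective near the centre of `E` becomes effective -/
theorem cov_nn (hK : FF K (n + 1)) (hΛ : Smp Λ) (b' : Big Λ') (d : Dsc Λ' Λ) (hβ : Dsc Λ' β)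
    (h : ∀ P, On n Λ' P → CLe Λ E P → 0 ≤ β P) : ∃ G, Cn Λ (gE Λ E) G ∧ 0 ≤ β + G := by
  obtain ⟨G, g1, g2⟩ := cov_fin (E := E) hK hΛ
    (Hd.fin_on neg' hK d.smp b' ((Api.mod.isb n K hK).1 β hβ.car)) fun P => -β P
  refine ⟨G, g1, (neg'.nn n K hK Λ' _ d.smp b' (hβ.add (d.trans g1.dsc)) fun P hP => ?_).1⟩
  have i : 0 ≤ G P := g1.nn P
  rw [Pi.add_apply]
  by_cases u : CLe Λ E P
  · linarith [h P hP u]
  by_cases z : β P = 0
  · linarith
  · linarith [g2 P ⟨hP, z⟩ u]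

theorem lat {x d ρ : ℝ} (h1 : -1 ≤ d) (h0 : d < 0) (hρ : 0 < ρ)
    (h : ∀ k : ℕ, (⌈x + (k - d) * ρ⌉ : ℝ) ≤ k * ρ) : x ≤ d := by
  rcases le_or_gt 1 ρ with a | a
  · have := (Int.le_ceil _).trans (h 0)
    simp only [Nat.cast_zero] at this
    nlinarith
  obtain ⟨k, k1, k2⟩ : ∃ k : ℕ, k * ρ < 1 ∧ 1 ≤ (k + 1) * ρ := by
    have p : 0 < ⌈1 / ρ⌉₊ := Nat.ceil_pos.2 (by positivity)
    obtain ⟨k, hk⟩ := Nat.exists_eq_succ_of_ne_zero p.ne'
    refine ⟨k, (lt_div_iff₀ hρ).1 (Nat.lt_ceil.1 (by omega)), (div_le_iff₀ hρ).1 ?_⟩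
    have := Nat.le_ceil (1 / ρ)
    rw [hk] at this
    exact_mod_cast this
  have i : ((⌈x + (k - d) * ρ⌉ : ℤ) : ℝ) < ((1 : ℤ) : ℝ) := by
    push_cast
    exact (h k).trans_lt k1
  have j : ⌈x + (k - d) * ρ⌉ ≤ 0 := by have := Int.cast_lt.1 i; omega
  have := Int.ceil_le.1 j
  push_cast at this
  nlinarith

/-- the prime of `S` which is cut out by the extracted divisor -/
theorem stp (hK : FF K (n + 2)) (hΛ : Smp Λ) (hb : Big Λ) (hΓ : Dsc Λ Γ) (hS : On (n + 1) Λ S)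
    (hP : dsc (n + 2) Γ S = -1) (hE : E ≠ S) (c : CLe Λ E S) (h1 : -1 ≤ dsc (n + 2) Γ E)
    (h0 : dsc (n + 2) Γ E < 0) {m : ℝ} (b' : Big Λ') (d : Dsc Λ' Λ) (hβ : Dsc Λ' β) (β0 : 0 ≤ β)
    (sm : Smp (m • Λ - β)) (βE : β E = 1) (βS : β S = 0)
    (pr : ∀ P, On (n + 1) Λ' P → CLe Λ E P → P = E ∨ (β P = 0 ∧ dsc (n + 2) Γ P ≤ 0)) :
    ∃ Q, Upq Λ S E Q ∧ Cq Λ S Q E ∧ dsc (n + 1) (adj (n + 1) S Γ) Q ≤ dsc (n + 2) Γ E := by
  have hR := res'
  have hκ := Api.ffs.rsd _ K hK S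
  have s' := d.smp
  have o' := Mm.on_mono hR hK hΛ d hS
  obtain ⟨Q₀, -, -, q₀⟩ := qz_on hK hΛ hb hS c hE
  have p₀ : 0 < res S β Q₀ := by
    obtain ⟨H, r, e1, e2⟩ := exists_rep_res hR hK sm S Q₀
    have r' := r.add (Rep.refl β0)
    rw [sub_add_cancel] at r'
    have := (q₀ _ r'.1 (((Dsc.refl hΛ).smul m).congr r'.2) (by rw [Pi.add_apply, e1, βS, add_zero])).2
      (by rw [Pi.add_apply, βE]; linarith [r.1 E, show (0 : BD K) E = 0 from rfl])
    rwa [hR.add _ K hK S _ (r.car sm.car) _ hβ.car, Pi.add_apply, e2, zero_add] at this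
  obtain ⟨Q, oQ, pQ, cQ⟩ := ((neg'.nn n _ hκ (res S Λ') (res S β) (res_smp hR hK s')
    ((hR.on _ K hK _ S s').1 o') (hR.des _ K hK _ _ S hβ)
    fun P _ => hR.nn _ K hK S β hβ.car β0 βS P).2 Q₀).1 p₀
  have up : ∀ G, 0 ≤ G → Dsc Λ G → G E = 0 → res S G Q = 0 := fun G g0 g1 g2 => by
    have gS : G S = 0 := le_antisymm (not_lt.1 fun p => (c.pos g1 g0 p).ne' g2) (g0 S)
    have nn := hR.nn _ K hK S G g1.car g0 gS
    exact le_antisymm (not_lt.1 fun p => ((q₀ G g0 g1 gS).1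
      (cQ.pos (hR.des _ K hK _ _ S (d.trans g1)) nn p)).ne' g2) (nn Q)
  have upc : ∀ G, Cn Λ (gE Λ E) G → res S G Q = 0 := fun G g =>
    up G g.nn g.dsc (g.zero (CLe.refl _ _))
  refine ⟨Q, fun G r e => up G r.1 (dsc_rep hΛ r) e, fun G r gS gE' => ?_, lat h1 h0 pQ fun k => ?_⟩
  · have dG := d.trans (dsc_rep hΛ r)
    have dd := dG.sub (hβ.smul (G E))
    obtain ⟨G', g1, g2⟩ := cov_nn (E := E) hK hΛ b' d dd fun P a b => by
      rw [Pi.sub_apply, Pi.smul_apply, smul_eq_mul]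
      rcases pr P a b with rfl | ⟨e, -⟩
      · rw [βE, mul_one, sub_self]
      · rw [e, mul_zero, sub_zero]; exact r.1 P
    have := hR.nn _ K hK S _ (add_mem dd.car g1.dsc.car) g2
      (by simp [gS, βS, g1.zero c]) Q
    rw [hR.add _ K hK S _ dd.car _ g1.dsc.car, res_sub hR hK dG.car (hβ.smul _).car,
      hR.smul _ K hK S _ _ hβ.car] at this
    simp only [Pi.add_apply, Pi.sub_apply, Pi.smul_apply, smul_eq_mul, Pi.zero_apply,
      upc G' g1] at this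
    linarith [mul_pos gE' pQ]
  · set t : ℝ := k - dsc (n + 2) Γ E with ht
    have dt := (d.trans hΓ).sub (hβ.smul t)
    have e : ∀ P, dsc (n + 2) (Γ - t • β) P = dsc (n + 2) Γ P + t * β P := fun P => by
      simp only [dsc, Pi.sub_apply, Pi.smul_apply, smul_eq_mul]; ring
    have i := Api.mod.isb _ K hK
    obtain ⟨G, g1, g2⟩ := cov_fin (E := E) hK hΛ ((Hd.fin_on neg' hK s' b' i.2.1).union
      (Hd.fin_on neg' hK s' b' (i.1 _ dt.car))) fun P => ⌈dsc (n + 2) (Γ - t • β) P⌉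
    have := ceil_le adh hK s' b' o' dt (by rw [e, βS, hP]; ring)
      ((hβ.smul k).add (d.trans g1.dsc)) (by simp [βS, g1.zero c]) (fun R a _ => by
        have i1 : 0 ≤ G R := g1.nn R
        have i2 : 0 ≤ (k : ℝ) * β R := mul_nonneg k.cast_nonneg (β0 R)
        rw [Pi.add_apply, Pi.smul_apply, smul_eq_mul]
        by_cases u : CLe Λ E R
        · rcases pr R a u with rfl | ⟨v, w⟩
          · rw [e, βE, ht, mul_one, add_sub_cancel, Int.ceil_natCast]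
            push_cast
            linarith
          · rw [e, v, mul_zero, add_zero]
            linarith [ceil_np w]
        by_cases z : cn K (n + 2) R ≠ 0 ∨ (Γ - t • β) R ≠ 0
        · linarith [g2 R (z.imp (fun z => ⟨a, z⟩) fun z => ⟨a, z⟩) u]
        · rw [not_or, not_not, not_not] at z
          rw [dsc, Pi.sub_apply, z.1, z.2, sub_zero, Int.ceil_zero, Int.cast_zero]
          linarith) oQ
    have a4' := (a4 _ K hK S _ dt.car _ (hβ.smul t).car).1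
    rw [sub_add_cancel, hR.smul _ K hK S _ _ hβ.car] at a4'
    rw [hR.add _ K hK S _ (hβ.smul _).car _ g1.dsc.car, hR.smul _ K hK S _ _ hβ.car, Pi.add_apply,
      upc G g1, add_zero] at this
    refine le_of_eq_of_le (congrArg (fun x : ℝ => (⌈x⌉ : ℝ)) ?_) this
    simp only [dsc, a4', Pi.sub_apply, Pi.add_apply, Pi.smul_apply, smul_eq_mul]
    ring

/-- **ONE** -/
theorem one : ONE := by
  intro n K _ _ hK Λ Γ b S E hΛ hb qΓ hΓ qb db hS hP hE c bS hB hk h0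
  have pl : ∀ R, R ≠ S → CLe Λ E R → -1 < dsc (n + 2) Γ R := fun R a u =>
    l5 hK hΛ hb gE_rep hΓ (fun R o t => (hB R (th_gE.1 t) o).1) (th_gE.2 c) hP
      (fun Q h => hk Q fun G r e => h G ⟨r, e⟩) a (th_gE.2 (CLe.refl _ _)) u c
  obtain ⟨G, g1, g2⟩ := cov_nn (E := E) hK hΛ hb (Dsc.refl hΛ) db fun P o u => (hB P u o).2.1
  have b0 : ∀ R, CLe Λ E R → 0 ≤ b R := fun R u => by simpa [g1.zero u] using g2 R
  have bE := b0 E (CLe.refl _ _)
  obtain ⟨η, η0, η1⟩ := exists_rat_btwn (lt_min (inv_pos.2 bS)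
    (div_pos (neg_pos.2 h0) (show 0 < b E + 1 by linarith)))
  have η2 := (η1.trans_le (min_le_left _ _)).le
  have η3 := (lt_div_iff₀ (show 0 < b E + 1 by linarith)).1 (η1.trans_le (min_le_right _ _))
  have e : ∀ P, dsc (n + 2) (Γ - (η : ℝ) • b) P = dsc (n + 2) Γ P + η * b P := fun P => by
    simp only [dsc, Pi.sub_apply, Pi.smul_apply, smul_eq_mul]; ring
  obtain ⟨Λ', β, m, -, a2, a3, a4', a5, a6, a7, a8, a9⟩ := extr hK hΛ hb (hΓ.sub (db.smul η))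
    (qΓ.sub (qb.qsmul η)).rat hS (fun o => hE (Api.sep _ K hK Λ E S hΛ hb o c).symm)
    (fun R u => by
      rw [e]
      by_cases v : R = S
      · rw [v, hP]; linarith [mul_pos η0 bS]
      · linarith [pl R v u, mul_nonneg η0.le (b0 R u)])
    (fun R u o => by
      rw [e]
      by_cases v : R = S
      · rw [v, hP]
        linarith [(le_inv_comm₀ η0 bS).1 η2, mul_le_mul_of_nonneg_right η2 bS.le,
          inv_mul_cancel₀ bS.ne']
      · obtain ⟨i1, i2, i3⟩ := hB R u o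
        rw [le_antisymm (not_lt.1 fun p => (pl R v u).ne' (i3 p)) i2, mul_zero, add_zero]
        exact i1)
    (by rw [e]; nlinarith)
  exact stp hK hΛ hb hΓ hS hP hE c (pl E hE (CLe.refl _ _)).le h0 a2 a3 a4' a5 a6 a7 (a8 S hS c)
    fun P o u => (a9 P o u).imp id fun z => ⟨z.1, by
      linarith [z.2, e P, mul_nonneg η0.le (b0 P u)]⟩

end Vale.Agent.P283R.H
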