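import Vale.Agent.P283R.H.Ks

/-!
# P283R, block H: the places of a prime divisor through the centre of a given place
-/

open Set
open Vale.Agent.P297Z

noncomputable section

namespace Vale.Agent.P283R.H

open Vale.Agent.P287D Vale.Agent.P283M Vale.Agent.P283M.Kl

variable {K : Type} [Field K] [Algebra ℂ K] {n : ℕ}

/-- a function which is regular over the affine part has a bounded pole at infinity -/
theorem upq_eps (hK : FF K (n + 1)) {u : Finset K} {s : K}
    (h : ∀ P, Ov u P → s ∈ P.ring) : ∃ ε : ℝ, 0 < ε ∧ 0 ≤ ε • dv s + inf u := by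
  obtain ⟨v, -, hv⟩ := exists_big hK
  have hΛ : Smp (mx v + inf u) := Gs.smp_add (smp_mx v) (inf_smp u)
  obtain ⟨c, c0, k⟩ := harto (Λ := mx v + inf u) (β := dv s) (u := u) hK
    (Gs.big_add hv (inf_smp u).eff) (Gs.dsc_prn hΛ (dv_mem_Prn s))
    ⟨1, one_pos, by simpa using Gs.smp_add hΛ (inf_smp u), by simpa using smp_mx v⟩
    fun P o _ => by
      rw [dv_apply]
      exact_mod_cast Pl.ord_nonneg_of_mem _ (h P o)
  refine ⟨(c + 1)⁻¹, by positivity, fun P => ?_⟩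
  have := mul_nonneg (inv_nonneg.2 (by positivity : (0 : ℝ) ≤ c + 1)) (k (c + 1) (by linarith) P)
  simp only [Pi.add_apply, Pi.smul_apply, smul_eq_mul, Pi.zero_apply] at this ⊢
  rwa [mul_add, inv_mul_cancel_left₀ (by positivity)] at this

/-- the member of `|inf u + mx w|` defined by a function `s` -/
theorem upq_mem (hK : FF K (n + 1)) {u : Finset K} (w : Finset K) {E P : Pl K} {Q : Pl P.κ}
    (oE : Ov u E) (oP : Ov u P) (hQ : Upq (inf u + mx w) P E Q) {s : K} (s0 : s ≠ 0)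
    (h : ∀ P, Ov u P → s ∈ P.ring) (sP : P.ord s = 0) :
    ∃ (ε : ℝ) (G : BD K), 0 < ε ∧ Rep (inf u + mx w) G ∧ G P = 0 ∧ G E = ε * E.ord s ∧
      res P G Q = ε * Q.ord (P.rd s) := by
  obtain ⟨H, r, z⟩ := (smp_mx w).exists_rep (T := {P, E}) (toFinite _)
  obtain ⟨ε, e0, e1⟩ := upq_eps hK h
  have cH := r.car (mx_mem_Car w)
  have cI := (inf_smp u).car
  have r0 : Rep (inf u + mx w) (inf u + H) :=
    ⟨add_nonneg (inf_nn u) r.1, by rw [add_sub_add_left_eq_sub]; exact r.2⟩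
  have q0 := hQ _ r0 (by rw [Pi.add_apply, inf_zero.2 oE, z E (by simp), add_zero])
  refine ⟨ε, ε • dv s + (inf u + H), e0, ⟨by rw [← add_assoc]; exact add_nonneg e1 r.1, ?_⟩, ?_, ?_,
    ?_⟩
  · rw [add_sub_assoc]
    exact add_mem (Submodule.smul_mem _ _ (dv_mem_Prn s)) r0.2
  · simp [inf_zero.2 oP, z P (by simp), dv_apply, sP]
  · simp [inf_zero.2 oE, z E (by simp), dv_apply]
  · rw [res_add hK P (Submodule.smul_mem _ _ (dv_mem_Car s)) (add_mem cI cH),
      res_smul hK P _ (dv_mem_Car s), res_dv_unit hK P s0 sP, Pi.add_apply, q0, add_zero,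
      Pi.smul_apply, dv_apply, smul_eq_mul]

theorem upq : UPQ := by
  intro N c K L _ _ _ _ T u ρ Φ E w P Q h hP
  obtain ⟨n, hn⟩ : ∃ n, N + c = n + 1 := by
    cases e : N + c with
    | zero => exact (Bm.no_pl (e ▸ h.ff) E).elim
    | succ n => exact ⟨n, rfl⟩
  have hK : FF K (n + 1) := hn ▸ h.ff
  have oE : Ov u E := fun a ha => (h.tru ⟨a, h.sub a ha⟩).1
  have oP : Ov u P := fun a ha => (hP ⟨a, h.sub a ha⟩).1
  have un : Upq (inf u + mx w) P E Q → ∀ s : T, E.rd s ≠ 0 →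
      P.rd s ≠ 0 ∧ Q.ord (P.rd s) = 0 := fun hQ s hs => by
    have p0 : P.rd s ≠ 0 := fun e => hs ((hP s).2 e)
    obtain ⟨s0, sP⟩ := Pg.ord_of_rd P p0
    obtain ⟨ε, G, e0, r, -, a, b⟩ := upq_mem hK w oE oP hQ s0 (fun R o => h.ov R o s s.2) sP
    rw [hQ G r (by rw [a, (Pg.ord_of_rd E hs).2]; simp)] at b
    exact ⟨p0, by exact_mod_cast (mul_eq_zero.1 b.symm).resolve_left e0.ne'⟩
  refine ⟨fun hQ s => ⟨?_, fun e => by_contra fun hs => ?_⟩, fun hQ hC s hs => ?_⟩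
  · by_cases hs : E.rd s = 0
    · obtain ⟨a, b⟩ := un hQ (s + 1) (by
        rw [Subalgebra.coe_add, Subalgebra.coe_one, Bm.rd_add E (h.tru s).1 (one_mem _), hs,
          Bm.rd_one, zero_add]
        exact one_ne_zero)
      have := (Pl.ord_nonneg_iff _ a).1 b.ge
      rw [Subalgebra.coe_add, Subalgebra.coe_one, Bm.rd_add P (hP s).1 (one_mem _),
        Bm.rd_one] at this
      simpa using sub_mem this (one_mem _)
    · exact (Pl.ord_nonneg_iff _ (un hQ s hs).1).1 (un hQ s hs).2.ge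
  · exact Pg.rd_ne Q (un hQ s hs).1 (un hQ s hs).2 e
  · by_cases p0 : P.rd s = 0
    · rw [p0, Pg.rd_zero]
    obtain ⟨s0, sP⟩ := Pg.ord_of_rd P p0
    obtain ⟨ε, G, e0, r, g0, a, b⟩ := upq_mem hK w oE oP hQ s0 (fun R o => h.ov R o s s.2) sP
    have p := ((Bm.rd_zero_iff E (h.tru s).1).1 hs).resolve_left s0
    have := hC G r g0 (by rw [a]; exact mul_pos e0 (by exact_mod_cast p))
    rw [b, mul_pos_iff_of_pos_left e0] at this
    have q : 0 < Q.ord (P.rd s) := by exact_mod_cast this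
    exact (Bm.rd_zero_iff Q ((Pl.ord_nonneg_iff _ p0).1 q.le)).2 (Or.inr q)

end Vale.Agent.P283R.H
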