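import Mathlib

/-!
# Prime ideals of height `c` with `c` generators

All the ideals generated by some of the generators are locally prime.
-/

open Ideal Set

namespace Vale.Agent.P283R.H

universe u

/-- avoidance of the minimal primes in a coset -/
theorem coset_avoid {A : Type*} [CommRing A] [IsNoetherianRing A] (a : A) (J : Ideal A)
    (h : ∀ q ∈ minimalPrimes A, ¬ span {a} ⊔ J ≤ q) :
    ∃ y ∈ J, ∀ q ∈ minimalPrimes A, a + y ∉ q := by
  classical
  have hf := minimalPrimes.finite_of_isNoetherianRing A
  set M := hf.toFinset with hM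
  have hm : ∀ q, q ∈ M ↔ q ∈ minimalPrimes A := fun q => hf.mem_toFinset
  have hp : ∀ q ∈ minimalPrimes A, q.IsPrime := fun q hq => hq.1.1
  set K := J ⊓ (M.filter fun q => a ∉ q).inf id with hK
  have : ¬ (K : Set A) ⊆ ⋃ q ∈ ((M.filter fun q => a ∈ q : Finset (Ideal A)) : Set (Ideal A)),
      (id q : Ideal A) := by
    intro h0
    obtain ⟨q, hq, hle⟩ := (Ideal.subset_union_prime (f := id) (⊤ : Ideal A) ⊤
      fun q hq _ _ => hp q ((hm q).1 (Finset.mem_filter.1 hq).1)).1 h0
    obtain ⟨hq1, hq2⟩ := Finset.mem_filter.1 hq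
    have hqm := (hm q).1 hq1
    have hq3 := hp q hqm
    rcases hq3.inf_le.1 hle with h1 | h1
    · exact h q hqm (sup_le ((span_singleton_le_iff_mem _).2 hq2) h1)
    · obtain ⟨r, hr, hrq⟩ := hq3.inf_le'.1 h1
      obtain ⟨hr1, hr2⟩ := Finset.mem_filter.1 hr
      exact hr2 (hqm.2 ⟨hp r ((hm r).1 hr1), bot_le⟩ hrq hq2)
  obtain ⟨y, hy, hy'⟩ := Set.not_subset.1 this
  refine ⟨y, hy.1, fun q hq hay => ?_⟩
  by_cases ha : a ∈ q
  · exact hy' (mem_biUnion (x := q) (by simpa using ⟨(hm q).2 hq, ha⟩)
      (by simpa using (q.add_mem_iff_right ha).1 hay))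
  · have : y ∈ q := (Finset.inf_le (f := id) (s := M.filter fun q => a ∉ q)
      (Finset.mem_filter.2 ⟨(hm q).2 hq, ha⟩) :) hy.2
    exact ha ((q.add_mem_iff_left this).1 hay)

/-- a local ring with a principal prime which is not minimal is a domain -/
theorem dom_of_span {A : Type*} [CommRing A] [IsNoetherianRing A] [IsLocalRing A] {x : A}
    (hx : (span {x}).IsPrime) (h : ∀ q ∈ minimalPrimes A, x ∉ q) : IsDomain A := by
  obtain ⟨q, hq, hle⟩ := Ideal.exists_minimalPrimes_le (I := ⊥) (J := span {x}) bot_le
  have hp : q.IsPrime := hq.1.1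
  have : q = ⊥ := by
    refine Submodule.eq_bot_of_le_smul_of_le_jacobson_bot (span {x}) q
      (IsNoetherian.noetherian _) (fun a ha => ?_) ?_
    · obtain ⟨b, rfl⟩ := mem_span_singleton'.1 (hle ha)
      rw [mul_comm]
      exact Submodule.smul_mem_smul (mem_span_singleton_self x)
        ((hp.mem_or_mem ha).resolve_right (h q hq))
    · rw [IsLocalRing.jacobson_eq_maximalIdeal ⊥ bot_ne_top]
      exact IsLocalRing.le_maximalIdeal hx.ne_top
  subst this
  exact IsDomain.of_bot_isPrime A

theorem dom_of_height (n : ℕ) : ∀ (A : Type u) [CommRing A] [IsNoetherianRing A] [IsLocalRing A]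
    (s : Set A), s.encard ≤ n → (span s).IsPrime → (n : ℕ∞) ≤ (span s).height → IsDomain A := by
  induction n with
  | zero =>
    intro A _ _ _ s hs hp _
    have : s = ∅ := by simpa using hs
    subst this
    rw [span_empty] at hp
    exact IsDomain.of_bot_isPrime A
  | succ n ih =>
    intro A _ _ _ s hs hp hh
    rcases s.eq_empty_or_nonempty with rfl | ⟨a, ha⟩
    · rw [span_empty] at hp
      exact IsDomain.of_bot_isPrime A
    have h1 : span s = span {a} ⊔ span (s \ {a}) := by
      rw [← span_union, union_sdiff_cancel (singleton_subset_iff.2 ha)]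
    obtain ⟨y, hy, hy'⟩ := coset_avoid a (span (s \ {a})) fun q hq hle => by
      have h0 : q.IsPrime := hq.1.1
      have := (hh.trans (height_mono (h1.le.trans hle))).trans (height_eq_zero_iff.2 hq).le
      simp at this
    have hx : a + y ∈ span s := add_mem (subset_span ha) (span_mono sdiff_subset hy)
    have hle : span {a + y} ≤ span s := (span_singleton_le_iff_mem _).2 hx
    have h2 : (span s).map (Ideal.Quotient.mk (span {a + y})) =
        span (Ideal.Quotient.mk (span {a + y}) '' (s \ {a})) := by
      rw [← map_span]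
      refine le_antisymm ?_ (map_mono (span_mono sdiff_subset))
      rw [h1, Ideal.map_sup, map_span, image_singleton]
      refine sup_le ((span_singleton_le_iff_mem _).2 ?_) le_rfl
      have : Ideal.Quotient.mk (span {a + y}) a = -Ideal.Quotient.mk (span {a + y}) y := by
        rw [eq_neg_iff_add_eq_zero, ← map_add]
        exact Quotient.eq_zero_iff_mem.2 (mem_span_singleton_self _)
      rw [this]
      exact neg_mem (mem_map_of_mem _ hy)
    have hnt : Nontrivial (A ⧸ span {a + y}) :=
      Quotient.nontrivial_iff.2 fun h => hp.ne_top (top_le_iff.1 (h ▸ hle))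
    have : IsLocalRing (A ⧸ span {a + y}) := .of_surjective' _ Ideal.Quotient.mk_surjective
    have := ih (A ⧸ span {a + y}) (Ideal.Quotient.mk _ '' (s \ {a})) ?_
      (h2 ▸ isPrime_map_quotientMk_of_isPrime hle) ?_
    · exact dom_of_span ((Quotient.isDomain_iff_prime _).1 this) hy'
    · refine (encard_image_le _ _).trans ?_
      rw [← encard_sdiff_singleton_add_one ha] at hs
      exact (ENat.add_le_add_iff_right ENat.one_ne_top).1 (by exact_mod_cast hs)
    · have := hh.trans (height_le_height_add_one_of_mem (p := span s) hx)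
      rw [h2] at this
      exact (ENat.add_le_add_iff_right ENat.one_ne_top).1 (by exact_mod_cast this)

variable {A : Type*} [CommRing A] [IsNoetherianRing A] {ι : Type*} [Fintype ι]

omit [Fintype ι] in
theorem height_le_card (f : ι → A) (T : Finset ι) (h : span (f '' T) ≠ ⊤) :
    (span (f '' T)).height ≤ T.card :=
  (height_le_spanFinrank _ h).trans ((Submodule.spanFinrank_span_le_encard _).trans
    ((encard_image_le _ _).trans (by simp)))

section loc

variable [IsLocalRing A] {f : ι → A}

theorem prime_loc (hp : (span (range f)).IsPrime)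
    (hh : (Fintype.card ι : ℕ∞) ≤ (span (range f)).height) (T : Finset ι) :
    (span (f '' T)).IsPrime := by
  classical
  have hle : span (f '' T) ≤ span (range f) := span_mono (image_subset_range _ _)
  have hnt : Nontrivial (A ⧸ span (f '' T)) :=
    Quotient.nontrivial_iff.2 fun h => hp.ne_top (top_le_iff.1 (h ▸ hle))
  have : IsLocalRing (A ⧸ span (f '' T)) := .of_surjective' _ Ideal.Quotient.mk_surjective
  have h2 : (span (range f)).map (Ideal.Quotient.mk (span (f '' T))) =
      span (Ideal.Quotient.mk (span (f '' T)) '' (f '' (Tᶜ : Finset ι))) := by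
    rw [← map_span]
    refine le_antisymm ?_ (map_mono (span_mono (image_subset_range _ _)))
    rw [map_le_iff_le_comap, span_le]
    rintro _ ⟨i, rfl⟩
    by_cases hi : i ∈ T
    · have : Ideal.Quotient.mk (span (f '' T)) (f i) = 0 :=
        Quotient.eq_zero_iff_mem.2 (subset_span ⟨i, hi, rfl⟩)
      exact mem_comap.2 (this ▸ zero_mem _)
    · exact mem_map_of_mem _ (subset_span ⟨i, by simpa using hi, rfl⟩)
  refine (Quotient.isDomain_iff_prime _).1 (dom_of_height Tᶜ.card _
    (Ideal.Quotient.mk (span (f '' T)) '' (f '' (Tᶜ : Finset ι))) ?_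
    (h2 ▸ isPrime_map_quotientMk_of_isPrime hle) ?_)
  · exact (encard_image_le _ _).trans ((encard_image_le _ _).trans
      (encard_coe_eq_coe_finsetCard _).le)
  · have h3 := hh.trans (height_le_height_add_encard_of_subset (f '' T) (p := span (range f))
      fun a ha => hle (subset_span ha))
    have h4 : (f '' T).encard ≤ T.card := (encard_image_le _ _).trans (by simp)
    rw [h2, ← Finset.card_compl_add_card T, Nat.cast_add] at h3
    exact (ENat.add_le_add_iff_right (ENat.natCast_ne_top _)).1 (h3.trans (by gcongr))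

omit [IsLocalRing A] in
theorem mem_loc (hp : (span (range f)).IsPrime)
    (hh : (Fintype.card ι : ℕ∞) ≤ (span (range f)).height) {T : Finset ι} {i : ι}
    (h : f i ∈ span (f '' T)) : i ∈ T := by
  classical
  by_contra hi
  have h1 : span (range f) = span (f '' (({i} : Finset ι)ᶜ : Finset ι)) := by
    refine le_antisymm (span_le.2 ?_) (span_mono (image_subset_range _ _))
    rintro _ ⟨j, rfl⟩
    by_cases hj : j = i
    · subst hj
      exact span_mono (image_mono fun a ha => by
        simpa using fun h : a = j => hi (h ▸ ha)) h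
    · exact subset_span ⟨j, by simpa using hj, rfl⟩
  have h2 := hh.trans (h1 ▸ height_le_card f _ (h1 ▸ hp.ne_top))
  have h3 := Finset.card_compl_add_card ({i} : Finset ι)
  rw [Finset.card_singleton] at h3
  have : Fintype.card ι ≤ (({i} : Finset ι)ᶜ).card := by exact_mod_cast h2
  omega

theorem height_loc (hp : (span (range f)).IsPrime)
    (hh : (Fintype.card ι : ℕ∞) ≤ (span (range f)).height) (T : Finset ι) :
    (span (f '' T)).height = T.card := by
  classical
  refine le_antisymm (height_le_card f T (prime_loc hp hh T).ne_top) ?_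
  induction T using Finset.induction_on with
  | empty => simp
  | insert i T hi ih =>
    have := prime_loc hp hh T
    have := prime_loc hp hh (insert i T)
    rw [Finset.card_insert_of_notMem hi, Nat.cast_add, Nat.cast_one]
    refine le_trans (by gcongr) (height_add_one_le_of_lt_of_isPrime
      (I := span (f '' T)) (lt_of_le_of_ne (span_mono (image_mono (by simp))) fun h => hi ?_))
    exact mem_loc hp hh (h ▸ subset_span ⟨i, by simp, rfl⟩)

end loc

/-- the elements which lie in `J` near `p` -/
def sat (p : Ideal A) [p.IsPrime] (J : Ideal A) : Ideal A :=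
  (J.map (algebraMap A (Localization.AtPrime p))).comap (algebraMap A _)

omit [IsNoetherianRing A] in
theorem mem_sat {p : Ideal A} [p.IsPrime] {J : Ideal A} {a : A} :
    a ∈ sat p J ↔ ∃ s ∉ p, s * a ∈ J := by
  rw [sat, mem_comap, IsLocalization.algebraMap_mem_map_algebraMap_iff p.primeCompl]
  exact Iff.rfl

omit [IsNoetherianRing A] in
theorem le_sat (p : Ideal A) [p.IsPrime] (J : Ideal A) : J ≤ sat p J := le_comap_map

omit [IsNoetherianRing A] in
theorem sat_le {p : Ideal A} [p.IsPrime] {J r : Ideal A} (hr : r.IsPrime) (h : r ≤ p)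
    (hJ : J ≤ r) : sat p J ≤ r := fun _ ha => by
  obtain ⟨s, hs, h1⟩ := mem_sat.1 ha
  exact (hr.mem_or_mem (hJ h1)).resolve_left fun h2 => hs (h h2)

omit [IsNoetherianRing A] in
theorem sat_mono (p : Ideal A) [p.IsPrime] {J K : Ideal A} (h : J ≤ K) : sat p J ≤ sat p K :=
  comap_mono (map_mono h)

/-- **the ideal of some of the generators is prime near every point** -/
theorem pri {f : ι → A} (hp : (span (range f)).IsPrime)
    (hh : (Fintype.card ι : ℕ∞) ≤ (span (range f)).height) (p : Ideal A) [p.IsPrime]
    (hle : span (range f) ≤ p) (T : Finset ι) :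
    (sat p (span (f '' T))).IsPrime ∧ (sat p (span (f '' T))).height = T.card ∧
      (∀ i, f i ∈ sat p (span (f '' T)) ↔ i ∈ T) ∧ sat p (span (f '' T)) ≤ span (range f) := by
  set B := Localization.AtPrime p
  have hd : Disjoint (p.primeCompl : Set A) (span (range f)) :=
    Set.disjoint_left.2 fun a ha h => ha (hle h)
  have e1 : ∀ s : Set ι, (span (f '' s)).map (algebraMap A B) =
      span ((algebraMap A B ∘ f) '' s) := fun s => by rw [map_span, image_comp]
  have e2 : (span (range f)).map (algebraMap A B) = span (range (algebraMap A B ∘ f)) := by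
    rw [map_span, range_comp]
  have hp' : (span (range (algebraMap A B ∘ f))).IsPrime :=
    e2 ▸ IsLocalization.isPrime_of_isPrime_disjoint p.primeCompl B _ hp hd
  have hh' : (Fintype.card ι : ℕ∞) ≤ (span (range (algebraMap A B ∘ f))).height := by
    rw [← e2, IsLocalization.height_map_of_disjoint p.primeCompl _ hd]
    exact hh
  have h1 := prime_loc hp' hh' T
  refine ⟨?_, ?_, fun i => ⟨fun h => mem_loc hp' hh' (e1 T ▸ h), fun h =>
    le_sat _ _ (subset_span ⟨i, h, rfl⟩)⟩, sat_le hp hle (span_mono (image_subset_range _ _))⟩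
  · rw [sat, e1]
    exact comap_isPrime _ _
  · rw [sat, e1, ← height_loc hp' hh' T]
    exact IsLocalization.height_under p.primeCompl _

/-- a prime of the right height through the point which contains the generators -/
theorem eq_sat {f : ι → A} (hp : (span (range f)).IsPrime)
    (hh : (Fintype.card ι : ℕ∞) ≤ (span (range f)).height) (p : Ideal A) [p.IsPrime]
    (hle : span (range f) ≤ p) (T : Finset ι) {r : Ideal A} (hr : r.IsPrime) (hrp : r ≤ p)
    (hT : ∀ i ∈ T, f i ∈ r) (h : r.height ≤ T.card) : sat p (span (f '' T)) = r := by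
  obtain ⟨h1, h2, -⟩ := pri hp hh p hle T
  refine Ideal.eq_of_le_of_height_le _ (sat_le hr hrp (span_le.2 ?_)) (h.trans h2.ge)
  rintro _ ⟨i, hi, rfl⟩
  exact hT i hi

omit [IsNoetherianRing A] in
theorem sat_self {p I : Ideal A} [p.IsPrime] (hI : I.IsPrime) (h : I ≤ p) : sat p I = I :=
  le_antisymm (sat_le hI h le_rfl) (le_sat _ _)

omit [IsNoetherianRing A] in
theorem mem_sat_sup {p J : Ideal A} [p.IsPrime] {t a : A} (h : a ∈ sat p (span {t} ⊔ J)) :
    ∃ s ∉ p, ∃ b, s * a - b * t ∈ J := by
  obtain ⟨s, hs, h1⟩ := mem_sat.1 h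
  obtain ⟨_, h2, z, hz, h3⟩ := Submodule.mem_sup.1 h1
  obtain ⟨b, rfl⟩ := mem_span_singleton'.1 h2
  exact ⟨s, hs, b, by rw [← h3]; simpa using hz⟩

/-- modulo the prime `sat p J`, near `p`, an element is a power of `t` times an element outside
`sat p (t, J)` -/
theorem exists_pow {p J : Ideal A} [p.IsPrime] {t : A} (hJ : (sat p J).IsPrime)
    (htp : t ∈ p) (a : A) (ha : a ∉ sat p J) :
    ∃ (n : ℕ) (s u : A), s ∉ p ∧ u ∉ sat p (span {t} ⊔ J) ∧ s * a - u * t ^ n ∈ J := by
  have hp : p.IsPrime := inferInstance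
  by_contra hc
  push Not at hc
  have key : ∀ n : ℕ, ∃ s ∉ p, ∃ u, s * a - u * t ^ n ∈ J := fun n => by
    induction n with
    | zero => exact ⟨1, fun h => hp.ne_top ((eq_top_iff_one _).2 h), a, by simp⟩
    | succ n ih =>
      obtain ⟨s, hs, u, hu⟩ := ih
      have : u ∈ sat p (span {t} ⊔ J) := by
        by_contra h
        exact hc n s u hs h hu
      obtain ⟨s', hs', b, hb⟩ := mem_sat_sup this
      refine ⟨s' * s, fun h => (hp.mem_or_mem h).elim hs' hs, b, ?_⟩
      have : s' * s * a - b * t ^ (n + 1) =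
        s' * (s * a - u * t ^ n) + t ^ n * (s' * u - b * t) := by ring
      rw [this]
      exact add_mem (J.mul_mem_left _ hu) (J.mul_mem_left _ hb)
  set B := Localization.AtPrime p
  set K := J.map (algebraMap A B)
  have hK : K ≠ ⊤ := fun h => hJ.ne_top ((congrArg (comap (algebraMap A B)) h).trans comap_top)
  have : Nontrivial (B ⧸ K) := Quotient.nontrivial_iff.2 hK
  have : IsLocalRing (B ⧸ K) := .of_surjective' _ Ideal.Quotient.mk_surjective
  set g : A →+* B ⧸ K := (Ideal.Quotient.mk K).comp (algebraMap A B) with hg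
  have hu : ∀ s ∉ p, IsUnit (g s) := fun s hs =>
    (IsLocalization.map_units B (⟨s, hs⟩ : p.primeCompl)).map (Ideal.Quotient.mk K)
  have ht : span {g t} ≠ ⊤ := fun h => by
    obtain ⟨v, hv⟩ := (span_singleton_eq_top.1 h).exists_left_inv
    obtain ⟨v, rfl⟩ := Ideal.Quotient.mk_surjective v
    have h1 : v * algebraMap A B t - 1 ∈ K := by
      rw [← Ideal.Quotient.eq_zero_iff_mem, map_sub, map_mul, map_one, sub_eq_zero]
      exact hv
    have h2 : K ≤ IsLocalRing.maximalIdeal B := IsLocalRing.le_maximalIdeal hK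
    have h3 : algebraMap A B t ∈ IsLocalRing.maximalIdeal B :=
      (IsLocalization.AtPrime.to_map_mem_maximal_iff B p t).2 htp
    have := sub_mem (mul_mem_left _ v h3) (h2 h1)
    simp only [sub_sub_cancel] at this
    exact (IsLocalRing.maximalIdeal.isMaximal B).ne_top ((eq_top_iff_one _).2 this)
  have h0 : g a ∈ ⨅ n : ℕ, span {g t} ^ n := by
    refine (Submodule.mem_iInf _).2 fun n => ?_
    obtain ⟨s, hs, u, h⟩ := key n
    have h1 : g (s * a - u * t ^ n) = 0 :=
      Ideal.Quotient.eq_zero_iff_mem.2 (mem_map_of_mem _ h)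
    rw [map_sub, map_mul, map_mul, map_pow, sub_eq_zero] at h1
    rw [span_singleton_pow, ← unit_mul_mem_iff_mem _ (hu s hs), h1]
    exact mul_mem_left _ _ (mem_span_singleton_self _)
  rw [iInf_pow_eq_bot_of_isLocalRing _ ht, mem_bot] at h0
  exact ha (mem_comap.2 (Ideal.Quotient.eq_zero_iff_mem.1 h0))

end Vale.Agent.P283R.H
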