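import Vale.Agent.P283R.H.Res0
import Vale.Agent.P283R.Tp.Der
import Vale.Agent.P283R.Tp.A0r

/-!
# P283R, block H: the residue of a form along a complete intersection
-/

open Set
open Vale.Agent.P285N.Brep (jac Fr)
open Vale.Agent.P297Z

noncomputable section

namespace Vale.Agent.P283R.H.Re

open Vale.Agent.P287D Dr13

variable {F F' : Type} [Field F] [Algebra ℂ F] [Field F'] [Algebra ℂ F'] {S : Subalgebra ℂ F}
  {S' : Subalgebra ℂ F'} {π : S' →ₐ[ℂ] S} {q p' : Ideal S'} {M N c : ℕ}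

open Classical in
/-- the restriction of rational functions to the subvariety -/
def rh (π : S' →ₐ[ℂ] S) (a : F') : F :=
  if h : ∃ x : S' × S', π x.2 ≠ 0 ∧ a = x.1 / x.2 then π h.choose.1 / π h.choose.2 else 0

theorem rh_div (s : S') {t : S'} (ht : π t ≠ 0) : rh π (s / t) = π s / π t := by
  have h : ∃ x : S' × S', π x.2 ≠ 0 ∧ (s / t : F') = x.1 / x.2 := ⟨(s, t), ht, rfl⟩
  have n : ∀ {t : S'}, π t ≠ 0 → (t : F') ≠ 0 ∧ (π t : F) ≠ 0 := fun {t} ht =>
    ⟨fun e => ht (by rw [show t = 0 from Subtype.ext e, map_zero]), fun e => ht (Subtype.ext e)⟩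
  obtain ⟨h1, h2⟩ := h.choose_spec
  rw [rh, dif_pos h, div_eq_div_iff (n h1).2 (n ht).2]
  rw [div_eq_div_iff (n ht).1 (n h1).1] at h2
  have e : s * h.choose.2 = h.choose.1 * t := Subtype.ext h2
  have := congrArg (fun x => (π x : F)) e
  simpa using this.symm

theorem rh_coe (s : S') : rh π s = π s := by simpa using rh_div (π := π) s (t := 1) (by simp)

/-- the restriction on a local ring -/
def rho (hq : q.IsPrime) (hk : ∀ s, π s = 0 → s ∈ q) : loc hq →+* F where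
  toFun a := rh π a
  map_one' := by simpa using rh_coe (π := π) 1
  map_zero' := by simpa using rh_coe (π := π) 0
  map_mul' := by
    rintro ⟨_, s, t, ht, rfl⟩ ⟨_, s', t', ht', rfl⟩
    have := rh_div (π := π) (s * s') (mt (hk _) (mul_not hq ht ht'))
    simp only [map_mul, MulMemClass.coe_mul, ← div_mul_div_comm] at this
    simp only [MulMemClass.coe_mul, this, rh_div _ (mt (hk _) ht), rh_div _ (mt (hk _) ht')]
  map_add' := by
    rintro ⟨_, s, t, ht, rfl⟩ ⟨_, s', t', ht', rfl⟩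
    have := rh_div (π := π) (s * t' + t * s') (mt (hk _) (mul_not hq ht ht'))
    have n : ∀ {t : S'}, t ∉ q → (π t : F) ≠ 0 := fun ht e => ht (hk _ (Subtype.ext e))
    simp only [map_mul, map_add, MulMemClass.coe_mul, AddMemClass.coe_add,
      ← div_add_div _ _ (ne_of hq ht) (ne_of hq ht'), ← div_add_div _ _ (n ht) (n ht')] at this
    simp only [AddMemClass.coe_add, this, rh_div _ (mt (hk _) ht), rh_div _ (mt (hk _) ht')]

theorem rho_apply (hq : q.IsPrime) (hk : ∀ s, π s = 0 → s ∈ q) (a : loc hq) :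
    rho hq hk a = rh π a := rfl

theorem rho_con (hq : q.IsPrime) (hk : ∀ s, π s = 0 → s ∈ q) (c : ℂ) :
    rho hq hk (algebraMap ℂ _ c) = algebraMap ℂ F c := by
  have := rh_coe (π := π) (algebraMap ℂ S' c)
  rw [AlgHom.commutes] at this
  exact this

/-- the restriction of derivations to a subalgebra -/
def dA {B : Subalgebra ℂ F'} {D : Fin M → Derivation ℂ F' F'} (h : ∀ l, ∀ a ∈ B, D l a ∈ B)
    (l : Fin M) (a : B) : B := ⟨D l a, h l a a.2⟩

theorem da_dA {B : Subalgebra ℂ F'} {D : Fin M → Derivation ℂ F' F'}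
    (h : ∀ l, ∀ a ∈ B, D l a ∈ B) (l : Fin M) : Da (RingHom.id B) (dA h l) :=
  ⟨fun x y => Subtype.ext (map_add (D l) x.1 y.1), fun x y => Subtype.ext ((D l).leibniz x.1 y.1),
    fun c => Subtype.ext ((D l).map_algebraMap c)⟩

theorem om_dA {B : Subalgebra ℂ F'} {D : Fin M → Derivation ℂ F' F'}
    (h : ∀ l, ∀ a ∈ B, D l a ∈ B) (w : Fin M → B) : ∃ J : B, (J : F') = jac D (fun m => w m) ∧
      ∀ (E : Type) [Field E] (ψ : B →+* E), om (fun l a => ψ (dA h l a)) w = ψ J :=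
  ⟨(Matrix.of fun l m => dA h l (w m)).det, RingHom.map_det B.val.toRingHom _,
    fun _ _ ψ => (RingHom.map_det ψ _).symm⟩

theorem coe_append {B : Subalgebra ℂ F'} (w : Fin N → B) (f : Fin c → B) :
    (fun m => ((Fin.append w f m : B) : F')) = Fin.append (fun i => (w i : F')) fun i => f i :=
  funext fun m => Fin.addCases (fun m => by simp) (fun m => by simp) m

/-- near `p'` the functions `f` generate the ideal of the subvariety and the derivations `D` are
regular -/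
structure Lc (π : S' →ₐ[ℂ] S) (p' : Ideal S') (f : Fin c → S')
    (D : Fin (c + N) → Derivation ℂ F' F') : Prop where
  aff : Aff N S
  sur : Function.Surjective π
  van : ∀ i, π (f i) = 0
  ker : ∀ s, π s = 0 → s ∈ p'
  gen : ∀ s, π s = 0 → ∃ b : Fin c → F', (∀ i, b i ∈ Lo S' p') ∧ (s : F') = ∑ i, b i * f i
  der : ∀ l, ∀ s : S', D l s ∈ Lo S' p'

variable {f : Fin c → S'} {D' : Fin (c + N) → Derivation ℂ F' F'}

theorem Lc.span (h : Lc π p' f D') (hq : q.IsPrime) (hk : ∀ s, π s = 0 → s ∈ q) (le : q ≤ p')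
    (a : loc hq) (ha : rho hq hk a = 0) :
    a ∈ Ideal.span (range fun i => (⟨f i, coe_mem hq _⟩ : loc hq)) := by
  obtain ⟨_, s, t, ht, rfl⟩ := a
  rw [rho_apply, rh_div _ (mt (hk _) ht), div_eq_zero_iff] at ha
  obtain ⟨b, h1, h2⟩ := h.gen s (Subtype.ext (ha.resolve_right fun e => ht (hk _ (Subtype.ext e))))
  refine Ideal.mem_span_range_iff_exists_fun.2
    ⟨fun i => ⟨(t : F')⁻¹ * b i, mul_mem (inv_mem hq ht) (lo_le le (h1 i))⟩, Subtype.ext ?_⟩
  simp [h2, div_eq_inv_mul, Finset.mul_sum, mul_assoc]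

theorem ker_prime (π : S' →ₐ[ℂ] S) : (RingHom.ker π).IsPrime := RingHom.ker_isPrime π

theorem Lc.rho_sur (h : Lc π p' f D') :
    Function.Surjective (rho (ker_prime π) fun _ => id : _ →+* F) := fun x => by
  obtain ⟨s, t, rfl⟩ := h.aff.fr x
  obtain ⟨s, rfl⟩ := h.sur s
  obtain ⟨t, rfl⟩ := h.sur t
  by_cases e : π t = 0
  · exact ⟨0, by simp [e]⟩
  · exact ⟨⟨_, s, t, e, rfl⟩, rh_div s e⟩

theorem Lc.ne (h : Lc π p' f D') {z : Fin (c + N) → F'} (hz : Fr z D') (zm : ∀ l, z l ∈ Lo S' p')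
    {w : Fin N → F'} (hw : ∀ i, w i ∈ Lo S' (RingHom.ker π))
    (hi : AlgebraicIndependent ℂ fun i => rh π (w i)) :
    rh π (jac D' (Fin.append (fun i => (f i : F')) w)) ≠ 0 := by
  have hI := ker_prime π
  have hk : ∀ s, π s = 0 → s ∈ RingHom.ker π := fun _ => id
  have d : ∀ l, ∀ a ∈ loc hI, D' l a ∈ loc hI := fun l _ => der_lo hI h.ker (h.der l)
  have k := om_ne (ρ := rho hI hk) (fun l => (da_dA d l).map (rho hI hk)) h.rho_sur (rho_con hI hk)
    (z := fun i => ⟨z i, lo_le h.ker (zm _)⟩)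
    (w := Fin.append (fun i => ⟨f i, coe_mem hI _⟩) fun i => ⟨w i, hw i⟩)
    (fun i j => ?_) (fun x hx => Ideal.span_mono ?_ (h.span hI hk h.ker x hx)) fun x => ?_
  · obtain ⟨J, a, b⟩ := om_dA d (Fin.append (fun i => ⟨f i, coe_mem hI _⟩) fun i => ⟨w i, hw i⟩)
    rwa [b, rho_apply, a, coe_append] at k
  · have : dA d i ⟨z j, lo_le h.ker (zm _)⟩ = if i = j then 1 else 0 := Subtype.ext (by
      rw [apply_ite Subtype.val]; exact hz.dual i j)
    simp [this, apply_ite (rho hI hk)]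
  · rintro _ ⟨i, rfl⟩
    exact ⟨⟨Fin.castAdd _ i, by simp⟩, (rh_coe _).trans (congrArg _ (h.van i))⟩
  · refine ((h.aff.ff.basis hi).isAlgebraic.isAlgebraic x).tower_top_of_subalgebra_le
      (Algebra.adjoin_mono ?_)
    rintro _ ⟨i, rfl⟩
    exact ⟨Fin.natAdd c i, by simp [rho_apply]⟩

/-- the chain rule for the residue -/
theorem Lc.chain (h : Lc π p' f D') {u w : Fin N → F'} (hu : ∀ i, u i ∈ Lo S' (RingHom.ker π))
    (hw : ∀ i, w i ∈ Lo S' (RingHom.ker π)) {D : Fin N → Derivation ℂ F F}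
    (hD : Fr (fun i => rh π (u i)) D) :
    rh π (jac D' (Fin.append (fun i => (f i : F')) w)) =
      rh π (jac D' (Fin.append (fun i => (f i : F')) u)) * jac D fun i => rh π (w i) := by
  have hI := ker_prime π
  have hk : ∀ s, π s = 0 → s ∈ RingHom.ker π := fun _ => id
  have d : ∀ l, ∀ a ∈ loc hI, D' l a ∈ loc hI := fun l _ => der_lo hI h.ker (h.der l)
  have := om_chain (ρ := rho hI hk) (fun l => (da_dA d l).map (rho hI hk)) h.rho_sur
    (rho_con hI hk) (f := fun i => ⟨f i, coe_mem hI _⟩)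
    (fun i => (rh_coe _).trans (congrArg _ (h.van i))) (h.span hI hk h.ker)
    (u := fun i => ⟨u i, hu i⟩) hD fun i => ⟨w i, hw i⟩
  obtain ⟨J, a, b⟩ := om_dA d (Fin.append (fun i => ⟨f i, coe_mem hI _⟩) fun i => ⟨w i, hw i⟩)
  obtain ⟨J', a', b'⟩ := om_dA d (Fin.append (fun i => ⟨f i, coe_mem hI _⟩) fun i => ⟨u i, hu i⟩)
  rw [coe_append] at a a'
  rw [b, b', rho_apply, rho_apply, a, a'] at this
  exact this

/-- the residue generates the canonical sheaf at the prime divisors -/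
theorem Lc.kap (h : Lc π p' f D') {z : Fin (c + N) → F'} (hz : Fr z D') (zm : ∀ l, z l ∈ Lo S' p')
    {p : Ideal S} (hp : p.comap π ≤ p') {R : Pl F} (hR : PDat S p R) {w : Fin N → F'}
    (hw : ∀ i, w i ∈ Lo S' (RingHom.ker π)) (hi : AlgebraicIndependent ℂ fun i => rh π (w i)) :
    rh π (jac D' (Fin.append (fun i => (f i : F')) w)) ≠ 0 ∧
      kap (fun i => rh π (w i)) R = R.ord (rh π (jac D' (Fin.append (fun i => (f i : F')) w))) := by
  obtain ⟨q₀, le, ce, lo⟩ := hR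
  obtain ⟨n, rfl⟩ : ∃ n, N = n + 1 := by
    rcases N with _ | n
    · exact (Cb.no_pl h.aff.ff R).elim
    · exact ⟨n, rfl⟩
  have := cen_prime ce
  have hq : (q₀.comap π).IsPrime := inferInstance
  have hk : ∀ s, π s = 0 → s ∈ q₀.comap π := fun s e => by rw [Ideal.mem_comap, e]; simp
  have l : q₀.comap π ≤ p' := (Ideal.comap_mono le).trans hp
  have d : ∀ l, ∀ a ∈ loc hq, D' l a ∈ loc hq := fun j _ => der_lo hq l (h.der j)
  have m : ∀ a, rho hq hk a ∈ R.ring := by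
    rintro ⟨_, s, t, ht, rfl⟩
    exact cen_lo ce ⟨π s, π t, ht, rh_div s (mt (hk _) ht)⟩
  have sur : ∀ x ∈ R.ring, ∃ a, rho hq hk a = x := fun x hx => by
    obtain ⟨s, t, ht, rfl⟩ := lo x hx
    obtain ⟨s, rfl⟩ := h.sur s
    obtain ⟨t, rfl⟩ := h.sur t
    exact ⟨⟨_, s, t, ht, rfl⟩, rh_div s (mt (hk _) ht)⟩
  obtain ⟨v, a⟩ := Cb.exists_ada h.aff.ff R
  obtain ⟨E, hE⟩ := a.ad h.aff.ff
  choose s hs using fun i => sur _ (a.cons_mem i)
  let ψ : loc hq →+* R.κ := (Gm.rdA R).comp ((rho hq hk).codRestrict R.ring m)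
  have e : ∀ x, ψ x = R.rd (rho hq hk x) := fun x => (Cb.rd_of (m x)).symm
  have s0 : rho hq hk (s 0) = R.t := hs 0
  have k := om_ne (ρ := ψ) (fun l => (da_dA d l).map ψ) (fun x => ?_) (fun c => ?_)
    (z := fun i => ⟨z i, lo_le l (zm _)⟩) (w := Fin.append (fun i => ⟨f i, coe_mem hq _⟩) s)
    (fun i j => ?_) (fun x hx => ?_) fun x => ?_
  · obtain ⟨J, j1, j2⟩ := om_dA d (Fin.append (fun i => ⟨f i, coe_mem hq _⟩) s)
    rw [coe_append] at j1
    rw [j2, e, Ne, Cb.rd_eq_zero (m J), Cb.mx_iff, not_or, rho_apply, j1] at k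
    have o := Pl.ord_nonneg_of_mem _ (m J)
    rw [rho_apply, j1] at o
    have fr : Fr (fun i => rh π (s i)) E := (funext hs : (fun i => rh π (s i)) = _) ▸ hE.fr
    have j0 := (Cb.jac_ne_iff fr _).2 hi
    rw [h.chain (fun i => lo_le (fun x => hk x) (s i).2) hw fr, Cb.kap_eq hE,
      Pl.ord_mul _ k.1 j0]
    refine ⟨mul_ne_zero k.1 j0, ?_⟩
    rw [le_antisymm (not_lt.1 k.2) o, zero_add]
  · obtain ⟨y, hy, rfl⟩ := Cb.rd_surj x
    obtain ⟨b, rfl⟩ := sur y hy
    exact ⟨b, e b⟩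
  · rw [e, rho_con, Cb.rd_const]
  · have : dA d i ⟨z j, lo_le l (zm _)⟩ = if i = j then 1 else 0 := Subtype.ext (by
      rw [apply_ite Subtype.val]; exact hz.dual i j)
    simp [this, apply_ite ψ]
  · rw [e, Cb.rd_eq_zero (m x)] at hx
    obtain ⟨b, hb⟩ := sur _ hx
    have y := h.span hq hk l (x - b * s 0) (by
      rw [map_sub, map_mul, hb, s0, div_mul_cancel₀ _ R.t_ne, sub_self])
    rw [← sub_add_cancel x (b * s 0)]
    refine add_mem (Ideal.span_mono ?_ y) (Ideal.mul_mem_left _ _ (Ideal.subset_span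
      ⟨⟨Fin.natAdd c 0, by simp⟩, ?_⟩))
    · rintro _ ⟨i, rfl⟩
      refine ⟨⟨Fin.castAdd _ i, by simp⟩, ?_⟩
      rw [e, rho_apply, rh_coe, h.van]
      simpa using Cb.rd_const (P := R) 0
    · rw [e, s0, Cb.rd_eq_zero (Cb.t_mem R)]
      exact a.mx
  · refine ((a.sp h.aff.ff).2 x).tower_top_of_subalgebra_le (Algebra.adjoin_mono ?_)
    rintro _ ⟨_, ⟨i, rfl⟩, rfl⟩
    exact ⟨Fin.natAdd c i.succ, by simp [e, hs]⟩

end Vale.Agent.P283R.H.Re
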