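import Vale.Agent.P283R.H.Ks
import Vale.Agent.P283R.Tp.Hrt
import Vale.Agent.P283R.Tp.Quo2

/-!
# P283R, block H: the row `TPD`
-/

set_option linter.all false

open Set

noncomputable section

namespace Vale.Agent.P283R.H

open Vale.Agent.P287D Vale.Agent.P297Z

namespace Tpd

variable {F : Type} [Field F] [Algebra ℂ F] {N : ℕ} {S : Subalgebra ℂ F} {P : Pl F}

/-- the height of the centre and the transcendence degree of the residues -/
theorem ht_add (h : Aff N S) (m : ∀ f ∈ S, f ∈ P.ring) :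
    ∃ r : ℕ, Algebra.trdeg ℂ (Bm.rdh P S m).range = r ∧
      (RingHom.ker (Bm.rdh P S m)).height + r = N := by
  have := h.isFrac
  have := h.ft
  have : (RingHom.ker (Bm.rdh P S m)).IsPrime := RingHom.ker_isPrime _
  have a := Dim.height_add_td (k := ℂ) (RingHom.ker (Bm.rdh P S m))
  have b := h.ff.trdeg
  rw [Qw.trd (S := S), Dim.trdeg_eq_td, Nat.cast_inj] at b
  exact ⟨_, (Ideal.quotientKerEquivRange _).trdeg_eq.symm.trans Dim.trdeg_eq_td, b ▸ a⟩

theorem ht_one (h : Aff N S) (s : Cb.Sp P S) :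
    (RingHom.ker (Bm.rdh P S s.1)).height = 1 := by
  obtain ⟨r, a, b⟩ := ht_add h s.1
  have e : Algebra.adjoin ℂ (P.rd '' S) = (Bm.rdh P S s.1).range :=
    le_antisymm (Algebra.adjoin_le fun _ ⟨x, hx, e⟩ => ⟨⟨x, hx⟩, e⟩)
      fun _ ⟨x, e⟩ => Algebra.subset_adjoin ⟨x, x.2, e⟩
  have : Algebra.IsAlgebraic (Bm.rdh P S s.1).range P.κ := ⟨e ▸ s.2⟩
  have k : Algebra.trdeg ℂ P.κ + 1 = Algebra.trdeg ℂ F := P.dvl
  rw [← trdeg_add_eq ℂ (Bm.rdh P S s.1).range (A := P.κ), trdeg_eq_zero (A := P.κ), add_zero, a,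
    h.ff.trdeg] at k
  have k' : r + 1 = N := by exact_mod_cast k
  rw [← k', Nat.cast_add, add_comm (r : ℕ∞)] at b
  exact WithTop.add_right_cancel (ENat.coe_ne_top r) b

end Tpd

/-- **TPD** -/
theorem tpd : TPD := fun N F _ _ S P h n s => by
  have c : Cen S (RingHom.ker (Bm.rdh P S s.1)) P := fun a => ⟨s.1 a.2, Iff.rfl⟩
  obtain ⟨R, -, b⟩ := Hr.exists_pl h n (Hr.cen_prime c) (Tpd.ht_one h s)
  have e : R.ring = P.ring := Pl.ring_eq_of_le
    (fun a ha => Hr.cen_lo c (b a ha)) (Pl.ring_ne_top P.toPlace)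
  exact ⟨_, c, fun a ha => b a (e.ge ha)⟩

end Vale.Agent.P283R.H
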