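import Vale.Agent.P283R.H.Tpd
import Vale.Agent.P283R.H.Ciu
import Vale.Agent.P283R.Tp.Der

/-!
# P283R, block H: the boundary of the pair on the quotient is effective
-/

open Set
open Vale.Agent.P297Z

noncomputable section

namespace Vale.Agent.P283R.H.Bdy

open Vale.Agent.P287D

variable {F F' : Type} [Field F] [Algebra ℂ F] [Field F'] [Algebra ℂ F'] {N c M : ℕ}
  {S : Subalgebra ℂ F} {S' : Subalgebra ℂ F'} {π : S' →ₐ[ℂ] S} {p : Ideal S} {f : Fin c → S'}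
  {z : Fin M → F'} {D' : Fin M → Derivation ℂ F' F'} {R : Pl F'} {q : Ideal S'}

theorem pdat (h : Up N π p f z D') (le : q ≤ p.comap π) (cq : Cen S' q R) (s : Cb.Sp R S') :
    PDat S' (p.comap π) R := by
  have hp := h.pri
  obtain ⟨q', c', lo⟩ := tpd M F' S' R h.aff'
    (ufd M 1 F' S' _ z 1 1 h.aff' h.sm (Ideal.comap_isPrime π p) ⟨D', h.fr⟩).1 s
  exact ⟨q', fun a ha => le ((cq a).2.2 ((c' a).2.1 ha)), c', lo⟩

theorem kap_zero (h : Up N π p f z D') (hR : PDat S' (p.comap π) R) : kap z R = 0 :=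
  have := h.pri
  Dr13.der_kap (Ideal.comap_isPrime π p) h.fr
    (fun l => Dr13.coe_mem (Ideal.comap_isPrime π p) ⟨z l, h.mem l⟩) h.pre R hR

theorem ord_prod {ι : Type} (P : Pl F') (t : Finset ι) {a : ι → F'} (h : ∀ i, a i ≠ 0) :
    P.ord (∏ i ∈ t, a i) = ∑ i ∈ t, P.ord (a i) := by
  classical
  induction t using Finset.induction_on with
  | empty => simp
  | insert i t hi ih =>
    rw [Finset.prod_insert hi, Finset.sum_insert hi,
      Pl.ord_mul _ (h i) (Finset.prod_ne_zero_iff.2 fun j _ => h j), ih]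

/-- the log discrepancy upstairs -/
theorem ld_eq (h : Up N π p f z D') {g : F'} (g0 : g ≠ 0) {Q : ℕ} (hQ : 0 < Q) (P : Pl F') :
    ld z Q ((∏ i, (f i : F')) ^ Q * g) P =
      1 + kap z P - ∑ i, (P.ord (f i) : ℝ) - P.ord g / Q := by
  have f0 : ∀ i, (f i : F') ≠ 0 := fun i e => Ciu.f_ne h i (Subtype.ext e)
  have : (Q : ℝ) ≠ 0 := Nat.cast_ne_zero.2 hQ.ne'
  rw [ld, Pl.ord_mul _ (pow_ne_zero _ (Finset.prod_ne_zero_iff.2 fun i _ => f0 i)) g0, Pl.ord_pow,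
    ord_prod P _ f0]
  push_cast
  field_simp
  ring

/-- at a prime divisor upstairs -/
theorem up (h : Up N π p f z D') (le : q ≤ p.comap π) (cq : Cen S' q R) (s : Cb.Sp R S') {g : S'}
    (g0 : (g : F') ≠ 0) {Q : ℕ} (hQ : 0 < Q) :
    ld z Q ((∏ i, (f i : F')) ^ Q * g) R + ∑ i, (R.ord (f i) : ℝ) ≤ 1 := by
  have : (0 : ℝ) ≤ R.ord g / Q :=
    div_nonneg (Int.cast_nonneg (Pl.ord_nonneg_of_mem _ (cq g).1)) Q.cast_nonneg
  rw [ld_eq h g0 hQ, kap_zero h (pdat h le cq s)]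
  linarith

/-- **the boundary clause of `HK`** with `δ = 1 / m`; `x` is the log discrepancy below -/
theorem bdy (h : Up N π p f z D') (le : q ≤ p.comap π) (cq : Cen S' q R) (s : Cb.Sp R S') {g : S'}
    (g0 : (g : F') ≠ 0) {Q m : ℕ} (hQ : 0 < Q) (hm : 0 < m) {K : Type} [Field K] [Algebra ℂ K]
    (ι : K →ₐ[ℂ] F') {Φ : Fin c → K} (hΦ : ∀ i, ι (Φ i) = (f i : F') ^ m) {P : Pl K} {e : ℤ}
    (e0 : 0 < e) (he : ∀ a, R.ord (ι a) = e * P.ord a) {x : ℝ}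
    (hx : e * x = ld z Q ((∏ i, (f i : F')) ^ Q * g) R) :
    x + (m : ℝ)⁻¹ * ∑ i, (P.ord (Φ i) : ℝ) ≤ 1 := by
  have e1 : (1 : ℝ) ≤ e := by exact_mod_cast e0
  have m0 : (m : ℝ) ≠ 0 := Nat.cast_ne_zero.2 hm.ne'
  have k : ∑ i, (R.ord (f i) : ℝ) = e * ((m : ℝ)⁻¹ * ∑ i, (P.ord (Φ i) : ℝ)) := by
    rw [Finset.mul_sum, Finset.mul_sum]
    refine Finset.sum_congr rfl fun i _ => ?_
    have := he (Φ i)
    rw [hΦ, Pl.ord_pow] at this
    have := congrArg (Int.cast : ℤ → ℝ) this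
    push_cast at this
    field_simp
    linarith
  have := up h le cq s g0 hQ
  rw [← hx, k, ← mul_add] at this
  exact le_of_mul_le_mul_left (this.trans (by linarith)) (one_pos.trans_le e1)

end Vale.Agent.P283R.H.Bdy
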