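import Vale.Agent.P283R.Tp.Sem
import Vale.Agent.P287D.On.Val
import Vale.Agent.P287D.Cb.Hur
import Vale.Agent.P287D.Bm.Pl

/-!
# P283R, block H: tools for the back step
-/

open Set MvPolynomial
open Vale.Agent.P285N.Brep (jac Fr)
open Vale.Agent.P297Z

noncomputable section

namespace Vale.Agent.P283R.H.Bk

open Vale.Agent.P287D Vale.Agent.P287D.Cb

theorem van {c n : ℕ} (J : Set (MvPolynomial (Fin (c + n)) ℂ))
    (h1 : ∀ q ∈ J, ∀ j, pderiv (Fin.castAdd n j) q ∈ J)
    (h2 : ∀ q ∈ J, killCompl (Fin.natAdd_injective n c) q = 0) : ∀ q ∈ J, q = 0 := by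
  have key : ∀ (k : ℕ) (d : Fin (c + n) →₀ ℕ), ∑ j, d (Fin.castAdd n j) = k → ∀ q ∈ J,
      coeff d q = 0 := by
    intro k
    induction k with
    | zero =>
      intro d hd q hq
      have hs : (d.support : Set (Fin (c + n))) ⊆ range (Fin.natAdd c) := fun l hl => by
        revert hl
        refine Fin.addCases (fun j hl => ?_) (fun j _ => ⟨j, rfl⟩) l
        exact absurd (Finset.sum_eq_zero_iff.1 hd j (Finset.mem_univ _))
          (Finsupp.mem_support_iff.1 hl)
      rw [← d.mapDomain_comapDomain _ (Fin.natAdd_injective n c) hs,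
        ← coeff_killCompl (Fin.natAdd_injective n c), h2 q hq, coeff_zero]
    | succ k ih =>
      intro d hd q hq
      obtain ⟨j, -, hj⟩ := Finset.exists_ne_zero_of_sum_ne_zero (hd.trans_ne k.succ_ne_zero)
      obtain ⟨d', rfl⟩ : ∃ d', d = d' + Finsupp.single (Fin.castAdd n j) 1 :=
        ⟨d - Finsupp.single (Fin.castAdd n j) 1, (tsub_add_cancel_of_le
          (Finsupp.single_le_iff.2 (Nat.one_le_iff_ne_zero.2 hj))).symm⟩
      have h3 := ih d' (by
        simp only [Finsupp.add_apply, Finset.sum_add_distrib, Finsupp.single_apply,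
          (Fin.castAdd_injective _ _).eq_iff, Finset.sum_ite_eq, Finset.mem_univ, if_true] at hd
        omega) _ (h1 q hq j)
      rw [coeff_pderiv] at h3
      exact (mul_eq_zero.1 h3).resolve_right (Nat.cast_add_one_ne_zero _)
  exact fun q hq => MvPolynomial.ext _ _ fun d => key _ d rfl q hq

theorem der_aeval {O σ : Type} [CommRing O] [Algebra ℂ O] [DecidableEq σ] {x : σ → O}
    (D : Derivation ℂ O O) (i : σ) (h : ∀ j, D (x j) = if i = j then 1 else 0)
    (p : MvPolynomial σ ℂ) : D (aeval x p) = aeval x (pderiv i p) := by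
  induction p using MvPolynomial.induction_on with
  | C a => simp
  | add p q hp hq => simp [hp, hq]
  | mul_X p j hp =>
    rw [map_mul, D.leibniz, hp, aeval_X, h, Derivation.leibniz, pderiv_X, Pi.single_apply]
    by_cases e : i = j
    · simp [e]
    · simp [e, Ne.symm e]

theorem det_mem {A ι : Type} [CommRing A] [Algebra ℂ A] [Fintype ι] [DecidableEq ι]
    (O : Subalgebra ℂ A) {a : Matrix ι ι A} (h : ∀ i j, a i j ∈ O) : a.det ∈ O := by
  rw [Matrix.det_apply']
  exact sum_mem fun σ _ => mul_mem (intCast_mem O _) (prod_mem fun i _ => h _ _)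

theorem ker_eq {A k₁ k₂ : Type} [CommRing A] [Algebra ℂ A] [Field k₁] [Algebra ℂ k₁] [Field k₂]
    [Algebra ℂ k₂] {n : ℕ} (ψ₁ : A →ₐ[ℂ] k₁) (ψ₂ : A →ₐ[ℂ] k₂)
    (h : ∀ a ∈ RingHom.ker ψ₁, ψ₂ a = 0) {z : Fin n → A}
    (hz : AlgebraicIndependent ℂ fun i => ψ₂ (z i)) (ht : Algebra.trdeg ℂ k₁ = n) {a : A}
    (ha : ψ₂ a = 0) : ψ₁ a = 0 := by
  by_contra a0
  have : (RingHom.ker ψ₁).IsPrime := RingHom.ker_isPrime _
  have h1 := (Bm.drop (Ideal.Quotient.liftₐ _ ψ₂ h) (z := fun i => Ideal.Quotient.mk _ (z i)) hz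
    (b := Ideal.Quotient.mk _ a) (fun e => a0 (Ideal.Quotient.eq_zero_iff_mem.1 e)) ha).map'
    (Ideal.kerLiftAlg_injective ψ₁)
  have h2 := h1.cardinalMk_le_trdeg
  rw [ht, Cardinal.mk_fintype, Fintype.card_option, Fintype.card_fin] at h2
  norm_cast at h2
  omega

variable {F F' : Type} [Field F] [Algebra ℂ F] [Field F'] [Algebra ℂ F']

/-- residues along an algebra map -/
def rdm {A : Type} [CommRing A] [Algebra ℂ A] (P : Pl F) (φ : A →ₐ[ℂ] F)
    (h : ∀ a, φ a ∈ P.ring) : A →ₐ[ℂ] P.κ :=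
  (rdA φ.range (by rintro _ ⟨a, rfl⟩; exact h a)).comp φ.rangeRestrict

theorem rdm_apply {A : Type} [CommRing A] [Algebra ℂ A] (P : Pl F) (φ : A →ₐ[ℂ] F)
    (h : ∀ a, φ a ∈ P.ring) (a : A) : rdm P φ h a = P.rd (φ a) := rfl

/-- Cramer: the dual derivations of a frame preserve a subring -/
theorem pres {m : ℕ} {O : Subalgebra ℂ F'} {y : Fin m → F'} {D E : Fin m → Derivation ℂ F' F'}
    (hE : Fr y E) (hD : ∀ l, ∀ a ∈ O, D l a ∈ O) (hy : ∀ l, y l ∈ O) (h0 : jac D y ≠ 0)
    (hj : (jac D y)⁻¹ ∈ O) (l : Fin m) (a : F') (ha : a ∈ O) : E l a ∈ O := by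
  let A : Matrix (Fin m) (Fin m) F' := Matrix.of fun i j => D i (y j)
  have e : A.mulVec (fun j => E j a) = fun i => D i a := funext fun i =>
    (expand (dr_of (D i)) (D i).map_algebraMap hE a).symm
  have e2 : A.cramer (fun i => D i a) l = jac D y * E l a := by
    rw [← e, Matrix.cramer_eq_adjugate_mulVec, Matrix.mulVec_mulVec, Matrix.adjugate_mul,
      Matrix.smul_mulVec, Matrix.one_mulVec]
    rfl
  rw [← inv_mul_cancel_left₀ h0 (E l a), ← e2, Matrix.cramer_apply]
  refine mul_mem hj (det_mem O fun i j => ?_)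
  rw [Matrix.updateCol_apply]
  split_ifs
  · exact hD i a ha
  · exact hD i _ (hy j)

theorem jac_app {c N : ℕ} {f : Fin c → F'} {u : Fin N → F'} {E : Fin (c + N) → Derivation ℂ F' F'}
    (h : Fr (Fin.append f u) E) (s : Fin N → F') :
    jac E (Fin.append f s) = (Matrix.of fun i m => E (Fin.natAdd c i) (s m)).det := by
  have e : (Matrix.of fun i j => E i (Fin.append f s j)).submatrix finSumFinEquiv finSumFinEquiv =
      Matrix.fromBlocks 1 (Matrix.of fun i m => E (Fin.castAdd N i) (s m)) 0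
        (Matrix.of fun i m => E (Fin.natAdd c i) (s m)) := by
    have d := fun i j => h.dual i (Fin.castAdd N j)
    simp only [Fin.append_left] at d
    ext (i | i) (j | j)
    · simp [d, Matrix.one_apply]
    · simp
    · simp [d, Fin.ext_iff]
      omega
    · simp
  rw [jac, ← Matrix.det_submatrix_equiv_self finSumFinEquiv, e, Matrix.det_fromBlocks_zero₂₁,
    Matrix.det_one, one_mul]

theorem adj_der (δ : Derivation ℂ F' F') {G : Set F'} {C : Subalgebra ℂ F'} (h : G ⊆ C)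
    (h1 : ∀ a ∈ G, δ a ∈ C) {a : F'} (ha : a ∈ Algebra.adjoin ℂ G) : δ a ∈ C := by
  have le : Algebra.adjoin ℂ G ≤ C := Algebra.adjoin_le h
  induction ha using Algebra.adjoin_induction with
  | mem a ha => exact h1 a ha
  | algebraMap c => rw [δ.map_algebraMap]; exact zero_mem _
  | add a b _ _ ha hb => rw [map_add]; exact add_mem ha hb
  | mul a b h1 h2 ha hb =>
    rw [δ.leibniz]
    exact add_mem (mul_mem (le h1) hb) (mul_mem (le h2) ha)

/-- a place with independent residues -/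
theorem exists_pl {m : ℕ} {ι : Type} (hF : FF F' m) {C : Subalgebra ℂ F'} (hC : C.FG) {τ : F'}
    (τ0 : τ ≠ 0) (hτ : τ ∈ C) {y : ι → F'} (hy : ∀ i, y i ∈ C)
    (h : ∀ q : MvPolynomial ι ℂ, aeval y q / τ ∈ C → q = 0) :
    ∃ P : Pl F', (∀ a ∈ C, a ∈ P.ring) ∧ 0 < P.ord τ ∧
      AlgebraicIndependent ℂ fun i => P.rd (y i) := by
  obtain ⟨G, hG⟩ := hC
  let k := IntermediateField.adjoin ℂ (range y)
  have hD : Algebra.adjoin ℂ (range y) ≤ C := Algebra.adjoin_le (range_subset_iff.2 hy)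
  let T : Subalgebra k F' :=
    { On.frc C _ hD with
      algebraMap_mem' := fun a => by
        obtain ⟨r, hr, s, hs, e⟩ := IntermediateField.mem_adjoin_iff_div.1 a.2
        by_cases s0 : s = 0
        · exact ⟨1, one_mem _, one_ne_zero, by
            rw [one_mul, IntermediateField.algebraMap_apply, e, s0, div_zero]; exact zero_mem _⟩
        · exact ⟨s, hs, s0, by
            rw [IntermediateField.algebraMap_apply, e, mul_div_cancel₀ _ s0]; exact hD hr⟩ }
  have h1 : ∀ a ∈ C, a ∈ Algebra.adjoin k (G : Set F') := fun a ha =>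
    (show Algebra.adjoin ℂ (G : Set F') ≤ (Algebra.adjoin k (G : Set F')).restrictScalars ℂ from
      Algebra.adjoin_le Algebra.subset_adjoin) (hG.ge ha)
  have h2 : Algebra.adjoin k (G : Set F') ≤ T := Algebra.adjoin_le fun a ha =>
    ⟨1, one_mem _, one_ne_zero, by rw [one_mul]; exact hG.le (Algebra.subset_adjoin ha)⟩
  obtain ⟨P, h3, h4⟩ := On.div hF (B := Algebra.adjoin k (G : Set F')) ⟨G, rfl⟩ (h1 τ hτ) τ0
    fun e => by
      obtain ⟨a, ha, a0, w⟩ := h2 e
      obtain ⟨q, rfl⟩ := (Algebra.adjoin_range_eq_range_aeval ℂ y).le ha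
      exact a0 (by rw [h q (div_eq_mul_inv _ τ ▸ w)]; exact map_zero _)
  refine ⟨P, fun a ha => h3 a (h1 a ha), h4, algebraicIndependent_iff.2 fun q hq => h q ?_⟩
  have m1 : aeval y q ∈ k := IntermediateField.algebra_adjoin_le_adjoin ℂ _
    ((Algebra.adjoin_range_eq_range_aeval ℂ y).ge ⟨q, rfl⟩)
  have m2 : ∀ a ∈ k, a ∈ P.ring := fun a ha => h3 a (Subalgebra.algebraMap_mem _ (⟨a, ha⟩ : k))
  rw [← rd_aeval fun i => h3 _ (h1 _ (hy i)), rd_eq_zero (m2 _ m1), mx_iff,
    Pl.ord_unit _ (m2 _ m1) (m2 _ (inv_mem m1))] at hq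
  rw [hq.resolve_right (lt_irrefl _), zero_div]
  exact zero_mem _

end Vale.Agent.P283R.H.Bk
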