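import Vale.Agent.P283R.H.St
import Vale.Agent.P283R.Tp.A0r

/-!
# P283R, block H: the assembly
-/

set_option linter.all false

open Set
open Vale.Agent.P285N.Brep (jac Fr)
open Vale.Agent.P297Z

noncomputable section

namespace Vale.Agent.P283R.H

open Vale.Agent.P287D

variable {F F' : Type} [Field F] [Algebra ℂ F] [Field F'] [Algebra ℂ F'] {N c M : ℕ}
  {S : Subalgebra ℂ F} {S' : Subalgebra ℂ F'} {π : S' →ₐ[ℂ] S}

theorem Ovr.one : Ovr π 1 1 := fun a b h => by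
  rw [Subtype.ext (show (a : F') = b from h)]; rfl

theorem Ovr.mul {σ' τ' : F' ≃ₐ[ℂ] F'} {σ τ : F ≃ₐ[ℂ] F} (h : Ovr π σ' σ) (k : Ovr π τ' τ)
    (s : ∀ a ∈ S', τ' a ∈ S') : Ovr π (σ' * τ') (σ * τ) := fun a b e => by
  rw [AlgEquiv.mul_apply, k a ⟨_, s a a.2⟩ rfl]
  exact h _ b e

theorem Ovr.inv {σ' : F' ≃ₐ[ℂ] F'} {σ : F ≃ₐ[ℂ] F} (h : Ovr π σ' σ) : Ovr π σ'⁻¹ σ⁻¹ :=
  fun a b e => by
    have e' : σ' b = a := by rw [← e]; exact σ'.apply_symm_apply _
    rw [← h b a e']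
    exact σ.symm_apply_apply _

theorem Ovr.eig {σ' : F' ≃ₐ[ℂ] F'} {σ : F ≃ₐ[ℂ] F} (h : Ovr π σ' σ) {a : S'} {γ : ℂ}
    (e : σ' a = γ • (a : F')) : σ (π a) = γ • (π a : F) := by
  rw [h a (γ • a) e, map_smul]; rfl

namespace Ac

/-- the group induced by `A'` -/
def img (π : S' →ₐ[ℂ] S) (G : Subgroup (F ≃ₐ[ℂ] F)) (A' : Subgroup (F' ≃ₐ[ℂ] F'))
    (hA : Stab A' S') : Subgroup (F ≃ₐ[ℂ] F) where
  carrier := {σ | σ ∈ G ∧ ∃ σ' ∈ A', Ovr π σ' σ}
  mul_mem' := fun ⟨a, σ', b, c⟩ ⟨a', τ', b', c'⟩ =>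
    ⟨mul_mem a a', _, mul_mem b b', c.mul c' (hA _ b')⟩
  one_mem' := ⟨one_mem _, 1, one_mem _, Ovr.one⟩
  inv_mem' := fun ⟨a, σ', b, c⟩ => ⟨inv_mem a, _, inv_mem b, c.inv⟩

theorem ne_bot (aff : Aff N S) {p : Ideal S} {P : Pl F} (h : Cen S p P) : p ≠ ⊥ := by
  rintro rfl
  obtain ⟨s, t, e⟩ := aff.fr P.t⁻¹
  have t0 : t ∉ (⊥ : Ideal S) := fun k => by
    rw [Ideal.mem_bot.1 k, ZeroMemClass.coe_zero, div_zero] at e
    exact inv_ne_zero P.t_ne e
  have := Pl.ord_nonneg_of_mem P.toPlace (A0r.lo_ring h ⟨s, t, t0, e⟩)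
  rw [Pl.ord_inv, P.ord_t] at this
  omega

theorem idx {J : ℕ} {G : Subgroup (F ≃ₐ[ℂ] F)} {G' A' : Subgroup (F' ≃ₐ[ℂ] F')} {f : Fin c → S'}
    {p : Ideal S} (pr : Finite G) (st : Stab G S) (l : Lci N G S G' S' π f)
    (h : Idx J G' A' S' (p.comap π)) (hA : Stab A' S') :
    Idx J G (img π G A' hA) S p ∧ Cor π p A' (img π G A' hA) := by
  classical
  have inr : ∀ σ ∈ img π G A' hA, Inr S p σ := fun σ ⟨_, σ', h1, h2⟩ a => by
    obtain ⟨a', rfl⟩ := l.sur a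
    obtain ⟨b, hb, e⟩ := h.inr σ' h1 a'
    refine ⟨π b, hb, ?_⟩
    rw [h2 a' (a' + b) (by rw [Subalgebra.coe_add, ← e]; ring), map_add, Subalgebra.coe_add]
    ring
  refine ⟨⟨fun σ h => h.1, inr, ?_⟩, ?_, ?_, hA, fun σ h => st σ h.1, h.inr, inr, fun σ h => h.2,
    fun σ' h' => ?_⟩
  · obtain ⟨T, hT, k⟩ := h.idx
    choose! d d1 d2 using l.down
    refine ⟨T.image d, Finset.card_image_le.trans hT, fun σ hσ i => ?_⟩
    obtain ⟨σ', h1, h2⟩ := l.up σ hσ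
    obtain ⟨τ', h3, h4⟩ := k σ' h1 fun a => by
      obtain ⟨b, hb, e⟩ := i (π a)
      refine ⟨⟨σ' a, l.stab σ' h1 a a.2⟩ - a, ?_, rfl⟩
      rw [Ideal.mem_comap, map_sub]
      have : π ⟨σ' a, l.stab σ' h1 a a.2⟩ - π a = b := Subtype.ext (by
        rw [Subalgebra.coe_sub, ← h2 a _ rfl, e])
      exact this ▸ hb
    have h5 : τ' ∈ G' := by
      have := mul_mem h1 (inv_mem (h.le h4))
      simpa using this
    exact ⟨d τ', Finset.mem_image_of_mem _ h3, mul_mem (inv_mem (d1 _ h5)) hσ, _, h4,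
      Ovr.mul (Ovr.inv (d2 _ h5)) h2 (l.stab σ' h1)⟩
  · have := l.fin
    exact Finite.of_injective _ (Subgroup.inclusion_injective h.le)
  · exact Finite.of_injective _ (Subgroup.inclusion_injective (H := img π G A' hA) (K := G)
      fun σ h => h.1)
  · obtain ⟨σ, h1, h2⟩ := l.down σ' (h.le h')
    exact ⟨σ, ⟨h1, σ', h', h2⟩, h2⟩

theorem f_ne {h : M = c + N} {D' : Fin M → Derivation ℂ F' F'} {f : Fin c → S'} {y : Fin N → F}
    {j : F} (j0 : j ≠ 0) (rs : Rs π h D' f y j) (i : Fin c) : (f i : F') ≠ 0 := fun e => by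
  subst h
  obtain ⟨u, D, a, b, -, b0, e1, e2⟩ := rs
  have a0 : (a : F') ≠ 0 := fun k => j0 (by
    rw [e2, ZeroMemClass.coe_eq_zero.1 k, map_zero, ZeroMemClass.coe_zero, mul_zero, zero_div])
  have b1 : (b : F') ≠ 0 := fun k => b0 (by rw [ZeroMemClass.coe_eq_zero.1 k, map_zero])
  refine div_ne_zero a0 b1 (e1 ▸ Matrix.det_eq_zero_of_column_eq_zero (Fin.castAdd N i) fun l => ?_)
  simp only [Matrix.of_apply, Fin.cast_eq_self, Fin.append_left, e, map_zero]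

theorem core (hrt : HRT) (chr : CHR) (bck : BCK) {k r n Q m : ℕ} {ε : ℝ} (hQ : 0 < Q)
    (hn : 0 < n) (hd : Q ∣ n) {G A : Subgroup (F ≃ₐ[ℂ] F)} {A' : Subgroup (F' ≃ₐ[ℂ] F')}
    {p : Ideal S} {f : Fin c → S'} {x : Fin k → F'} {t : Fin r → S'}
    {D' : Fin (k + r) → Derivation ℂ F' F'}
    (up : Up N π p f (Fin.append x fun i => (t i : F')) D') (par : Par S' (p.comap π) x t)
    (cor : Cor π p A' A) (le : A ≤ G) {y : Fin N → F} {g : F} (pr : Pr N G S y m g)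
    (hx : ∀ j, Eig A' (x j)) (ht : ∀ i, Fix A' (t i : F')) (hf : ∀ i, Eig A' (f i : F'))
    {h' : S'} (eh : Eig A' (h' : F')) (eq : Eqn Q S p y m g (π h')) {j : F} (j0 : j ≠ 0)
    (rs : Rs π up.dim D' f y j) (kj : ∀ R, PDat S p R → kap y R = R.ord j)
    (hy : ∀ q : Ideal S, q ≤ p → Hyp ε G S q y m g)
    (pt : p ≠ ⊥ → (∀ q : Ideal S, q ≤ p → Hyp ε A S q y Q (j ^ Q * π h')) →
      Mon n Q A' S' (p.comap π) x (Fin.append x fun i => (t i : F'))
        ((∏ i, (f i : F')) ^ Q * h')) :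
    Sol n A S p (PDat S p) y m g := by
  classical
  set z : Fin (k + r) → F' := Fin.append x fun i => (t i : F') with hz
  set h : F := ((π h' : S) : F) with hh
  have h0 : h ≠ 0 := eq.2.1
  have h1 : π h' ≠ 0 := fun e => h0 (by rw [hh, e]; rfl)
  have h2 : (h' : F') ≠ 0 := fun e => h1 (by rw [ZeroMemClass.coe_eq_zero.1 e, map_zero])
  have g0 := pr.ne
  have f0 := f_ne j0 rs
  have m0 : (m : ℝ) ≠ 0 := Nat.cast_ne_zero.2 pr.pos.ne'
  have Q0 : (Q : ℝ) ≠ 0 := Nat.cast_ne_zero.2 hQ.ne'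
  have n0 : (0 : ℝ) < n := Nat.cast_pos.2 hn
  have x0 : ∀ i, x i ≠ 0 := fun i e => by
    have := up.fr.dual (Fin.castAdd r i) (Fin.castAdd r i)
    rw [hz, Fin.append_left, e, map_zero, if_pos rfl] at this
    exact zero_ne_one this
  have d0 : j ^ (m * Q) * h ^ m ≠ 0 := mul_ne_zero (pow_ne_zero _ j0) (pow_ne_zero _ h0)
  have ou : ∀ P : Pl F, P.ord (g ^ Q / (j ^ (m * Q) * h ^ m)) =
      Q * P.ord g - (m * Q * P.ord j + m * P.ord h) := fun P => by
    rw [Pl.ord_div _ (pow_ne_zero _ g0) d0, Pl.ord_mul _ (pow_ne_zero _ j0) (pow_ne_zero _ h0),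
      Pl.ord_pow, Pl.ord_pow, Pl.ord_pow]
    push_cast; ring
  have eR : ∀ R, PDat S p R → (R.ord g : ℝ) / m = R.ord j + R.ord h / Q := fun R hR => by
    have := eq.2.2 R hR
    rw [ld, kj R hR] at this
    field_simp
    field_simp at this
    linarith
  have oR : ∀ R, PDat S p R → R.ord (g ^ Q / (j ^ (m * Q) * h ^ m)) = 0 := fun R hR => by
    have := eR R hR
    field_simp at this
    have e : ((Q * R.ord g - (m * Q * R.ord j + m * R.ord h) : ℤ) : ℝ) = 0 := by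
      push_cast; linarith
    rw [ou]; exact_mod_cast e
  have H := (hrt _ F S pr.aff pr.nor).2.2.1 p up.pri
  have eP : ∀ q : Ideal S, q ≤ p → ∀ P, Cen S q P →
      (P.ord g : ℝ) / m = P.ord j + P.ord h / Q := fun q hq P hP => by
    have lo : ∀ a ∈ Lo S p, a ∈ P.ring := fun a ⟨s, t, ht, e⟩ =>
      A0r.lo_ring hP ⟨s, t, fun k => ht (hq k), e⟩
    have e := Pl.ord_unit P.toPlace (lo _ (H _ fun R hR => Cb.mem_ord (oR R hR).ge))
      (lo _ (H _ fun R hR => Cb.inv_mem_ord (oR R hR)))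
    rw [ou] at e
    have e' : (Q : ℝ) * P.ord g - (m * Q * P.ord j + m * P.ord h) = 0 := by exact_mod_cast e
    field_simp
    linarith
  intro R hR
  have mon := pt (ne_bot up.aff hR) fun q hq P hP e he dv => by
    have : ld y Q (j ^ Q * h) P = ld y m g P := by
      rw [ld, ld, eP q hq P hP, Pl.ord_mul _ (pow_ne_zero _ j0) h0, Pl.ord_pow]
      push_cast; field_simp
    rw [this]
    exact hy q hq P hP e he fun a a0 fa => dv a a0 fun σ hσ => fa σ (le hσ)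
  choose s sp sx using par.mem
  set lam : ℝ := 1 + kap y R - R.ord j - R.ord h / Q with hl
  obtain ⟨P, e, e0, cP, b1, b2, b3⟩ := bck F F' S S' π p N c _ f z D' up y j pr.fr j0 rs R
    (insert h' (Finset.univ.image s)) ⌈n * lam⌉ hR
  have e1 : (0 : ℝ) < e := Nat.cast_pos.2 e0
  obtain ⟨w, fw, lt⟩ := mon P cP
  have pf : (∏ i, (f i : F')) ≠ 0 := Finset.prod_ne_zero_iff.2 fun i _ => f0 i
  have l1 : ld z Q ((∏ i, (f i : F')) ^ Q * h') P ≤ e * lam := by
    rw [ld, Pl.ord_mul _ (pow_ne_zero _ pf) h2, Pl.ord_pow, A0r.ord_prod P _ _ f0,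
      b1 h' (Finset.mem_insert_self _ _) h1]
    push_cast
    have : ((Q : ℝ) * ∑ i, (P.ord (f i : F') : ℝ) + e * R.ord h) / Q =
        ∑ i, (P.ord (f i : F') : ℝ) + e * (R.ord h / Q) := by field_simp
    rw [this, hl]
    linarith
  have ms : ∀ i, s i ∈ insert h' (Finset.univ.image s) := fun i =>
    Finset.mem_insert_of_mem (Finset.mem_image_of_mem _ (Finset.mem_univ i))
  have ox : ∀ i, (0 : ℝ) ≤ P.ord (x i) := fun i => by
    exact_mod_cast Pl.ord_nonneg_of_mem P.toPlace (sx i ▸ (cP (s i)).1)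
  have w0 : ∀ i, w i ≠ 0 → π (s i) ≠ 0 := fun i wi e' => by
    have a1 := b2 (s i) (ms i) e' fun k => x0 i (by rw [← sx i, k]; rfl)
    rw [sx i] at a1
    have a2 : (e : ℝ) * (⌈n * lam⌉ : ℤ) ≤ P.ord (x i) := by exact_mod_cast a1
    have a3 : (P.ord (x i) : ℝ) ≤ w i * P.ord (x i) :=
      le_mul_of_one_le_left (ox i) (by exact_mod_cast Nat.one_le_iff_ne_zero.2 wi)
    have a4 := Finset.single_le_sum (f := fun i => (w i : ℝ) * P.ord (x i))
      (fun i _ => mul_nonneg (Nat.cast_nonneg _) (ox i)) (Finset.mem_univ i)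
    have a5 := mul_le_mul_of_nonneg_left (Int.le_ceil (n * lam)) e1.le
    have a6 := (div_lt_iff₀ n0).1 (lt.trans_le l1)
    nlinarith
  have w1 : ∀ i, (π (s i) : F) ^ w i ≠ 0 := fun i => by
    by_cases wi : w i = 0
    · rw [wi, pow_zero]; exact one_ne_zero
    · exact pow_ne_zero _ fun k => w0 i wi (ZeroMemClass.coe_eq_zero.1 k)
  have w2 : ∑ i, (w i : ℝ) * P.ord (x i) = e * ∑ i, (w i : ℝ) * R.ord (π (s i) : F) := by
    rw [Finset.mul_sum]
    refine Finset.sum_congr rfl fun i _ => ?_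
    by_cases wi : w i = 0
    · simp [wi]
    · rw [← sx i, b1 _ (ms i) (w0 i wi)]; push_cast; ring
  have c0 : (∏ i, (π (s i) : F) ^ w i) ≠ 0 := Finset.prod_ne_zero_iff.2 fun i _ => w1 i
  have oφ : ∀ R : Pl F, (R.ord ((∏ i, (π (s i) : F) ^ w i) * h ^ (n / Q) * j ^ n) : ℝ) / n =
      (∑ i, (w i : ℝ) * R.ord (π (s i) : F)) / n + R.ord h / Q + R.ord j := fun R => by
    rw [Pl.ord_mul _ (mul_ne_zero c0 (pow_ne_zero _ h0)) (pow_ne_zero _ j0),
      Pl.ord_mul _ c0 (pow_ne_zero _ h0), A0r.ord_prod R _ _ w1, Pl.ord_pow, Pl.ord_pow]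
    simp only [Pl.ord_pow]
    simp only [Int.cast_add, Int.cast_mul, Int.cast_sum, Int.cast_natCast]
    rw [Nat.cast_div hd Q0]
    field_simp
  refine ⟨(∏ i, (π (s i) : F) ^ w i) * h ^ (n / Q) * j ^ n,
    mul_ne_zero (mul_ne_zero c0 (pow_ne_zero _ h0)) (pow_ne_zero _ j0), fun σ hσ => ?_,
    fun R' hR' => ?_, ?_⟩
  · obtain ⟨σ', h3, ov⟩ := cor.up σ hσ
    choose α hα using fun i => hx i σ' h3
    choose β hβ using fun i => hf i σ' h3
    obtain ⟨γ, hγ⟩ := eh σ' h3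
    have k1 := chr F F' S S' π p N c _ f z D' up y j j0 rs σ' σ (Fin.append α fun _ => 1) β
      (cor.stab' σ' h3) ov (fun l => by
        refine Fin.addCases (fun l => ?_) (fun l => ?_) l
        · rw [hz, Fin.append_left, Fin.append_left, hα]
        · rw [hz, Fin.append_right, Fin.append_right, ht l σ' h3, one_smul]) hβ
      fun i => pr.fy i σ (le hσ)
    rw [Fin.prod_univ_add] at k1
    simp only [Fin.append_left, Fin.append_right, Finset.prod_const_one, mul_one] at k1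
    have px : (∏ i, x i) ≠ 0 := Finset.prod_ne_zero_iff.2 fun i _ => x0 i
    have pw : (∏ i, x i ^ w i) ≠ 0 := Finset.prod_ne_zero_iff.2 fun i _ => pow_ne_zero _ (x0 i)
    have α0 : ∀ i, α i ≠ 0 := fun i e => x0 i (by
      have := hα i
      rw [e, zero_smul] at this
      exact (map_eq_zero σ').1 this)
    have pα : (∏ i, α i) ≠ 0 := Finset.prod_ne_zero_iff.2 fun i _ => α0 i
    have k2 := fw σ' h3
    simp only [map_div₀, map_mul, map_pow, map_prod, hα, hβ, hγ, Algebra.smul_def, mul_pow,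
      Finset.prod_mul_distrib] at k2
    have k3 : (∏ i, α i ^ w i) * (∏ i, β i) ^ n * γ ^ (n / Q) = (∏ i, α i) ^ n := by
      apply (algebraMap ℂ F').injective
      have pα' : (∏ i, algebraMap ℂ F' (α i)) ≠ 0 := by
        rw [← map_prod]; exact (map_ne_zero _).2 pα
      simp only [← pow_mul, Nat.mul_div_cancel' hd] at k2
      simp only [map_mul, map_pow, map_prod]
      field_simp at k2
      linear_combination k2
    have k4 : ∀ i, σ (π (s i) : F) = α i • (π (s i) : F) := fun i =>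
      ov.eig (by rw [sx i, hα])
    have k5 : σ h = γ • h := ov.eig hγ
    have k6 : algebraMap ℂ F ((∏ i, α i) ^ n) ≠ 0 := (map_ne_zero _).2 (pow_ne_zero _ pα)
    have k7 : algebraMap ℂ F ((∏ i, α i) ^ n) * σ j ^ n =
        algebraMap ℂ F ((∏ i, β i) ^ n) * j ^ n := by
      rw [map_pow, map_pow, ← mul_pow, ← mul_pow, ← Algebra.smul_def, ← Algebra.smul_def, k1]
    have k8 := congrArg (algebraMap ℂ F) k3
    apply mul_left_cancel₀ k6
    simp only [map_mul, map_pow σ, map_prod σ, k4, k5, Algebra.smul_def, mul_pow,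
      Finset.prod_mul_distrib] at k8 ⊢
    rw [map_prod, map_pow _ γ] at k8
    simp only [map_pow _ (α _)] at k8
    linear_combination (∏ i, algebraMap ℂ F (α i) ^ w i) * (∏ i, (π (s i) : F) ^ w i) *
      (algebraMap ℂ F γ ^ (n / Q) * h ^ (n / Q)) * k7 +
      (∏ i, (π (s i) : F) ^ w i) * h ^ (n / Q) * j ^ n * k8
  · rw [oφ, eR R' hR']
    obtain ⟨q, -, cq, -⟩ := hR'
    have : 0 ≤ (∑ i, (w i : ℝ) * R'.ord (π (s i) : F)) / n := by
      refine div_nonneg (Finset.sum_nonneg fun i _ => mul_nonneg (Nat.cast_nonneg _) ?_) n0.le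
      exact_mod_cast Pl.ord_nonneg_of_mem R'.toPlace (cq _).1
    linarith
  · have a := lt.trans_le l1
    rw [w2, mul_div_assoc] at a
    have a' := lt_of_mul_lt_mul_left a e1.le
    rw [ld, oφ]
    linarith

end Ac

/-- **ACR** -/
theorem acr : ACR := by
  intro pt eig sem hrt der gen res chr bck hup c N Q ε hQ hε
  obtain ⟨J, hJ⟩ := eig (N + c)
  have ε0 : 0 < min ε 1 := lt_min hε one_pos
  choose n₀ pos H using fun k => pt k Q (min ε 1) hQ ε0
  refine ⟨J, ∏ k ∈ Finset.range (N + c + 1), n₀ k, Finset.prod_pos fun k _ => pos k, ?_⟩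
  intro n hn dn dQ F F' _ _ _ _ G S G' S' π f p y m g h pr l pri eq hy _
  have pri' : (p.comap π).IsPrime := Ideal.comap_isPrime π p
  obtain ⟨A', k, r, x, t, ix, com, par, hx, ht⟩ := hJ F' S' G' _ l.aff l.sm l.fin l.stab pri'
  have dim : N + c = k + r := Gm.ff_uniq par.aff.ff l.aff.ff
  have sA : Stab A' S' := fun σ hσ => l.stab σ (ix.le hσ)
  obtain ⟨idx, cor⟩ := Ac.idx pr.fin pr.stab l ix sA
  set A := Ac.img π G A' sA
  have prA : Pr N A S y m g := ⟨pr.aff, pr.nor, cor.fin, cor.stab,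
    fun i σ hσ => pr.fy i σ (idx.le hσ), pr.fr, pr.pos, pr.ne, fun σ hσ => pr.fg σ (idx.le hσ)⟩
  obtain ⟨h₁, eq', eh, hS⟩ := sem _ Q F S p A y m g h prA pri idx.inr eq
  obtain ⟨⟨f', f1, f2, f3⟩, lift⟩ := gen F F' S S' π p c f A' A l.aff.fg l.sur l.ker pri cor com
  obtain ⟨h', e', eh'⟩ := lift ⟨h₁, hS⟩ eh
  obtain rfl : h₁ = π h' := by rw [e']
  obtain ⟨D', fr, pre, -⟩ := der k r F' S' _ x t par
  have tA : ∀ i, Fix A' (t i : F') := fun i σ hσ => ht i σ (ix.le hσ)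
  have up : Up N π p f' (Fin.append x fun i => (t i : F')) D' :=
    ⟨pr.aff, pr.nor, par.aff, l.sm, by omega, l.sur, pri, f1, f3, fr, fun a => by
      refine Fin.addCases (fun a => ?_) (fun a => ?_) a
      · obtain ⟨s, -, e⟩ := par.mem a
        rw [Fin.append_left, ← e]; exact s.2
      · rw [Fin.append_right]; exact (t a).2, pre⟩
  obtain ⟨j, j0, rs, kj⟩ := res F F' S S' π p N c _ f' _ D' up y pr.fr
  have h1 : π h' ≠ 0 := fun e => eq'.2.1 (by rw [e]; rfl)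
  have h2 : (h' : F') ≠ 0 := fun e => h1 (by rw [ZeroMemClass.coe_eq_zero.1 e, map_zero])
  refine ⟨A, idx, Ac.core (ε := min ε 1) hrt chr bck hQ hn dQ up par cor idx.le pr hx tA f2 eh' eq'
    j0 rs kj (fun q hq P hP e he dv => le_trans (mul_le_mul_of_nonneg_right (min_le_left _ _)
      (Nat.cast_nonneg _)) (hy q hq P hP e he dv)) fun p0 hq => ?_⟩
  refine H k n hn ((Finset.dvd_prod_of_mem n₀ (Finset.mem_range.2 (by omega))).trans dn) dQ r F' S'
    _ x t A' _ par cor.fin' sA ix.inr hx tA ?_ ?_ ?_ (hup F F' S S' π p N c _ f' _ D' up y j A' A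
      h' Q _ p0 pr.fr j0 rs kj cor (fun a => ?_) f2 eh' prA.fy h1 hQ ε0 (min_le_right _ _) hq)
  · exact ⟨(∏ i, f' i) ^ Q * h', 1, (Ideal.ne_top_iff_one _).1 pri'.ne_top, by simp⟩
  · exact mul_ne_zero (pow_ne_zero _ (Finset.prod_ne_zero_iff.2 fun i _ => Ac.f_ne j0 rs i)) h2
  · intro σ hσ
    choose β hβ using fun i => f2 i σ hσ
    obtain ⟨γ, hγ⟩ := eh' σ hσ
    refine ⟨(∏ i, β i) ^ Q * γ, ?_⟩
    simp only [map_mul, map_pow, map_prod, hβ, hγ, Algebra.smul_def, mul_pow,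
      Finset.prod_mul_distrib]
    ring
  · refine Fin.addCases (fun a => ?_) (fun a => ?_) a
    · rw [Fin.append_left]; exact hx a
    · rw [Fin.append_right]; exact fun σ hσ => ⟨1, by rw [tA a σ hσ, one_smul]⟩

end Vale.Agent.P283R.H
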