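import Vale.Agent.P283R.H.One0
import Vale.Agent.P283R.H.Ks

/-!
# P283R, block H: one step of exact inversion of adjunction for negative discrepancies
-/

open Set

noncomputable section

namespace Vale.Agent.P283R.H

open Vale.Agent.P287D Vale.Agent.P287D.Ae

variable {K : Type} [Field K] [Algebra ℂ K] {n : ℕ} {Λ M β Γ b : BD K} {E S : Pl K}
  {g : Set (BD K)}

/-- `ceil_le` on a higher model, local on the lower one -/
theorem ceil_up (hK : FF K (n + 2)) (bM : Big M) (d : Dsc M Λ) (hΛ : Smp Λ)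
    (hg : ∀ G ∈ g, Rep Λ G) (hO : On (n + 1) M S) (hS : ∀ G ∈ g, G S = 0) (hΓ : Dsc M Γ)
    (hP : dsc (n + 2) Γ S = -1) (hβ : Dsc M β) (h0 : β S = 0)
    (hle : ∀ R, On (n + 1) M R → (∀ G ∈ g, G R = 0) → R ≠ S → (⌈dsc (n + 2) Γ R⌉ : ℝ) ≤ β R)
    {Q : Pl S.κ} (hQ : On n (res S M) Q) (hQ' : ∀ G ∈ g, res S G Q = 0) :
    (⌈dsc (n + 1) (adj (n + 1) S Γ) Q⌉ : ℝ) ≤ res S β Q := by
  have hM := d.smp
  have f1 := Pr.fin_on res' hK hM bM (Api.mod.isb _ K hK).2.1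
  obtain ⟨G, c, h⟩ := cov (p := fun R => On (n + 1) M R ∧ R ≠ S)
    (φ := fun R => ⌈dsc (n + 2) Γ R⌉ - β R) hK hΛ hg
    (((f1.union (fin_car hK hM bM hΓ.car)).union (fin_car hK hM bM hβ.car)).subset fun R hR => by
      by_contra hc
      simp only [mem_union, mem_ofPred_eq, hR.1.1, true_and, not_or, not_not] at hc
      exact hR.2 (by simp [dsc, hc.1.1, hc.1.2, hc.2]))
    fun R a w => sub_nonpos.2 (hle R a.1 w a.2)
  have := ceil_le adh hK hM bM hO hΓ hP (hβ.add (d.trans c.dsc))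
    (by rw [Pi.add_apply, h0, c.th S hS, add_zero])
    (fun R a w => sub_le_iff_le_add'.1 (h R ⟨a, w⟩)) hQ
  rwa [res_add hK S hβ.car c.dsc.car, Pi.add_apply, c.res S Q hQ', add_zero] at this

/-- the step on the extraction -/
theorem step' (hK : FF K (n + 2)) (hb : Big Λ) (hΓ : Dsc Λ Γ) (hO : On (n + 1) Λ S)
    (hP : dsc (n + 2) Γ S = -1) (ne : E ≠ S) (c : CLe Λ E S) (hg : ∀ G, G ∈ g ↔ Rep Λ G ∧ G E = 0)
    (a0 : -1 ≤ dsc (n + 2) Γ E) (a1 : dsc (n + 2) Γ E ≤ 0) {B H : BD K} {k : ℝ} (bM : Big M)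
    (d : Dsc M Λ) (dB : Dsc M B) (BE : B E = 1) (u : Cn Λ g H) (B0 : 0 ≤ B + H)
    (sB : Smp (k • Λ - B))
    (hR : ∀ R, On (n + 1) M R → (∀ G ∈ g, G R = 0) → R ≠ E → B R = 0 ∧ dsc (n + 2) Γ R ≤ 0) :
    ∃ Q : Pl S.κ, (∀ G ∈ g, res S G Q = 0) ∧ Cq Λ S Q E ∧
      dsc (n + 1) (adj (n + 1) S Γ) Q ≤ dsc (n + 2) Γ E := by
  have hΛ := hΓ.smp
  have hM := d.smp
  have hg' : ∀ G ∈ g, Rep Λ G := fun G a => ((hg G).1 a).1
  have hE : ∀ G ∈ g, G E = 0 := fun G a => ((hg G).1 a).2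
  have hS : ∀ G ∈ g, G S = 0 := fun G a =>
    le_antisymm (not_lt.1 fun w => (c G (hg' G a) w).ne' (hE G a)) ((hg' G a).1 S)
  have oS := Pr.on_mono res' hK hΛ hM d hO
  have BS := (hR S oS hS ne.symm).1
  have HS := u.th S hS
  have hk := Api.ffs.rsd _ K hK S
  obtain ⟨Q₀, -, q0, q1⟩ := qz_on hK hΛ hb hO c ne
  have q0' : ∀ G ∈ g, res S G Q₀ = 0 := fun G a => q0 G (hg' G a) (hS G a) (hE G a)
  obtain ⟨G₀, r, gS, gQ⟩ := exists_rep_res res' hK sB S Q₀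
  have dBH := dB.add (d.trans u.dsc)
  have p0 : 0 < res S (B + H) Q₀ := by
    have := (q1 (G₀ + (B + H)) (add_nonneg r.1 B0)
      ((((Dsc.refl hΛ).smul k).add u.dsc).congr (by
        rw [show G₀ + (B + H) - (k • Λ + H) = G₀ - (k • Λ - B) by abel]; exact r.2))
      (by simp [gS, BS, HS])).2 (by
        have : (0 : ℝ) ≤ G₀ E := r.1 E
        simp only [Pi.add_apply, BE, u.th E hE]
        linarith)
    rwa [res_add hK S (r.car sB.car) dBH.car, Pi.add_apply, gQ, zero_add] at this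
  obtain ⟨Q, oQ, p1, cQ⟩ := (Pr.pos_iff res' (Pr.ISB.of Api.mod) hk (res_smp res' hK hM)
    ((res'.on _ K hK M S hM).1 oS) (res'.des _ K hK _ _ S dBH)
    (res_nonneg hK S dBH.car B0 (by simp [BS, HS]))).1 p0
  have qg : ∀ G ∈ g, res S G Q = 0 := fun G a => by
    have n0 := res_nonneg hK S ((hg' G a).car hΛ.car) (hg' G a).1 (hS G a)
    exact le_antisymm (not_lt.1 fun w => (cle_dsc (res'.des _ K hK _ _ S
      (d.trans (rep_dsc hΛ (hg' G a)))) n0 cQ w).ne' (q0' G a)) (n0 Q)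
  rw [res_add hK S dB.car u.dsc.car, Pi.add_apply, u.res S Q qg, add_zero] at p1
  refine ⟨Q, qg, fun G r gS gE => ?_, ?_⟩
  · have dG := d.trans (rep_dsc hΛ r)
    obtain ⟨H', v, h⟩ := hart_loc hK bM d hΛ hg' (dG.sub (dB.smul (G E))) fun R x y => by
      by_cases w : R = E
      · simp [w, BE]
      · simpa [(hR R x y w).1] using r.1 R
    have := res_nonneg hK S (add_mem (dG.sub (dB.smul (G E))).car v.dsc.car) h
      (by simp [gS, BS, v.th S hS]) Q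
    rw [res_add hK S (dG.sub (dB.smul (G E))).car v.dsc.car,
      res_sub hK S dG.car (dB.smul (G E)).car, res_smul hK S _ dB.car] at this
    simp only [Pi.add_apply, Pi.sub_apply, Pi.smul_apply, smul_eq_mul, Pi.zero_apply,
      v.res S Q qg] at this
    linarith [mul_pos gE p1]
  have key : ∀ (t : ℝ) (m : ℤ), dsc (n + 2) Γ E - t ≤ m → (⌈dsc (n + 1) (adj (n + 1) S Γ) Q -
      t * res S B Q⌉ : ℝ) ≤ m * res S B Q := fun t m h => by
    have := ceil_up hK bM d hΛ hg' oS hS ((d.trans hΓ).add (dB.smul t))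
      (by rw [Pr.dsc_add_smul, BS, hP, mul_zero, sub_zero]) (dB.smul m) (by simp [BS])
      (fun R x y _ => by
        rw [Pr.dsc_add_smul, Pi.smul_apply, smul_eq_mul]
        by_cases w : R = E
        · rw [w, BE, mul_one, mul_one]
          exact Int.cast_le.2 (Int.ceil_le.2 h)
        · rw [(hR R x y w).1, mul_zero, mul_zero, sub_zero]
          exact ceil_np (hR R x y w).2) oQ qg
    rwa [(a4 _ K hK S _ hΓ.car _ (dB.smul t).car).1, res_smul hK S _ dB.car,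
      res_smul hK S _ dB.car, Pr.dsc_add_smul] at this
  have k1 := key (dsc (n + 2) Γ E + 1) (-1) (by push_cast; linarith)
  have k2 := (Int.le_ceil _).trans (key (dsc (n + 2) Γ E) 0 (by simp))
  have k3 : ⌈dsc (n + 1) (adj (n + 1) S Γ) Q - (dsc (n + 2) Γ E + 1) * res S B Q⌉ ≤ -1 :=
    Int.lt_add_one_iff.1 (Int.cast_lt (R := ℝ).1 (k1.trans_lt (by push_cast; linarith)))
  have k4 := Int.ceil_le.1 k3
  push_cast at k2 k4
  rcases le_total (res S B Q) 1 with w | w <;> nlinarith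

/-- **one step of exact inversion of adjunction** -/
theorem one0 (hK : FF K (n + 1)) (hb : Big Λ) (hΓ : Dsc Λ Γ) (hβ : Dsc Λ b) (hO : On n Λ S)
    (hP : dsc (n + 1) Γ S = -1) (ne : E ≠ S) (c : CLe Λ E S) (bS : 0 < b S)
    (hB : ∀ R, On n Λ R → CLe Λ E R →
      dsc (n + 1) Γ R ≤ 0 ∧ 0 ≤ b R ∧ (0 < b R → dsc (n + 1) Γ R = -1))
    (hk : ∀ Q, (∀ G, Rep Λ G → G E = 0 → res S G Q = 0) → -1 < dsc n (adj n S Γ) Q)
    (dE : dsc (n + 1) Γ E < 0) :
    ∃ Q : Pl S.κ, (∀ G, Rep Λ G → G E = 0 → res S G Q = 0) ∧ Cq Λ S Q E ∧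
      dsc n (adj n S Γ) Q ≤ dsc (n + 1) Γ E := by
  have hΛ := hΓ.smp
  cases n with
  | zero =>
    obtain ⟨Q, -⟩ := qz_on hK hΛ hb hO c ne
    exact (Bm.no_pl (Api.ffs.rsd _ K hK S) Q).elim
  | succ n =>
  let g : Set (BD K) := {G | Rep Λ G ∧ G E = 0}
  have hg : ∀ G ∈ g, Rep Λ G := fun G a => a.1
  have th : ∀ R, (∀ G ∈ g, G R = 0) ↔ CLe Λ E R := fun R =>
    ⟨fun h G r w => (r.1 E).lt_of_ne fun z => w.ne' (h G ⟨r, z.symm⟩),
      fun h G a => le_antisymm (not_lt.1 fun w => (h G a.1 w).ne' a.2) (a.1.1 R)⟩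
  have hE : ∀ G ∈ g, G E = 0 := fun G a => a.2
  have plt : ∀ R, R ≠ S → CLe Λ E R → -1 < dsc (n + 2) Γ R := fun R x y =>
    l5 hK hΛ hb hg hΓ (fun R x y => (hB R x ((th R).1 y)).1) ((th S).2 c) hP
      (fun Q h => hk Q fun G r z => h G ⟨r, z⟩) x hE y c
  obtain ⟨H, u, h⟩ := hart_loc hK hb (.refl hΛ) hΛ hg hβ fun R x y => (hB R x ((th R).1 y)).2.1
  have b0 : ∀ R, (∀ G ∈ g, G R = 0) → 0 ≤ b R := fun R y => by simpa [u.th R y] using h R
  obtain ⟨ε, e0, e1, e2⟩ : ∃ ε : ℝ, 0 < ε ∧ ε * b S ≤ 1 ∧ ε * b E < -dsc (n + 2) Γ E := by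
    have p := b0 E hE
    refine ⟨min (b S)⁻¹ (-dsc (n + 2) Γ E / (b E + 1)), lt_min (inv_pos.2 bS)
      (div_pos (neg_pos.2 dE) (by linarith)), ?_, ?_⟩
    · exact (mul_le_mul_of_nonneg_right (min_le_left _ _) bS.le).trans_eq (inv_mul_cancel₀ bS.ne')
    · refine (mul_le_mul_of_nonneg_right (min_le_right _ _) p).trans_lt ?_
      rw [div_mul_eq_mul_div, div_lt_iff₀ (by linarith)]
      nlinarith
  have e : ∀ R, dsc (n + 2) (Γ + (-ε) • b) R = dsc (n + 2) Γ R + ε * b R := fun R => by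
    rw [Pr.dsc_add_smul]; ring
  obtain ⟨M, B, H', k, bM, d, dB, BE, v, B0, sB, hR⟩ := extr' hK hb hg (hΓ.add (hβ.smul (-ε)))
    (fun R y => by
      rw [e]
      by_cases w : R = S
      · rw [w, hP]; linarith [mul_pos e0 bS]
      · linarith [plt R w ((th R).1 y), mul_nonneg e0.le (b0 R y)])
    (fun R x y => by
      rw [e]
      by_cases w : R = S
      · rw [w, hP]; linarith
      · have q := hB R x ((th R).1 y)
        rw [← q.2.1.eq_or_lt.resolve_right fun z => (plt R w ((th R).1 y)).ne' (q.2.2 z)]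
        linarith [q.1])
    hE (fun o => ne (Api.sep _ K hK Λ E S hΛ hb o c).symm) (by rw [e]; linarith)
  obtain ⟨Q, q1, q2⟩ := step' hK hb hΓ hO hP ne c (g := g) (fun _ => Iff.rfl)
    (plt E ne fun _ _ w => w).le dE.le bM d dB BE v B0 sB fun R x y w => ⟨(hR R x y w).1, by
      have := (hR R x y w).2
      rw [e] at this
      linarith [mul_nonneg e0.le (b0 R y)]⟩
  exact ⟨Q, fun G r z => q1 G ⟨r, z⟩, q2⟩

theorem one66 : ONE := fun _ _ _ _ hK _ _ _ _ _ _ hb _ hΓ _ hβ hO hP ne c bS hB hk dE =>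
  one0 hK hb hΓ hβ hO hP ne c bS (fun R x y => hB R y x) hk dE

end Vale.Agent.P283R.H
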