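import Vale.Agent.P283R.All
import Vale.Agent.P283R.H.Acr1
import Vale.Agent.P283R.H.Hup
import Vale.Agent.P283R.H.Hk
import Vale.Agent.P283R.H.One
import Vale.Agent.P283R.H.Ree
import Vale.Agent.P283R.H.Upq
import Vale.Agent.P283R.H.Gau
import Vale.Agent.P283R.H.Mch
import Vale.Agent.P283R.H.Adk
import Vale.Agent.P283R.H.Tpd
import Vale.Agent.P283R.H.Gen
import Vale.Agent.P283R.H.Res
import Vale.Agent.P283R.H.Chr
import Vale.Agent.P283R.H.Bck

/-!
# P283R, block H: the assembly
-/

namespace Vale.Agent.P283R.H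

theorem hk0 : HK := hk_of one66 ree upq (ga2_of gau) (adk_of mch)

theorem hup0 : HUP1 := hup1_of hk0 tpd

/-- all codimensions -/
theorem ac0 (c : ℕ) : AC c := acr1 Fin.pt eig Fin.sem hrt der Fin.a0 gen res chr bck hup0 c

end Vale.Agent.P283R.H
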