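import Vale.Agent.P283R.H.Bk1

/-!
# P283R, block H: places close to a place of a subvariety
-/

open Set MvPolynomial
open Vale.Agent.P285N.Brep (jac Fr)
open Vale.Agent.P297Z

noncomputable section

namespace Vale.Agent.P283R.H.Bk

open Vale.Agent.P287D Vale.Agent.P287D.Cb

variable {F F' : Type} [Field F] [Algebra ℂ F] [Field F'] [Algebra ℂ F'] {S' : Subalgebra ℂ F'}
  {π : S' →ₐ[ℂ] F} {a : F'} {x y : F} {R : Pl F} {c n : ℕ}

/-- the graph of the residue map -/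
def gr (π : S' →ₐ[ℂ] F) : Subalgebra ℂ (F' × F) where
  carrier := {z | SemP.Rs π z.1 z.2}
  mul_mem' h k := h.mul k
  add_mem' h k := h.add k
  algebraMap_mem' c := SemP.rs_const c

theorem gr_coe (s : S') : ((s : F'), π s) ∈ gr π := SemP.rs_coe s

theorem gr_uniq (h : (a, x) ∈ gr π) (k : (a, y) ∈ gr π) : x = y := SemP.Rs.uniq h k

theorem gr_ne (h : (a, x) ∈ gr π) (k : x ≠ 0) : a ≠ 0 := SemP.Rs.ne h k

theorem gr_inv (h : (a, x) ∈ gr π) (k : x ≠ 0) : (a⁻¹, x⁻¹) ∈ gr π := by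
  obtain ⟨s, t, ht, e1, e2⟩ := h
  exact ⟨t, s, fun e => k (e2.trans (by rw [e, zero_div])), (congrArg _ e1).trans (inv_div _ _),
    (congrArg _ e2).trans (inv_div _ _)⟩

theorem gr_mul {b : F'} (h : (a, x) ∈ gr π) (k : (b, y) ∈ gr π) : (a * b, x * y) ∈ gr π :=
  mul_mem h k

theorem gr_div {b : F'} (h : (a, x) ∈ gr π) (k : (b, y) ∈ gr π) (y0 : y ≠ 0) :
    (a / b, x / y) ∈ gr π := by
  rw [div_eq_mul_inv, div_eq_mul_inv]
  exact gr_mul h (gr_inv k y0)

theorem gr_zpow (h : (a, x) ∈ gr π) (k : x ≠ 0) : ∀ m : ℤ, (a ^ m, x ^ m) ∈ gr π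
  | (m : ℕ) => by rw [zpow_natCast, zpow_natCast]; exact pow_mem h m
  | .negSucc m => by
    rw [zpow_negSucc, zpow_negSucc]
    exact gr_inv (pow_mem h (m + 1)) (pow_ne_zero _ k)

theorem gr_aeval {ι : Type} {u : ι → F'} {v : ι → F} (h : ∀ i, (u i, v i) ∈ gr π)
    (q : MvPolynomial ι ℂ) : (aeval u q, aeval v q) ∈ gr π := by
  induction q using MvPolynomial.induction_on with
  | C a => rw [aeval_C, aeval_C]; exact (gr π).algebraMap_mem a
  | add p q hp hq => rw [map_add, map_add]; exact add_mem hp hq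
  | mul_X p j hp => rw [map_mul, map_mul, aeval_X, aeval_X]; exact gr_mul hp (h j)

theorem gr_det {ι : Type} [Fintype ι] [DecidableEq ι] {A : Matrix ι ι F'} {B : Matrix ι ι F}
    (h : ∀ i j, (A i j, B i j) ∈ gr π) : (A.det, B.det) ∈ gr π := by
  have e : (Matrix.of fun i j => (A i j, B i j)).det = (A.det, B.det) :=
    Prod.ext ((RingHom.fst F' F).map_det _) ((RingHom.snd F' F).map_det _)
  exact e ▸ det_mem (gr π) h

/-- the local ring of the subvariety -/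
def O (π : S' →ₐ[ℂ] F) : Subalgebra ℂ F' where
  carrier := {a | ∃ x, (a, x) ∈ gr π}
  mul_mem' := fun ⟨_, h⟩ ⟨_, k⟩ => ⟨_, gr_mul h k⟩
  add_mem' := fun ⟨_, h⟩ ⟨_, k⟩ => ⟨_, add_mem h k⟩
  algebraMap_mem' c := ⟨_, (gr π).algebraMap_mem c⟩

/-- the functions whose residue is regular at `R` -/
def V (π : S' →ₐ[ℂ] F) (R : Pl F) : Subalgebra ℂ F' where
  carrier := {a | ∃ x ∈ R.ring, (a, x) ∈ gr π}
  mul_mem' := fun ⟨_, h', h⟩ ⟨_, k', k⟩ => ⟨_, mul_mem h' k', gr_mul h k⟩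
  add_mem' := fun ⟨_, h', h⟩ ⟨_, k', k⟩ => ⟨_, add_mem h' k', add_mem h k⟩
  algebraMap_mem' c := ⟨_, R.con c, (gr π).algebraMap_mem c⟩

theorem den {Z : Set F'} (hZ : Z.Finite) (h : Z ⊆ O π) :
    ∃ s : S', π s ≠ 0 ∧ ∀ z ∈ Z, s * z ∈ S' := by
  induction Z, hZ using Set.Finite.induction_on with
  | empty => exact ⟨1, by simp, by simp⟩
  | insert _ _ ih =>
    obtain ⟨s, s0, hs⟩ := ih ((subset_insert _ _).trans h)
    obtain ⟨_, u, t, ht, e, -⟩ := h (mem_insert _ _)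
    refine ⟨s * t, by rw [map_mul]; exact mul_ne_zero s0 ht, ?_⟩
    rintro z (rfl | hz)
    · rw [show z = u / t from e, Subalgebra.coe_mul, mul_assoc, mul_div_cancel₀ _ (SemP.ne_of ht)]
      exact mul_mem s.2 u.2
    · rw [Subalgebra.coe_mul, mul_right_comm]
      exact mul_mem (hs z hz) t.2

/-- derivations descend -/
theorem desc (hs : ∀ x, ∃ a, (a, x) ∈ gr π) (δ : Derivation ℂ F' F') (h1 : ∀ a ∈ O π, δ a ∈ O π)
    (h2 : ∀ a, (a, 0) ∈ gr π → (δ a, 0) ∈ gr π) : ∃ d : F → F, De d ∧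
      (∀ c, d (algebraMap ℂ F c) = 0) ∧ ∀ a x, (a, x) ∈ gr π → (δ a, d x) ∈ gr π := by
  choose l hl using hs
  choose d hd using fun x => h1 (l x) ⟨x, hl x⟩
  have k : ∀ a x, (a, x) ∈ gr π → (δ a, d x) ∈ gr π := fun a x h => by
    have := add_mem (h2 (a - l x) (by simpa using sub_mem h (hl x))) (hd x)
    simpa using this
  refine ⟨d, ⟨fun x y => gr_uniq (k _ _ (add_mem (hl x) (hl y))) ?_,
    fun x y => gr_uniq (k _ _ (gr_mul (hl x) (hl y))) ?_⟩,
    fun c => gr_uniq (k _ _ ((gr π).algebraMap_mem c)) ?_, k⟩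
  · rw [map_add]; exact add_mem (hd x) (hd y)
  · rw [δ.leibniz]; exact add_mem (gr_mul (hl x) (hd y)) (gr_mul (hl y) (hd x))
  · rw [δ.map_algebraMap]; exact zero_mem _

/-- the residue of a Jacobian -/
theorem res_jac (hs : ∀ x, ∃ a, (a, x) ∈ gr π) {f : Fin c → S'} (h0 : ∀ i, π (f i) = 0)
    (hg : ∀ a, π a = 0 → ∃ s, π s ≠ 0 ∧ s * a ∈ Ideal.span (range f)) {u s : Fin n → F'}
    {u' s' : Fin n → F} (hu : ∀ i, (u i, u' i) ∈ gr π) (h : ∀ i, (s i, s' i) ∈ gr π)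
    {E : Fin (c + n) → Derivation ℂ F' F'} (hE : Fr (Fin.append (fun i => (f i : F')) u) E)
    (pE : ∀ l, ∀ a ∈ O π, E l a ∈ O π) {D : Fin n → Derivation ℂ F F} (hD : Fr u' D) :
    (jac E (Fin.append (fun i => (f i : F')) s), jac D s') ∈ gr π := by
  rw [jac_app hE]
  refine gr_det fun i m => ?_
  obtain ⟨d, d1, d2, d3⟩ := desc hs _ (pE (Fin.natAdd c i)) fun a ⟨b, t, ht, e1, e2⟩ => by
    obtain ⟨r, r0, hr⟩ := hg b ((div_eq_zero_iff.1 e2.symm).resolve_right ht)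
    obtain ⟨k, hk⟩ := Ideal.mem_span_range_iff_exists_fun.1 hr
    have e3 : a = ∑ j, (k j : F') / (r * t : S') * f j := by
      have := congrArg Subtype.val hk
      push_cast at this
      simp only [div_mul_eq_mul_div]
      rw [← Finset.sum_div, this, Subalgebra.coe_mul, mul_div_mul_left _ _ (SemP.ne_of r0)]
      exact e1
    rw [e3, map_sum]
    have : ∀ j, (E (Fin.natAdd c i) ((k j : F') / (r * t : S') * f j), (0 : F)) ∈ gr π := fun j => by
      obtain ⟨x, hx⟩ := pE (Fin.natAdd c i) _ ⟨_, gr_div (gr_coe (k j)) (gr_coe (r * t))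
        (by rw [map_mul]; exact mul_ne_zero r0 ht)⟩
      have e4 := hE.dual (Fin.natAdd c i) (Fin.castAdd n j)
      rw [Fin.append_left, if_neg (by simp [Fin.ext_iff]; omega)] at e4
      have := gr_mul (gr_coe (f j)) hx
      rwa [Derivation.leibniz, e4, smul_zero, zero_add, smul_eq_mul, ← zero_mul x, ← h0 j]
    simpa [Prod.ext_iff, Prod.fst_sum, Prod.snd_sum, ← prod_mk_sum] using
      sum_mem (S := gr π) (t := Finset.univ) fun j _ => this j
  have e : ∀ j, d (u' j) = if i = j then 1 else 0 := fun j => by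
    have e4 := hE.dual (Fin.natAdd c i) (Fin.natAdd c j)
    rw [Fin.append_right] at e4
    refine gr_uniq (d3 _ _ (hu j)) ?_
    rw [e4]
    by_cases k : i = j
    · rw [if_pos k, if_pos (congrArg _ k)]; exact one_mem _
    · rw [if_neg k, if_neg fun e => k (Fin.natAdd_injective _ _ e)]; exact zero_mem _
  have := d3 _ _ (h m)
  rw [expand d1 d2 hD] at this
  simpa [e] using this

theorem core {m : ℕ} (hF : FF F' m) (hS : S'.FG) (hR : ∀ s : S', π s ∈ R.ring) {τ : F'}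
    (hτ : (τ, R.t) ∈ gr π) {v : Fin n → F'} {v' : Fin n → F} (hv : ∀ i, (v i, v' i) ∈ gr π)
    (ha : Ada R R.t v') {f : Fin c → F'} (hf : ∀ i, (f i, (0 : F)) ∈ gr π)
    {δ : Fin c → Derivation ℂ F' F'} (h1 : ∀ j, ∀ a ∈ O π, δ j a ∈ O π)
    (h2 : ∀ j i, δ j (f i) = if j = i then 1 else 0) (h3 : ∀ j, δ j τ = 0)
    (h4 : ∀ j i, δ j (v i) = 0) {G : Set F'} (hG : G.Finite) (hV : G ⊆ V π R) :
    ∃ (k : ℕ) (P : Pl F'), (∀ a ∈ G, a ∈ P.ring) ∧ (∀ a ∈ S', a ∈ P.ring) ∧ 0 < P.ord τ ∧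
      Ada P P.t (Fin.append (fun i => f i / τ ^ k) v) := by
  obtain ⟨T, hT⟩ := hS
  have t0 := R.t_ne
  have τ0 := gr_ne hτ t0
  obtain ⟨G₀, g1, g2, g3, g4, g5, g6⟩ : ∃ G₀ : Set F', G₀.Finite ∧ G₀ ⊆ V π R ∧ G ⊆ G₀ ∧
      S' ≤ Algebra.adjoin ℂ G₀ ∧ τ ∈ G₀ ∧ ∀ i, v i ∈ G₀ := by
    refine ⟨insert τ (G ∪ T ∪ range v), ((hG.union T.finite_toSet).union (finite_range v)).insert _,
      ?_, fun a h => .inr (.inl (.inl h)), hT ▸ Algebra.adjoin_mono fun a h => .inr (.inl (.inr h)),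
      .inl rfl, fun i => .inr (.inr ⟨i, rfl⟩)⟩
    rintro a (rfl | (h | h) | ⟨i, rfl⟩)
    · exact ⟨_, t_mem R, hτ⟩
    · exact hV h
    · exact ⟨_, hR ⟨a, hT.le (Algebra.subset_adjoin h)⟩,
        gr_coe ⟨a, hT.le (Algebra.subset_adjoin h)⟩⟩
    · exact ⟨_, ha.mem i, hv i⟩
  obtain ⟨s, s0, hs⟩ := den (π := π) (finite_iUnion fun j => g1.image (δ j)) (by
    rintro _ ⟨_, ⟨j, rfl⟩, b, hb, rfl⟩
    obtain ⟨x, -, hx⟩ := g2 hb
    exact h1 j b ⟨x, hx⟩)
  have s1 := SemP.ne_of s0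
  obtain ⟨e, he⟩ := Int.eq_ofNat_of_zero_le (Pl.ord_nonneg_of_mem _ (hR s))
  obtain ⟨C, c1, c2, c3, c4, c5, c6⟩ : ∃ C : Subalgebra ℂ F', C.FG ∧ C ≤ V π R ∧ G₀ ⊆ C ∧
      τ ^ e / s ∈ C ∧ (∀ i, f i / τ ^ (e + e) ∈ C) ∧ ∀ d : Derivation ℂ F' F', (∀ a ∈ G₀, d a ∈ C) →
        d (τ ^ e / s) ∈ C → (∀ i, d (f i / τ ^ (e + e)) ∈ C) → ∀ a ∈ C, d a ∈ C := by
    refine ⟨Algebra.adjoin ℂ (insert (τ ^ e / s) (G₀ ∪ range fun i => f i / τ ^ (e + e))),
      Subalgebra.fg_def.2 ⟨_, (g1.union (finite_range _)).insert _, rfl⟩, Algebra.adjoin_le ?_,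
      fun a h => Algebra.subset_adjoin (.inr (.inl h)), Algebra.subset_adjoin (.inl rfl),
      fun i => Algebra.subset_adjoin (.inr (.inr ⟨i, rfl⟩)),
      fun d k1 k2 k3 a h => adj_der d Algebra.subset_adjoin ?_ h⟩
    · rintro a (rfl | h | ⟨i, rfl⟩)
      · refine ⟨_, mem_ord ?_, gr_div (pow_mem hτ e) (gr_coe s) s0⟩
        change 0 ≤ R.ord (R.t ^ e / π s)
        rw [Pl.ord_div _ (pow_ne_zero _ t0) s0, Pl.ord_pow, R.ord_t, he]
        omega
      · exact g2 h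
      · exact ⟨_, by rw [zero_div]; exact zero_mem _,
          gr_div (hf i) (pow_mem hτ (e + e)) (pow_ne_zero _ t0)⟩
    · rintro a (rfl | h | ⟨i, rfl⟩)
      exacts [k2, k1 a h, k3 i]
  have cB : Algebra.adjoin ℂ G₀ ≤ C := Algebra.adjoin_le c3
  have dv : ∀ j (a : F') (k : ℕ), δ j (a / τ ^ k) = δ j a / τ ^ k := fun j a k => by
    rw [Derivation.leibniz_div_const _ _ _ (by rw [Derivation.leibniz_pow, h3]; simp), smul_eq_mul,
      inv_mul_eq_div]
  have dB : ∀ j, ∀ b ∈ Algebra.adjoin ℂ G₀, τ ^ e * δ j b ∈ C := fun j b hb => by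
    have := mul_mem c4 (cB (adj_der ((s : F') • δ j) Algebra.subset_adjoin
      (fun a h => g4 (hs _ (mem_iUnion.2 ⟨j, a, h, rfl⟩))) hb))
    rwa [Derivation.smul_apply, smul_eq_mul, ← mul_assoc, div_mul_cancel₀ _ s1] at this
  have dy : ∀ j l, (τ ^ (e + e) • δ j) (Fin.append (fun i => f i / τ ^ (e + e)) v l) =
      if Fin.castAdd n j = l then 1 else 0 := fun j l => by
    rw [Derivation.smul_apply, smul_eq_mul]
    refine Fin.addCases (fun i => ?_) (fun i => ?_) l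
    · rw [Fin.append_left, dv, mul_div_cancel₀ _ (pow_ne_zero _ τ0), h2]
      simp
    · rw [Fin.append_right, h4, mul_zero, if_neg (by simp [Fin.ext_iff]; omega)]
  have dC : ∀ j, ∀ a ∈ C, (τ ^ (e + e) • δ j) a ∈ C := fun j => c6 _ (fun a h => by
      rw [Derivation.smul_apply, smul_eq_mul, pow_add, mul_assoc]
      exact mul_mem (pow_mem (c3 g5) e) (dB j a (Algebra.subset_adjoin h))) (by
      have e1 : (τ ^ (e + e) • δ j) (τ ^ e / s) =
          -(τ ^ e / s * (τ ^ e / s) * (τ ^ e * δ j s)) := by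
        rw [Derivation.smul_apply, Derivation.leibniz_div, Derivation.leibniz_pow, h3]
        simp only [smul_eq_mul]
        field_simp
        ring
      rw [e1]
      exact neg_mem (mul_mem (mul_mem c4 c4) (dB j s (g4 s.2)))) fun i => by
    have := dy j (Fin.castAdd n i)
    rw [Fin.append_left] at this
    rw [this]
    split_ifs
    exacts [one_mem _, zero_mem _]
  have hy : ∀ l, Fin.append (fun i => f i / τ ^ (e + e)) v l ∈ C := fun l => by
    refine Fin.addCases (fun i => ?_) (fun i => ?_) l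
    · rw [Fin.append_left]; exact c5 i
    · rw [Fin.append_right]; exact c3 (g6 i)
  suffices h : ∀ q, aeval (Fin.append (fun i => f i / τ ^ (e + e)) v) q / τ ∈ C → q = 0 by
    obtain ⟨P, p1, p2, p3⟩ := exists_pl hF c1 τ0 (c3 g5) hy h
    exact ⟨_, P, fun a h => p1 a (c3 (g3 h)), fun a h => p1 a (cB (g4 h)), p2, P.ord_t,
      fun l => p1 _ (hy l), p3⟩
  refine van {q | aeval (Fin.append (fun i => f i / τ ^ (e + e)) v) q / τ ∈ C}
    (fun q hq j => ?_) fun q hq => ?_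
  · have := dC j _ hq
    rw [← pow_one τ, Derivation.smul_apply, dv, smul_eq_mul, ← mul_div_assoc, pow_one,
      ← smul_eq_mul, ← Derivation.smul_apply, der_aeval _ _ (dy j)] at this
    exact this
  · obtain ⟨x, hx, k⟩ := c2 hq
    have k1 := gr_mul hτ k
    rw [mul_div_cancel₀ _ τ0] at k1
    have k2 := gr_uniq k1 (gr_aeval (v := Fin.append 0 v') (fun l => by
      refine Fin.addCases (fun i => ?_) (fun i => ?_) l
      · rw [Fin.append_left, Fin.append_left, Pi.zero_apply, ← zero_div (R.t ^ (e + e))]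
        exact gr_div (hf i) (pow_mem hτ (e + e)) (pow_ne_zero _ t0)
      · rw [Fin.append_right, Fin.append_right]; exact hv i) q)
    have k3 : (aeval (Fin.append 0 v') : MvPolynomial (Fin (c + n)) ℂ →ₐ[ℂ] F) =
        (aeval v').comp (killCompl (Fin.natAdd_injective n c)) := algHom_ext fun l => by
      refine Fin.addCases (fun i => ?_) (fun i => ?_) l
      · rw [aeval_X, Fin.append_left, AlgHom.comp_apply, killCompl, aeval_X, dif_neg, map_zero]
        · rfl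
        · rintro ⟨j, hj⟩
          have := congrArg Fin.val hj
          simp at this
          omega
      · rw [aeval_X, Fin.append_right, AlgHom.comp_apply, ← rename_X, killCompl_rename_app, aeval_X]
    rw [k3, AlgHom.comp_apply] at k2
    refine algebraicIndependent_iff.1 ha.ind _ ?_
    rw [← rd_aeval ha.mem, ← k2]
    exact (rd_eq_zero (mx_t hx).mem).2 (mx_t hx)

end Vale.Agent.P283R.H.Bk
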