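import Vale.Agent.P283R.H.L5
import Vale.Agent.P287D.Api.All
import Vale.Agent.P287D.On.Lf

/-!
# P283R, block H: extraction of a divisor of negative discrepancy near its centre
-/

open Set

noncomputable section

namespace Vale.Agent.P283R.H

open Vale.Agent.P287D

variable {K : Type} [Field K] [Algebra ℂ K] {n : ℕ} {Λ Λ' Ω D β Γ : BD K} {S E : Pl K}

/-- the members which do not contain the centre of `E` -/
def gE (Λ : BD K) (E : Pl K) : Set (BD K) := {G | Rep Λ G ∧ G E = 0}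

theorem gE_rep : ∀ G ∈ gE Λ E, Rep Λ G := fun _ h => h.1

theorem th_gE {R : Pl K} : (∀ G ∈ gE Λ E, G R = 0) ↔ CLe Λ E R :=
  ⟨fun h G r p => (r.1 E).lt_of_ne fun e => p.ne' (h G ⟨r, e.symm⟩), fun h _ g => h.zero g.1 g.2⟩

/-- finitely many places off the centre of `E` are dominated -/
theorem cov_fin (hK : FF K (n + 1)) (hΛ : Smp Λ) {T : Set (Pl K)} (hT : T.Finite) (b : Pl K → ℝ) :
    ∃ G, Cn Λ (gE Λ E) G ∧ ∀ P ∈ T, ¬ CLe Λ E P → b P ≤ G P := by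
  obtain ⟨t, k, k0, hk⟩ := dom_fin (G := fun i : gE Λ E => (i : BD K)) (fun i => i.2.1.1)
    (T := {P | P ∈ T ∧ ¬ CLe Λ E P}) (hT.subset fun _ h => h.1) (fun P hP => by
      obtain ⟨G, a, b, c⟩ := not_cle hP.2
      exact ⟨⟨G, a, c⟩, b.ne'⟩) b
  exact ⟨_, cn_cmb hK hΛ gE_rep t k0, fun P a b => hk P ⟨a, b⟩⟩

theorem Cn.zero {G : BD K} (h : Cn Λ (gE Λ E) G) {R : Pl K} (c : CLe Λ E R) : G R = 0 :=
  h.th R (th_gE.2 c)

/-- the model of a rational adjoint class over the base -/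
theorem rel_mod (hK : FF K (n + 1)) (hΩ : Smp Ω) (bΩ : Big Ω) {s : Finset K} (ds : Dsc Ω (mx s))
    (bs : Big (mx s)) (qΓ : CarQ Γ) (dΓ : Dsc Ω Γ) (k : Klt (n + 1) Γ) (b : Bdy n Ω Γ) {m : ℕ}
    (hm : n + 2 < m) (bD : Big (Γ + (m : ℝ) • mx s)) :
    ∃ N, ZD (Γ + (m : ℝ) • mx s) N ∧ Dsc (Γ + (m : ℝ) • mx s - N) (mx s) := by
  have qD : CarQ (Γ + (m : ℝ) • mx s) := qΓ.add (CarZ.carQ (CarZ.nsmul (mx_mem_CarZ s) m))
  have dD := dΓ.add (ds.smul (m : ℝ))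
  have m0 : (0 : ℝ) < m - (n + 2) := by
    have : ((n + 2 : ℕ) : ℝ) < m := Nat.cast_lt.2 hm
    push_cast at this
    linarith
  have m1 : (0 : ℝ) < m := Nat.cast_pos.2 (by omega)
  obtain ⟨⟨H, Z⟩, -⟩ := Api.zarh n K hK Unit Ω (fun _ => Γ + (m : ℝ) • mx s) (fun _ => Γ) hΩ bΩ
    fun _ => ⟨qD, dD, qΓ.car, k, b, by simpa using (nef_mx s).smul m1.le,
      by simpa using bs.smul m1⟩
  have e : lc (fun _ : Unit => Γ + (m : ℝ) • mx s) (fun _ => ((1 : ℚ) : ℝ)) =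
      Γ + (m : ℝ) • mx s := by simp [lc]
  have ef : (fun _ : Unit => ((1 : ℚ) : ℝ)) ∈ Ef fun _ : Unit => Γ + (m : ℝ) • mx s :=
    ⟨fun _ => by simp, by rw [e]; exact bD.eff⟩
  have z := Z.zd ef
  have q := Z.carQ (q := fun _ => 1) ef
  rw [e] at z q
  have u : Γ + (m : ℝ) • mx s - Γ - (n + 2 : ℝ) • mx s = ((m : ℝ) - (n + 2)) • mx s := by module
  refine ⟨_, z, Api.rel n K hK Ω _ Γ _ s hΩ bΩ qD dD qΓ.car k b ds (u ▸ (nef_mx s).smul m0.le)
    (u ▸ bs.smul m0) z ?_⟩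
  have := qD.sub q
  rwa [mob, sub_sub_cancel] at this

open Classical in
theorem extr_mx (hK : FF K (n + 1)) {s : Finset K} (hb : Big (mx s)) (hΓ : Dsc (mx s) Γ)
    (hq : ∀ P, ∃ q : ℚ, Γ P = q) (hS : On n (mx s) S) (hE : ¬ On n (mx s) E)
    (hk : ∀ R, CLe (mx s) E R → -1 < dsc (n + 1) Γ R)
    (hB : ∀ R, CLe (mx s) E R → On n (mx s) R → dsc (n + 1) Γ R ≤ 0) (h0 : dsc (n + 1) Γ E < 0) :
    ∃ (Λ' β : BD K) (c : ℝ), Smp Λ' ∧ Big Λ' ∧ Dsc Λ' (mx s) ∧ Dsc Λ' β ∧ 0 ≤ β ∧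
      Smp (c • mx s - β) ∧ β E = 1 ∧ (∀ R, On n (mx s) R → CLe (mx s) E R → β R = 0) ∧
      ∀ P, On n Λ' P → CLe (mx s) E P → P = E ∨ (β P = 0 ∧ dsc (n + 1) Γ P ≤ 0) := by
  have hΛ := smp_mx s
  have nE : ∀ R, On n (mx s) R → ¬ CLe (mx s) R E := fun R hR c =>
    hE (Api.sep n K hK _ R E hΛ hb hR c ▸ hR)
  obtain ⟨W, ε, w1, w2, ε0, w3, w4⟩ := P287D.On.cen' hK hΛ (nE S hS)
  have wE : 1 ≤ W E := by
    obtain ⟨z, hz⟩ := CarZ.int w1 E
    have := (w4 E).2 (CLe.refl _ _)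
    rw [hz] at this ⊢
    exact_mod_cast this
  have wR : ∀ R, On n (mx s) R → W R = 0 := fun R hR =>
    le_antisymm (not_lt.1 fun p => nE R hR ((w4 R).1 p)) (w2 R)
  obtain ⟨s', κ, T, h, l, tE, sκ, sB⟩ := exists_ls hK (finite_singleton E) (toFinite {Γ, mx s, W})
    (forall_mem_insert.2 ⟨hΓ.car, forall_mem_insert.2 ⟨hΛ.car, forall_eq.2 (CarZ.car w1)⟩⟩)
  have sΓ := sB Γ (.inl rfl)
  have ds := (sB (mx s) (.inr (.inl rfl))).1
  have dW := (sB W (.inr (.inr rfl))).1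
  have tE := tE E rfl
  have qd : ∀ P, ∃ q : ℚ, dsc (n + 1) Γ P = q := fun P => by
    obtain ⟨q, e⟩ := hq P
    obtain ⟨z, e'⟩ := (Api.mod.isb n K hK).2.2 P
    exact ⟨z - q, by rw [dsc, Pi.sub_apply, e, e']; push_cast; rfl⟩
  choose d hd using qd
  obtain ⟨e₀, e1, e2⟩ := P277Z.Gr.exists_pos_le_of_finite_aux
    (fun P : T.filter (CLe (mx s) E) => dsc (n + 1) Γ P + 1) fun P => by
      linarith [hk P (Finset.mem_filter.1 P.2).2]
  obtain ⟨e, e3, e4⟩ := exists_rat_btwn (lt_min e1 one_pos)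
  have e5 := e4.trans_le (min_le_left _ _)
  have e6 := e4.trans_le (min_le_right _ _)
  let c : Pl K → ℚ := fun P =>
    if P = E then 0 else if On n (mx s) P ∧ CLe (mx s) E P then -d P else 1 - e
  have c1 : ∀ P, 0 ≤ (c P : ℝ) ∧ (c P : ℝ) < 1 := fun P => by
    simp only [c]
    split_ifs with a b
    · simp
    · push_cast
      rw [← hd]
      constructor <;> linarith [hk P b.2, hB P b.2 b.1]
    · push_cast
      constructor <;> linarith
  obtain ⟨y1, y2⟩ := l.hull_sum fun P => c P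
  set Y := ∑ P ∈ T, (c P : ℝ) • h P with hY
  have qY : CarQ Y := CarQ.sum _ fun P _ => (CarZ.carQ (l.hz P)).qsmul (c P)
  have dκ : ∀ P, On n (mx s') P → dsc (n + 1) (κ + Y) P = -Y P := fun P hP => by
    rw [Pr.dsc_add, l.d0 hP, zero_sub]
  have kl : Klt (n + 1) (κ + Y) := fun Q => by
    have := l.gt (Γ := κ + Y) (Q := Q) ⟨sκ.1.sub (sκ.1.add y1), fun P a b => by
      rw [Pi.sub_apply, Pi.add_apply, y2 P a, if_neg b]; ring⟩ le_rfl one_pos fun P a _ => by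
        rw [dκ P (l.on P a), y2 P (l.on P a), if_pos a]
        linarith [(c1 P).2]
    linarith
  have bd : Bdy n (mx s') (κ + Y) := fun P hP => by
    rw [dκ P hP, y2 P hP]
    split_ifs
    exacts [neg_nonpos.2 (c1 P).1, neg_zero.le]
  set F := κ + Y - Γ with hF
  have dF : Dsc (mx s') F := (sκ.1.add y1).sub sΓ.1
  have vF : ∀ P, On n (mx s') P → F P = dsc (n + 1) Γ P + if P ∈ T then (c P : ℝ) else 0 :=
    fun P hP => by
      have := l.d0 hP
      rw [← y2 P hP]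
      simp only [hF, dsc, Pi.sub_apply, Pi.add_apply] at this ⊢
      linarith
  have d0 : ∀ P, On n (mx s') P → P ∉ T → dsc (n + 1) Γ P = 0 := fun P a b => by
    have := l.d0 a
    simp only [dsc, Pi.sub_apply, sκ.2 P a b, sΓ.2 P a b] at this ⊢
    exact this
  have F0 : ∀ P, On n (mx s') P → P ∉ T → F P = 0 := fun P a b => by
    rw [vF P a, if_neg b, d0 P a b, add_zero]
  have FE : F E = dsc (n + 1) Γ E := by simp [vF E (l.on E tE), c]
  have F1 : ∀ P, On n (mx s) P → CLe (mx s) E P → F P = 0 := fun P a b => by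
    have o := Mm.on_mono res' hK hΛ ds a
    by_cases t : P ∈ T
    · rw [vF P o, if_pos t]
      simp only [c, if_neg (show P ≠ E from fun e => hE (e ▸ a)), if_pos (And.intro a b), hd]
      push_cast
      ring
    · exact F0 P o t
  have F2 : ∀ P ∈ T, P ≠ E → ¬ On n (mx s) P → CLe (mx s) E P → 0 < F P := fun P t a b u => by
    rw [vF P (l.on P t), if_pos t]
    simp only [c, if_neg a, if_neg (show ¬ (On n (mx s) P ∧ CLe (mx s) E P) from fun e => b e.1)]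
    push_cast
    linarith [e2 ⟨P, Finset.mem_filter.2 ⟨t, u⟩⟩]
  obtain ⟨G, g1, g2⟩ := cov_fin (E := E) hK hΛ T.finite_toSet fun P => |F P|
  set a := -dsc (n + 1) Γ E with ha
  have a0 : 0 < a := neg_pos.2 h0
  obtain ⟨m₀, -, hm⟩ := (hΓ.sub g1.dsc).exists_add
  obtain ⟨m, hm'⟩ := exists_nat_gt (max (m₀ + 1 + a / ε) (n + 2))
  have m1 := (le_max_left _ _).trans_lt hm'
  have m2 : n + 2 < m := by exact_mod_cast (le_max_right _ _).trans_lt hm'
  have sX := (hm (m - 1 - a / ε) (by linarith)).add (w3.smul (div_pos a0 ε0).le)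
  have eD : κ + Y + (m : ℝ) • mx s = Γ - G + ((m : ℝ) - 1 - a / ε) • mx s +
      (a / ε) • (mx s - ε • W) + mx s + (G + a • W + F) := by
    rw [smul_sub (a / ε), smul_smul, div_mul_cancel₀ _ ε0.ne', hF]; module
  have Z0 : 0 ≤ G + a • W + F := l.hart _ (((ds.trans g1.dsc).add (dW.smul a)).add dF) fun P hP => by
    have i1 : 0 ≤ G P := g1.nn P
    have i2 : 0 ≤ a * W P := mul_nonneg a0.le (w2 P)
    simp only [Pi.add_apply, Pi.smul_apply, smul_eq_mul]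
    by_cases t : P ∈ T
    swap
    · linarith [F0 P hP t]
    by_cases u : CLe (mx s) E P
    swap
    · linarith [g2 P t u, neg_abs_le (F P)]
    by_cases v : P = E
    · subst v
      nlinarith
    by_cases o : On n (mx s) P
    · linarith [F1 P o u]
    · linarith [F2 P t v o u]
  have bD : Big (κ + Y + (m : ℝ) • mx s) := by
    rw [eD]
    exact (sX.psef.add_big hb).add_eff (.of_nonneg Z0)
  obtain ⟨N, z, dM⟩ := rel_mod hK l.smp l.big ds hb ((CarZ.carQ l.kz).add qY) (sκ.1.add y1) kl bd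
    m2 bD
  have bM := Gs.zd_big neg' hK z bD
  have onM := fun P => Gs.on_zd neg' hK Api.mod Api.sep l.smp l.big
    ((sκ.1.add y1).add (ds.smul _)) z (R := P) bM
  set M := κ + Y + (m : ℝ) • mx s - N with hM
  have N0 : ∀ R, On n (mx s) R → CLe (mx s) E R → N R = 0 := fun R o u => by
    obtain ⟨H, r, e⟩ := (sX.add hΛ).rep_at R
    have := z.fix _ (eD ▸ r.add (Rep.refl Z0)) R
    simp only [Pi.add_apply, Pi.smul_apply, smul_eq_mul, e, g1.zero u, wR R o, F1 R o u] at this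
    exact le_antisymm (by linarith) (z.nn R)
  have eN : F - N - G = M - (Γ + G + (m : ℝ) • mx s) := by rw [hM, hF]; abel
  have dX := (hΓ.add g1.dsc).add ((Dsc.refl hΛ).smul (m : ℝ))
  obtain ⟨c₀, -, hc⟩ := dX.neg.exists_add
  have sc : Smp (F - N - G + c₀ • mx s) := by
    rw [eN, sub_eq_add_neg, add_assoc]
    exact z.smp.add (hc c₀ le_rfl)
  have ng : F - N - G ≤ 0 := neg'.neg n K hK _ _ c₀ hΛ hb (eN ▸ sub_mem z.smp.car dX.car) sc.nef
    fun P hP => by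
      have i1 : 0 ≤ G P := g1.nn P
      have i2 : 0 ≤ N P := z.nn P
      simp only [Pi.sub_apply]
      by_cases u : CLe (mx s) E P
      · linarith [F1 P hP u]
      by_cases t : P ∈ T
      · linarith [g2 P t u, le_abs_self (F P)]
      · linarith [F0 P (Mm.on_mono res' hK hΛ ds hP) t]
  have dβ : Dsc M (F - N - G) := eN ▸ (Dsc.refl z.smp).sub (dM.trans dX)
  have key : ∀ P, On n M P → CLe (mx s) E P → P ≠ E → F P = 0 ∧ dsc (n + 1) Γ P ≤ 0 :=
    fun P o u v => by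
      obtain ⟨o1, o2⟩ := onM P o
      by_cases t : P ∈ T
      swap
      · exact ⟨F0 P o1 t, (d0 P o1 t).le⟩
      by_cases w : On n (mx s) P
      · exact ⟨F1 P w u, hB P u w⟩
      have := ng P
      simp only [Pi.sub_apply, Pi.zero_apply, o2, g1.zero u] at this
      linarith [F2 P t v w u]
  have NE : N E = 0 := by
    refine (onM E (by_contra fun o => ?_)).2
    have := (neg'.nn n K hK M _ z.smp bM (dβ.add ((dM.trans g1.dsc).smul 2)) fun P hP => by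
      obtain ⟨o1, o2⟩ := onM P hP
      have i1 : 0 ≤ G P := g1.nn P
      simp only [Pi.add_apply, Pi.sub_apply, Pi.smul_apply, smul_eq_mul, o2]
      by_cases u : CLe (mx s) E P
      · linarith [(key P hP u fun e => o (e ▸ hP)).1]
      by_cases t : P ∈ T
      · linarith [g2 P t u, neg_abs_le (F P)]
      · linarith [F0 P o1 t]).1 E
    simp only [Pi.add_apply, Pi.sub_apply, Pi.smul_apply, smul_eq_mul, Pi.zero_apply, FE,
      g1.zero (CLe.refl _ E)] at this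
    linarith [z.nn E, show (0 : BD K) E = 0 from rfl]
  have vβ : ∀ P, CLe (mx s) E P → ((-a⁻¹) • (F - N - G)) P = a⁻¹ * (N P - F P) := fun P u => by
    simp only [Pi.sub_apply, Pi.smul_apply, smul_eq_mul, g1.zero u]; ring
  refine ⟨M, (-a⁻¹) • (F - N - G), a⁻¹ * c₀, z.smp, bM, dM, dβ.smul _,
    smul_nonneg_of_nonpos_of_nonpos (neg_nonpos.2 (inv_pos.2 a0).le) ng, ?_, ?_, fun R o u => ?_,
    fun P o u => or_iff_not_imp_left.2 fun v => ⟨?_, (key P o u v).2⟩⟩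
  · have := sc.smul (inv_pos.2 a0).le
    rwa [smul_add, smul_smul, add_comm, ← neg_neg a⁻¹, neg_smul (-a⁻¹), ← sub_eq_add_neg,
      neg_neg] at this
  · rw [vβ E (CLe.refl _ _), NE, FE, zero_sub, ← ha, inv_mul_cancel₀ a0.ne']
  · rw [vβ R u, N0 R o u, F1 R o u, sub_self, mul_zero]
  · rw [vβ P u, (onM P o).2, (key P o u v).1, sub_self, mul_zero]

/-- **extraction** -/
theorem extr (hK : FF K (n + 1)) (hΛ : Smp Λ) (hb : Big Λ) (hΓ : Dsc Λ Γ)
    (hq : ∀ P, ∃ q : ℚ, Γ P = q) (hS : On n Λ S) (hE : ¬ On n Λ E)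
    (hk : ∀ R, CLe Λ E R → -1 < dsc (n + 1) Γ R)
    (hB : ∀ R, CLe Λ E R → On n Λ R → dsc (n + 1) Γ R ≤ 0) (h0 : dsc (n + 1) Γ E < 0) :
    ∃ (Λ' β : BD K) (c : ℝ), Smp Λ' ∧ Big Λ' ∧ Dsc Λ' Λ ∧ Dsc Λ' β ∧ 0 ≤ β ∧
      Smp (c • Λ - β) ∧ β E = 1 ∧ (∀ R, On n Λ R → CLe Λ E R → β R = 0) ∧
      ∀ P, On n Λ' P → CLe Λ E P → P = E ∨ (β P = 0 ∧ dsc (n + 1) Γ P ≤ 0) := by
  obtain ⟨s, -, hs⟩ := hΛ.exists_ampOn
  have o := fun P => Mm.on_amp (P := P) res' hK hs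
  obtain ⟨Λ', β, c, a1, a2, a3, a4, a5, a6, a7, a8, a9⟩ := extr_mx hK (hs.big_iff.1 hb)
    (hs.dsc_iff.1 hΓ) hq ((o S).1 hS) (mt (o E).2 hE) (fun R u => hk R (hs.cle_iff.2 u))
    (fun R u v => hB R (hs.cle_iff.2 u) ((o R).2 v)) h0
  obtain ⟨c₀, -, hc⟩ := (hs.dsc.smul (-c)).exists_add
  refine ⟨Λ', β, c₀, a1, a2, a3.trans hs.dsc', a4, a5, ?_, a7,
    fun R u v => a8 R ((o R).1 u) (hs.cle_iff.1 v), fun P u v => a9 P u (hs.cle_iff.1 v)⟩
  have := a6.add (hc c₀ le_rfl)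
  rwa [show c • mx s - β + (-c • mx s + c₀ • Λ) = c₀ • Λ - β by module] at this

end Vale.Agent.P283R.H
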