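import Vale.Agent.P283R.H.Upq
import Vale.Agent.P283R.H.Adk
import Vale.Agent.P287D.Api.All

/-!
# P283R, block H: the back step
-/

open Set
open Vale.Agent.P297Z

noncomputable section

namespace Vale.Agent.P283R.H

open Vale.Agent.P287D Vale.Agent.P283M

theorem fol_of (ree : REE) (gau : GAU) (adk : ADK) : FOL := by
  classical
  intro N c K L _ _ _ _ T u ρ Φ E y' y M ψ ψ₀ ci hy ly lψ ψ0
  have hK : FF K (N + c + 1) := ci.ff
  obtain ⟨-, tr, ⟨P, on, cl, ng⟩, all⟩ :=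
    ree (N + c) N c K L T u ρ Φ E (fun _ => 1) y ci rfl (fun _ => one_pos) hy
  obtain ⟨ι, r⟩ := ((all P on (tr P cl)).resolve_left fun k => ng.ne k.1).2
  obtain ⟨ind, g⟩ := adk (N + c) N c K L T ρ Φ _ y' y M ψ ψ₀ P ι rfl hK (fun _ => one_pos) r ly lψ ψ0
  let Γ : BD K := fun R => cn K (N + c + 1) R + 1 - ldk Φ y' M ψ R
  have hΓ : ∀ R, 1 + dsc (N + c + 1) Γ R = ldk Φ y' M ψ R := fun R => by
    simp only [dsc, Pi.sub_apply, Γ]; ring
  obtain ⟨-, g2, g3, g4⟩ := g Γ hΓ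
  refine ⟨ind, fun R hR => ?_⟩
  obtain ⟨Q, l, t0, ek⟩ := (gau N c L P.κ ι y _ ci.ff' (Api.ffs.rsd _ K hK P) r.ind).2.2 R
  have e0 : 0 < Q.ord (ι R.t) := l.e_pos
  have eo : ∀ b, Q.ord (ι b) = Q.ord (ι R.t) * R.ord b := l.ord
  obtain ⟨e, he⟩ := Int.eq_ofNat_of_zero_le e0.le
  refine ⟨e, by omega, fun W k => ?_⟩
  obtain ⟨a, ha⟩ := (insert 0 (W.image fun s : T => k - ⌊res P (dv (s : K)) Q⌋)).exists_le
  obtain ⟨v, ⟨-, fol⟩, av, cle, rep, dsv⟩ := a2 _ K hK P Q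
    (insert Γ ((fun s : T => dv (s : K)) '' W)) (inf u) a ((W.finite_toSet.image _).insert _)
    (insert_subset g2.car (forall_mem_image.2 fun s _ => dv_mem_Car _)) (Kl.inf_smp u).car
  have oP : Ov u P := fun x hx => r.mem ⟨x, ci.sub x hx⟩
  have i0 : res P (inf u) Q = 0 := by
    rw [Kl.res_inf hK oP, Kl.inf_zero]
    intro x hx
    obtain ⟨w, hw, rfl⟩ := Finset.mem_image.1 hx
    rw [show P.rd w = ι (ρ ⟨w, ci.sub w hw⟩) from (r.rd ⟨w, ci.sub w hw⟩).symm]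
    exact (l _).1 (hR _)
  have ov : Ov u v := Kl.inf_zero.1 (le_antisymm
    (i0 ▸ (rep _ (Rep.refl (Kl.inf_nn u)) (Kl.inf_zero.2 oP)).1) (Kl.inf_nn u v))
  have o0 : ∀ s : T, ρ s ≠ 0 → P.ord s = 0 := fun s h =>
    Adk.ord0 (r.mem s) (r.rd s ▸ (map_ne_zero ι).2 h)
  have o1 : ∀ s : T, (s : K) ≠ 0 → ρ s = 0 → 0 < P.ord s := fun s s0 h =>
    ((Bm.rd_zero_iff P (r.mem s)).1 (by rw [← r.rd, h, map_zero])).resolve_left s0
  have rs : ∀ s : T, ρ s ≠ 0 → res P (dv (s : K)) Q = e * R.ord (ρ s) := fun s h => by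
    rw [res_dv0 hK P (o0 s h), ← r.rd, dv_apply, eo, he]
    simp
  refine ⟨v, fun s => ⟨ci.ov v ov s s.2, ?_⟩, ?_, fun s hs s0 => ?_⟩
  · rw [Bm.rd_zero_iff v (ci.ov v ov s s.2), Bm.rd_zero_iff R (hR s)]
    by_cases s0 : (s : K) = 0
    · simp [show s = 0 from Subtype.ext s0]
    obtain ⟨ε, ε0, nn⟩ := upq_eps hK fun P h => ci.ov P h s s.2
    have rp : Rep (inf u) (ε • dv (s : K) + inf u) :=
      ⟨nn, by simpa using Submodule.smul_mem _ ε (dv_mem_Prn (s : K))⟩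
    have ap : ∀ w, Ov u w → (0 < (ε • dv (s : K) + inf u) w ↔ 0 < w.ord s) := fun w h => by
      simp [Kl.inf_zero.2 h, dv_apply, ε0]
    by_cases z : ρ s = 0
    · exact iff_of_true (.inr ((ap v ov).1 (cle _ rp ((ap P oP).2 (o1 s s0 z))))) (.inl z)
    obtain ⟨k1, k2⟩ := rep _ rp (by simp [Kl.inf_zero.2 oP, dv_apply, o0 s z])
    have rr : res P (ε • dv (s : K) + inf u) Q = ε * (e * R.ord (ρ s)) := by
      rw [Aj.res_add hK P (Submodule.smul_mem _ _ (dv_mem_Car _)) (Kl.inf_smp u).car,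
        Aj.res_smul hK P _ (dv_mem_Car _), Pi.add_apply, i0, add_zero, Pi.smul_apply, rs s z,
        smul_eq_mul]
    rw [rr] at k1 k2
    have e1 : (0 : ℝ) < e := by exact_mod_cast (show 0 < e by omega)
    rw [or_iff_right s0, or_iff_right z, ← ap v ov]
    refine ⟨fun h => ?_, fun h => k2 (mul_pos ε0 (mul_pos e1 (Int.cast_pos.2 h)))⟩
    exact Int.cast_pos.1 ((mul_pos_iff_of_pos_left e1).1
      ((mul_pos_iff_of_pos_left ε0).1 (h.trans_le k1)))
  · have := dsv Γ (mem_insert _ _)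
    rw [g3, g4, eo ψ₀] at this
    simp only [t0, Int.cast_zero, Finset.sum_const_zero] at this
    rw [← hΓ, ← this, ld]
    rw [he] at ek ⊢
    push_cast at ek ⊢
    rw [mul_sub, ← ek]
    ring
  · have k1 := fol _ (.inr ⟨s, hs, rfl⟩)
    simp only [dv_apply] at k1
    refine ⟨fun h => ?_, fun h => ?_⟩
    · rw [rs s h, o0 s h] at k1
      exact_mod_cast (by simpa using k1 : (v.ord s : ℝ) = e * R.ord (ρ s))
    · have a0 := ha 0 (Finset.mem_insert_self _ _)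
      have a1 := ha _ (Finset.mem_insert_of_mem (Finset.mem_image_of_mem _ hs))
      have a2 : v.ord P.t ≤ P.ord s * v.ord P.t :=
        le_mul_of_one_le_left (a0.trans av) (o1 s s0 h)
      have a3 := Int.cast_le (R := ℝ).2 (a1.trans (av.trans a2))
      have a4 := Int.floor_le (res P (dv (s : K)) Q)
      push_cast at a3
      exact Int.cast_le (R := ℝ).1 (by linarith)

end Vale.Agent.P283R.H
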