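import Vale.Agent.P283R.H.Ks
import Vale.Agent.P283R.H.Chr
import Vale.Agent.P283R.Tp.Ram
import Vale.Agent.P283R.Tp.A0r

/-!
# P283R, block H: log discrepancies on a variety and on its quotient
-/

set_option linter.all false

open Set
open Vale.Agent.P285N.Brep (jac Fr)
open Vale.Agent.P297Z

noncomputable section

namespace Vale.Agent.P283R.H.Hu

open Vale.Agent.P287D

variable {F K : Type} [Field F] [Algebra ℂ F] [Field K] [Algebra ℂ K] {N c : ℕ}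
  {A : Subgroup (F ≃ₐ[ℂ] F)}

theorem fix_pow {h : F} [Finite A] (e : Eig A h) : Fix A (h ^ Nat.card A) := fun σ hσ => by
  obtain ⟨a, ha⟩ := e σ hσ
  have k : ∀ n : ℕ, (σ ^ n) h = a ^ n • h := fun n => by
    induction n with
    | zero => simp
    | succ n ih => rw [pow_succ', AlgEquiv.mul_apply, ih, map_smul, ha, smul_smul, pow_succ]
  have o : σ ^ Nat.card A = 1 := congrArg Subtype.val (pow_card_eq_one' (x := (⟨σ, hσ⟩ : A)))
  have k1 := k (Nat.card A)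
  rw [o, AlgEquiv.one_apply] at k1
  obtain ⟨n, hn⟩ : ∃ n, Nat.card A = n + 1 := ⟨_, (Nat.succ_pred_eq_of_pos Nat.card_pos).symm⟩
  rw [map_pow, ha, smul_pow]
  rw [hn] at k1 ⊢
  rw [pow_succ h, ← mul_smul_comm, ← k1]

theorem eig_mul {a b : F} (ha : Eig A a) (hb : Eig A b) : Eig A (a * b) := fun σ hσ => by
  obtain ⟨x, hx⟩ := ha σ hσ
  obtain ⟨y, hy⟩ := hb σ hσ
  exact ⟨x * y, by rw [map_mul, hx, hy, smul_mul_smul_comm]⟩

theorem eig_pow {a : F} (ha : Eig A a) (n : ℕ) : Eig A (a ^ n) := fun σ hσ => by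
  obtain ⟨x, hx⟩ := ha σ hσ
  exact ⟨x ^ n, by rw [map_pow, hx, smul_pow]⟩

theorem jac_row {D : Fin N → Derivation ℂ F F} {w w' a : Fin N → F}
    (h : ∀ i j, D i (w' j) = a j * D i (w j)) : jac D w' = (∏ j, a j) * jac D w := by
  rw [jac, jac, ← Matrix.det_mul_row]
  exact congrArg _ (Matrix.ext h)

theorem ne_of_jac {D : Fin N → Derivation ℂ F F} {w : Fin N → F} (h : jac D w ≠ 0) (j : Fin N) :
    w j ≠ 0 := fun e => h (Matrix.det_eq_zero_of_column_eq_zero j fun i => by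
  rw [Matrix.of_apply, e, map_zero])

theorem eig_jac {z w : Fin N → F} {D : Fin N → Derivation ℂ F F} (h : Fr z D)
    (hz : ∀ l, Eig A (z l)) (hw : ∀ l, Eig A (w l)) : Eig A (jac D w) := fun σ hσ => by
  choose α hα using fun l => hz l σ hσ
  choose β hβ using fun l => hw l σ hσ
  have e := P285N.Brep.chain ℂ F N z D h σ w
  have a0 : ∏ l, α l ≠ 0 := Finset.prod_ne_zero_iff.2 fun l _ k =>
    ne_of_jac (Cb.jac_self h ▸ one_ne_zero : jac D z ≠ 0) l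
      (σ.injective (by rw [hα, k, zero_smul, map_zero]))
  simp only [hα, hβ] at e
  rw [A0r.jac_diag h, jac_row (w := w) (a := fun l => algebraMap ℂ F (β l)) fun i j => by
    rw [Derivation.map_smul, Algebra.smul_def], ← map_prod, ← map_prod] at e
  refine ⟨(∏ l, β l) / ∏ l, α l, ?_⟩
  rw [Algebra.smul_def, map_div₀, div_mul_eq_mul_div, e,
    mul_div_cancel_right₀ _ ((map_ne_zero _).2 a0)]

theorem ord_nat (P : Pl F) (m : ℕ) : P.ord (m : F) = 0 := by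
  rw [← map_natCast (algebraMap ℂ F)]
  exact Pl.ord_unit _ (P.con _) (by rw [← map_inv₀]; exact P.con _)

/-- the identity on the ambient variety -/
theorem up_id (ι : K →ₐ[ℂ] F) (hK : FF K (c + N)) {z : Fin (c + N) → F}
    {D : Fin (c + N) → Derivation ℂ F F} (fr : Fr z D) {f : Fin c → F} {w : Fin N → F}
    {Φ : Fin c → K} {y : Fin N → K} {ψ : K} {m Q : ℕ} (hm : 0 < m) (hQ : 0 < Q) {g : F}
    (g0 : g ≠ 0) (J0 : jac D (Fin.append f w) ≠ 0) (hΦ : ∀ i, ι (Φ i) = f i ^ m)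
    (hy : ∀ j, ι (y j) = w j) (hψ : ι ψ = (jac D (Fin.append f w) ^ Q * g) ^ m) {P : Pl F}
    {E : Pl K} (l : Lies ι.toRingHom P E) :
    P.ord (ι E.t) * ldk Φ y (Q * m) ψ E = ld z Q ((∏ i, f i) ^ Q * g) P := by
  obtain ⟨m, rfl⟩ : ∃ n, m = n + 1 := ⟨_, (Nat.succ_pred_eq_of_pos hm).symm⟩
  have f0 : ∀ i, f i ≠ 0 := fun i => by simpa using ne_of_jac J0 (Fin.castAdd N i)
  have a0 : ∀ i, ((m + 1 : ℕ) : F) * f i ^ m ≠ 0 := fun i =>
    mul_ne_zero (by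
      rw [← map_natCast (algebraMap ℂ F)]
      exact (map_ne_zero _).2 (Nat.cast_ne_zero.2 hm.ne')) (pow_ne_zero _ (f0 i))
  have p0 := Finset.prod_ne_zero_iff.2 fun i (_ : i ∈ Finset.univ) => a0 i
  have e1 : jac D (fun l => ι (Fin.append Φ y l)) =
      (∏ i, ((m + 1 : ℕ) : F) * f i ^ m) * jac D (Fin.append f w) := by
    rw [jac_row (w := Fin.append f w)
      (a := Fin.append (fun i => ((m + 1 : ℕ) : F) * f i ^ m) fun _ => 1) fun i j => ?_]
    · simp [Fin.prod_univ_add]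
    · refine Fin.addCases (fun j => ?_) (fun j => ?_) j
      · simp only [Fin.append_left, hΦ, Derivation.leibniz_pow, Nat.add_sub_cancel, smul_eq_mul,
          nsmul_eq_mul, mul_assoc]
      · simp only [Fin.append_right, hy, one_mul]
  have j0 : jac D (fun l => ι (Fin.append Φ y l)) ≠ 0 := e1 ▸ mul_ne_zero p0 J0
  have ind : AlgebraicIndependent ℂ (Fin.append Φ y) :=
    .of_comp ι ((Cb.jac_ne_iff fr _).1 j0)
  have e2 : kap (fun l => ι (Fin.append Φ y l)) P + 1 =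
      P.ord (ι E.t) * (kap (Fin.append Φ y) E + 1) := Cb.hur hK (Cb.ff_of fr) ι.commutes l ind
  have e3 : kp (Sum.elim Φ y) = kap (Fin.append Φ y) := by
    rw [kp_eq hK _ finSumFinEquiv.symm]
    congr 1
    funext l
    refine Fin.addCases (fun j => ?_) (fun j => ?_) l <;> simp
  have o : ∀ a, (P.ord (ι a) : ℝ) = P.ord (ι E.t) * E.ord a := fun a => by
    exact_mod_cast l.ord a
  have e4 := o ψ
  have e5 : ∀ i, (P.ord (ι E.t) : ℝ) * E.ord (Φ i) = (m + 1) * P.ord (f i) := fun i => by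
    rw [← o, hΦ, Pl.ord_pow]
    push_cast
    rfl
  rw [Cb.kap_chg fr j0, Pi.add_apply, dv, e1, Pl.ord_mul _ p0 J0, A0r.ord_prod P _ _ a0] at e2
  simp only [fun i => Pl.ord_mul P.toPlace (left_ne_zero_of_mul (a0 i))
    (right_ne_zero_of_mul (a0 i)), Pl.ord_pow, ord_nat, zero_add] at e2
  rw [hψ, Pl.ord_pow, Pl.ord_mul _ (pow_ne_zero _ J0) g0, Pl.ord_pow] at e4
  rw [ldk, ld, e3, Pl.ord_mul _ (pow_ne_zero _ (Finset.prod_ne_zero_iff.2 fun i _ => f0 i)) g0,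
    Pl.ord_pow, A0r.ord_prod P _ _ f0, mul_sub, mul_sub, Finset.mul_sum, ← mul_div_assoc, ← e4,
    add_comm 1, ← e2]
  simp only [e5]
  have Q0 : (Q : ℝ) ≠ 0 := Nat.cast_ne_zero.2 hQ.ne'
  have m0 : (m : ℝ) + 1 ≠ 0 := by positivity
  push_cast
  rw [← Finset.mul_sum, ← Finset.mul_sum]
  field_simp
  ring

/-- the identity on the subvariety -/
theorem dn_id (ι : K →ₐ[ℂ] F) (hK : FF K N) {v y w : Fin N → F} {D : Fin N → Derivation ℂ F F}
    (fr : Fr v D) (y0 : jac D y ≠ 0) (w0 : jac D w ≠ 0) {r g : F} (r0 : r ≠ 0) (g0 : g ≠ 0)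
    {x : Fin N → K} {ψ : K} {m Q : ℕ} (hm : 0 < m) (hQ : 0 < Q) (hx : ∀ j, ι (x j) = w j)
    (hψ : ι ψ = ((r * jac D w) ^ Q * g) ^ m) {P : Pl F} {E : Pl K} (l : Lies ι.toRingHom P E) :
    P.ord (ι E.t) * ld x (Q * m) ψ E = ld y Q ((jac D y * r) ^ Q * g) P := by
  obtain rfl : w = fun j => ι (x j) := funext fun j => (hx j).symm
  have e2 : kap (fun l => ι (x l)) P + 1 = P.ord (ι E.t) * (kap x E + 1) :=
    Cb.hur hK (Cb.ff_of fr) ι.commutes l (.of_comp ι ((Cb.jac_ne_iff fr _).1 w0))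
  have e4 : (P.ord (ι ψ) : ℝ) = P.ord (ι E.t) * E.ord ψ := by exact_mod_cast l.ord ψ
  rw [Cb.kap_chg fr w0, Pi.add_apply, dv] at e2
  rw [hψ, Pl.ord_pow, Pl.ord_mul _ (pow_ne_zero _ (mul_ne_zero r0 w0)) g0, Pl.ord_pow,
    Pl.ord_mul _ r0 w0] at e4
  rw [ld, ld, Cb.kap_chg fr y0, Pi.add_apply, dv,
    Pl.ord_mul _ (pow_ne_zero _ (mul_ne_zero y0 r0)) g0, Pl.ord_pow, Pl.ord_mul _ y0 r0, mul_sub,
    ← mul_div_assoc, ← e4, add_comm 1, ← e2]
  have Q0 : (Q : ℝ) ≠ 0 := Nat.cast_ne_zero.2 hQ.ne'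
  have m0 : (m : ℝ) ≠ 0 := Nat.cast_ne_zero.2 hm.ne'
  push_cast
  field_simp
  ring

/-- a transcendence basis of regular functions -/
theorem ex_tb {T : Type} [CommRing T] [Algebra ℂ T] (ρ : T →ₐ[ℂ] F) (hF : FF F N)
    (fr : ∀ b : F, ∃ s t : T, b = ρ s / ρ t) :
    ∃ u : Fin N → T, AlgebraicIndependent ℂ fun i => ρ (u i) := by
  have : Algebra.IsAlgebraic (Algebra.adjoin ℂ (range ρ)) F := ⟨fun b => by
    obtain ⟨s, t, rfl⟩ := fr b
    rw [div_eq_mul_inv]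
    exact (isAlgebraic_algebraMap (⟨ρ s, Algebra.subset_adjoin ⟨s, rfl⟩⟩ :
      Algebra.adjoin ℂ (range ρ))).mul (isAlgebraic_algebraMap (⟨ρ t, Algebra.subset_adjoin
        ⟨t, rfl⟩⟩ : Algebra.adjoin ℂ (range ρ))).inv⟩
  obtain ⟨b, hb, h⟩ := exists_isTranscendenceBasis_subset (R := ℂ) (range ρ)
  have e : Cardinal.mk b = Cardinal.mk (Fin N) := by
    rw [h.cardinalMk_eq_trdeg, hF.trdeg, Cardinal.mk_fin]
  obtain ⟨e⟩ := Cardinal.eq.1 e
  choose u hu using fun i => hb (e.symm i).2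
  exact ⟨u, by simp only [hu]; exact h.1.comp _ e.symm.injective⟩

end Vale.Agent.P283R.H.Hu
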