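import Vale.Agent.P283R.H.Ks
import Vale.Agent.P283R.Tp.Eig
import Vale.Agent.P283R.Tp.Kap

/-!
# P283R, block H: `HUP` in codimension zero
-/

open Set
open Vale.Agent.P285N.Brep (jac Fr)
open Vale.Agent.P297Z

noncomputable section

namespace Vale.Agent.P283R.H

open Vale.Agent.P287D

/-- all codimensions from the positive ones -/
theorem hup_of (h1 : HUP1) : HUP := by
  intro F F' _ _ _ _ S S' π p N c M f z D' h y j A' A g Q ε hp hy j0 rs kj cor ez ef eg fy g0 hQ hε
    ε1 hq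
  rcases Nat.eq_zero_or_pos c with rfl | hc
  swap
  · exact h1 F F' S S' π p N c M f z D' h y j A' A g Q ε hc hp hy j0 rs kj cor ez ef eg fy g0 hQ hε
      ε1 hq
  obtain rfl : M = N := by have := h.dim; omega
  have inj : Function.Injective π := (injective_iff_map_eq_zero π).2 fun a ha => by
    obtain ⟨s, hs, k⟩ := h.gen a ha
    rw [range_eq_empty, Ideal.span_empty, Ideal.mem_bot] at k
    exact (mul_eq_zero.1 k).resolve_left fun e => hs (by rw [e, map_zero]; exact p.zero_mem)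
  have := Eg.frac h.aff
  have := Eg.frac h.aff'
  let e : F' ≃ₐ[ℂ] F := IsFractionRing.algEquivOfAlgEquiv (AlgEquiv.ofBijective π ⟨inj, h.sur⟩)
  have he : ∀ a : S', e a = π a := fun a => IsFractionRing.algEquivOfAlgEquiv_algebraMap _ a
  have s := Semi.of_alg e
  intro P' hP k k0 dv'
  have ho : ∀ a, (s.pl P').ord (e a) = P'.ord a := s.ord_pl P'
  have cen : Cen S p (s.pl P') := fun a => by
    obtain ⟨a, rfl⟩ := h.sur a
    rw [← he]
    refine ⟨s.mem_pl.2 (hP a).1, (hP a).2.trans ?_⟩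
    have e1 : s.κ P' (P'.rd a) = (s.pl P').rd (e a) := s.κ_rd P' a
    rw [← e1, map_eq_zero]
  have dv : Dv A (s.pl P') k := fun a a0 ha => by
    obtain ⟨a, rfl⟩ := e.surjective a
    rw [ho]
    refine dv' a (fun x => a0 (by rw [x, map_zero])) fun σ' hσ' => e.injective ?_
    obtain ⟨σ, hσ, o⟩ := cor.down σ' hσ'
    have o' : ∀ b : S', e (σ' b) = σ (e b) := fun b => by
      rw [he, o b ⟨_, cor.stab' σ' hσ' b b.2⟩ rfl, ← he]
    obtain ⟨u, v, rfl⟩ := h.aff'.fr a
    rw [← ha σ hσ, map_div₀, map_div₀, map_div₀, map_div₀, o', o']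
  refine (hq p le_rfl _ cen k k0 dv).trans_eq ?_
  obtain ⟨u, D, a, b, fr, b0, ej, rfl⟩ := rs
  obtain ⟨D₁, fy'⟩ := hy
  obtain ⟨k1, k2, -⟩ := kap' M F _ y D D₁ fr fy'
  have b1 : (π b : F) ≠ 0 := fun x => b0 (Subtype.ext x)
  have a1 : (π a : F) ≠ 0 := fun x => j0 (by rw [x, mul_zero, zero_div])
  have g1 : (π g : F) ≠ 0 := fun x => g0 (Subtype.ext x)
  have a2 : (a : F') ≠ 0 := fun x => a1 (by rw [← he, x, map_zero])
  have b2 : (b : F') ≠ 0 := fun x => b1 (by rw [← he, x, map_zero])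
  have eu : (fun l => ((Fin.append f u (Fin.cast h.dim l) : S') : F')) = fun l => (u l : F') := by
    funext l
    rw [Fin.append_left_nil _ _ rfl]
    rfl
  rw [eu] at ej
  have k3 : kap (fun i => (π (u i) : F)) (s.pl P') = kap z P' + P'.ord (a / b : F') := by
    have e1 := s.pb_pl (kap fun l => (u l : F')) P'
    rw [s.pb_kap, Cb.kap_chg h.fr (ej ▸ div_ne_zero a2 b2), Pi.add_apply, dv_apply, ej] at e1
    rw [← e1]
    exact congrArg (kap · (s.pl P')) (funext fun i => (he _).symm)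
  have k4 : (s.pl P').ord (jac D y * π a / π b) = (s.pl P').ord (jac D y) + P'.ord (a / b : F') := by
    rw [mul_div_assoc, Pl.ord_mul _ k1 (div_ne_zero a1 b1), ← ho, map_div₀, he, he]
  have q0 : (Q : ℝ) ≠ 0 := Nat.cast_ne_zero.2 hQ.ne'
  simp only [ld, Finset.univ_eq_empty, Finset.prod_empty, one_pow, one_mul]
  rw [k2, k3, Pl.ord_mul _ (pow_ne_zero _ j0) g1, Pl.ord_pow, k4, ← he, ho]
  push_cast
  field_simp
  ring

end Vale.Agent.P283R.H
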