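import Vale.Agent.P283R.H.L5
import Vale.Agent.P283R.H.Qz

/-!
# P283R, block H: the extraction of one exceptional place of negative discrepancy
-/

open Set

noncomputable section

namespace Vale.Agent.P283R.H

open Vale.Agent.P287D

variable {K : Type} [Field K] [Algebra ℂ K] {n : ℕ} {Λ M Ω D β Γ : BD K} {E : Pl K}
  {g : Set (BD K)} {s : Finset K}

/-- the system `s` descends to the model of a real adjoint class -/
theorem relr (hK : FF K (n + 1)) (bΩ : Big Ω) (d : Dsc Ω D) (ds : Dsc Ω (mx s)) (c : Γ ∈ Car K)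
    (k : Klt (n + 1) Γ) (b : Bdy n Ω Γ) (h1 : Nef (D - (n + 2 : ℝ) • mx s - Γ))
    (h2 : Big (D - (n + 2 : ℝ) • mx s - Γ)) (p : Psef D) : ∃ N, ZD D N ∧ Dsc (D - N) (mx s) := by
  have hΩ := d.smp
  obtain ⟨ε, E, e, E0, cE, kE, nE⟩ := Pr.kod_klt hK c k h1 h2 hΩ.car
  have e2 := half_pos e
  obtain ⟨U, hU, m⟩ := Mm.exists_sp hΩ bΩ (toFinite {D, Ω})
    (forall_mem_insert.2 ⟨d, forall_eq.2 (.refl hΩ)⟩)
  have m1 : (ε / 2) • Ω ∈ U := U.smul_mem _ (m (.inr rfl))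
  obtain ⟨ι, _, _, F, f1, f2⟩ := hU.nb (sub_mem (m (.inl rfl)) m1) m1 (hΩ.ampOn_smul e2)
  obtain ⟨H, N, z1, z2, z3⟩ := Mm.zct Api.ma hK hΩ bΩ ds (F := F) fun i => by
    have x : F i - (n + 2 : ℝ) • mx s - (Γ + E) = (ε / 2) • Ω +
      (D - (n + 2 : ℝ) • mx s - Γ - E - ε • Ω + (F i - (D - (ε / 2) • Ω)) ) := by module
    have y := nE.add (f1 i).2.2.nef
    exact ⟨(f1 i).1, (hU.des (f1 i).2.1).sub (ds.smul _), Γ + E, add_mem c cE, kE, fun P hP => by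
      rw [Pr.dsc_add]; exact sub_nonpos.2 ((b P hP).trans (E0 P)),
      x ▸ (hΩ.smul e2.le).nef.add y, x ▸ (bΩ.smul e2).add_nef y⟩
  obtain ⟨η, η0, q⟩ := f2 0 (zero_mem _)
  obtain ⟨a, a1, a2⟩ := q 0 (by simpa using η0.le)
  rw [sub_add_cancel, zero_smul, add_zero] at a2
  have a3 := z2 a (fun i => (a1 i).le) (a2 ▸ p)
  exact ⟨N a, a2 ▸ z1.zd a a3, a2 ▸ z3 a a3 (Mm.op_ne a1)⟩

/-- a bound on the primes of any model, up to a combination of members -/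
theorem cov (hK : FF K (n + 1)) (hΛ : Smp Λ) (hg : ∀ G ∈ g, Rep Λ G) {p : Pl K → Prop}
    {φ : Pl K → ℝ} (hf : {R | p R ∧ φ R ≠ 0}.Finite)
    (h : ∀ R, p R → (∀ G ∈ g, G R = 0) → φ R ≤ 0) : ∃ G, Cn Λ g G ∧ ∀ R, p R → φ R ≤ G R := by
  obtain ⟨t, k, k0, hk⟩ := dom_fin (G := fun i : g => (i : BD K)) (fun i => (hg i i.2).1)
    (T := {R | p R ∧ 0 < φ R}) (hf.subset fun R hR => ⟨hR.1, hR.2.ne'⟩)
    (fun R hR => by
      by_contra z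
      push Not at z
      exact (h R hR.1 fun G a => z ⟨G, a⟩).not_gt hR.2) φ
  have c := cn_cmb hK hΛ hg t k0
  exact ⟨_, c, fun R hR => (le_or_gt (φ R) 0).elim (fun a => a.trans (c.nn R))
    fun a => hk R ⟨hR, a⟩⟩

theorem fin_car (hK : FF K (n + 1)) (hM : Smp M) (bM : Big M) (h : β ∈ Car K) :
    {R | On n M R ∧ β R ≠ 0}.Finite := Pr.fin_on res' hK hM bM ((Api.mod.isb n K hK).1 β h)

/-- local Hartogs -/
theorem hart_loc (hK : FF K (n + 1)) (bM : Big M) (d : Dsc M Λ) (hΛ : Smp Λ)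
    (hg : ∀ G ∈ g, Rep Λ G) (hβ : Dsc M β)
    (h : ∀ R, On n M R → (∀ G ∈ g, G R = 0) → 0 ≤ β R) : ∃ G, Cn Λ g G ∧ 0 ≤ β + G := by
  obtain ⟨G, c, k⟩ := cov (φ := -β) hK hΛ hg (fin_car hK d.smp bM (neg_mem hβ.car))
    fun R a b => neg_nonpos.2 (h R a b)
  exact ⟨G, c, Pr.hart res' hK d.smp bM (hβ.add (d.trans c.dsc)) fun R a =>
    neg_le_iff_add_nonneg'.1 (k R a)⟩

/-- the log smooth pair with the coefficient of `E` dropped -/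
theorem drop (hK : FF K (n + 1)) (c : Γ ∈ Car K) (k : Klt (n + 1) Γ) (hΛ : Λ ∈ Car K) (E : Pl K) :
    ∃ Ω Γ₁ : BD K, Big Ω ∧ Dsc Ω Γ₁ ∧ Dsc Ω Λ ∧ Klt (n + 1) Γ₁ ∧ Bdy n Ω Γ₁ ∧
      Γ₁ E - Γ E = dsc (n + 1) Γ E ∧
      ∀ P, On n Ω P → P ≠ E → Γ₁ P - Γ P = max (dsc (n + 1) Γ P) 0 := by
  classical
  obtain ⟨t, κ, T, h, l, hT, sκ, w⟩ := exists_ls hK (finite_singleton E) (toFinite {Γ, Λ})
    (forall_mem_insert.2 ⟨c, forall_eq.2 hΛ⟩)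
  have s' := w Γ (.inl rfl)
  let f : Pl K → ℝ := fun P => if P = E then 0 else max 0 (-dsc (n + 1) Γ P)
  obtain ⟨a, b⟩ := l.hull_sum f
  have f0 : ∀ P, 0 ≤ f P := fun P => by
    simp only [f]
    split_ifs
    exacts [le_rfl, le_max_left _ _]
  have f1 : ∀ P, f P < 1 := fun P => by
    simp only [f]
    split_ifs with o
    exacts [one_pos, max_lt one_pos (by linarith [k P])]
  set Z := ∑ P ∈ T, f P • h P
  have e : ∀ P, On n (mx t) P → dsc (n + 1) (κ + Z) P = -if P ∈ T then f P else 0 := fun P p => by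
    rw [Pr.dsc_add, l.d0 p, b P p, zero_sub]
  have y : ∀ P, (κ + Z) P - Γ P = dsc (n + 1) Γ P - dsc (n + 1) (κ + Z) P := fun P => by
    simp only [dsc, Pi.sub_apply]; ring
  refine ⟨mx t, κ + Z, l.big, sκ.1.add a, (w Λ (.inr rfl)).1, fun Q => ?_, fun P p => ?_, ?_,
    fun P p o => ?_⟩
  · have := l.gt (Γ := κ + Z) (Q := Q) (a := 0) (by
      rw [sub_add_cancel_left]
      exact ⟨a.neg, fun P p q => by rw [Pi.neg_apply, b P p, if_neg q, neg_zero]⟩) le_rfl one_pos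
      fun P p _ => by
        rw [e P (l.on P p), if_pos p]
        linarith [f1 P]
    linarith
  · rw [e P p, neg_nonpos]
    split_ifs
    exacts [f0 P, le_rfl]
  · rw [y, e E (l.on E (hT E rfl))]
    simp [f]
  · rw [y, e P p]
    split_ifs with q
    · simp only [f, if_neg o, sub_neg_eq_add]
      rw [← max_add_add_left, add_zero, add_neg_cancel]
    · have : dsc (n + 1) Γ P = 0 := by
        rw [dsc, Pi.sub_apply, ← l.term.hull.2 P p, sκ.2 P p q, s'.2 P p q, sub_self]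
      simp [this]

/-- **extraction** -/
theorem extr' (hK : FF K (n + 1)) (hb : Big Λ) (hg : ∀ G ∈ g, Rep Λ G) (hΓ : Dsc Λ Γ)
    (k : ∀ R, (∀ G ∈ g, G R = 0) → -1 < dsc (n + 1) Γ R)
    (hB : ∀ R, On n Λ R → (∀ G ∈ g, G R = 0) → dsc (n + 1) Γ R ≤ 0)
    (hE : ∀ G ∈ g, G E = 0) (nE : ¬ On n Λ E) (dE : dsc (n + 1) Γ E < 0) :
    ∃ (M B H : BD K) (c : ℝ), Big M ∧ Dsc M Λ ∧ Dsc M B ∧ B E = 1 ∧ Cn Λ g H ∧ 0 ≤ B + H ∧
      Smp (c • Λ - B) ∧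
      ∀ R, On n M R → (∀ G ∈ g, G R = 0) → R ≠ E → B R = 0 ∧ dsc (n + 1) Γ R ≤ 0 := by
  have hΛ := hΓ.smp
  obtain ⟨t, k₀, k0, k1⟩ := klt_sub hK hΓ.car hΛ.car (G := fun i : g => (i : BD K))
    (fun i => hg i i.2) fun Q h => k Q fun G a => h ⟨G, a⟩
  have u := cn_cmb hK hΛ hg t k0
  generalize k₀ • ∑ i ∈ t, (i : BD K) = H₀ at k1 u
  have d := hΓ.sub u.dsc
  have e : ∀ P, (∀ G ∈ g, G P = 0) → dsc (n + 1) (Γ - H₀) P = dsc (n + 1) Γ P := fun P h => by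
    simp only [dsc, Pi.sub_apply, u.th P h, sub_zero]
  generalize Γ - H₀ = Γ' at k1 d e
  obtain ⟨Ω, Γ₁, bΩ, d1, dΛ, k2, b1, e1, e2⟩ := drop hK d.car k1 hΛ.car E
  obtain ⟨s, -, hs⟩ := hΛ.exists_ampOn
  obtain ⟨c₁, c1, s1⟩ := (hs.1.smul (n + 2 : ℝ)).neg.exists_add
  obtain ⟨ε, e0, b2⟩ := hb.opn d1.car
  have i0 := inv_pos.2 e0
  set D := Γ₁ + (c₁ + ε⁻¹) • Λ with hD
  have x : D - (n + 2 : ℝ) • mx s - Γ₁ = ε⁻¹ • Λ + (-((n + 2 : ℝ) • mx s) + c₁ • Λ) := by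
    rw [hD]; module
  have bD : Big D := by
    have := ((b2 ε (abs_of_pos e0).le).smul i0).add_smp (hΛ.smul c1.le)
    rw [smul_add, inv_smul_smul₀ e0.ne'] at this
    exact this.mono (le_of_eq (by rw [hD]; module))
  have dD : Dsc Ω D := d1.add (dΛ.smul _)
  obtain ⟨N, z, dM⟩ := relr hK bΩ dD (dΛ.trans hs.1) d1.car k2 b1
    (x ▸ ((hΛ.smul i0.le).add (s1 c₁ le_rfl)).nef) (x ▸ (hb.smul i0).add_smp (s1 c₁ le_rfl))
    bD.psef
  have bM := Gs.zd_big Api.neg hK z bD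
  have mΛ : Dsc (D - N) Λ := dM.trans (hs.dsc_iff.1 (.refl hΛ))
  set X := Γ₁ - Γ' - N with hX
  have xX : X = D - N - Γ' - (c₁ + ε⁻¹) • Λ := by rw [hX, hD]; module
  have dX : Dsc (D - N) X := xX ▸ ((Dsc.refl z.smp).sub (mΛ.trans d)).sub (mΛ.smul _)
  obtain ⟨c₂, c2, s2⟩ := d.neg.exists_add
  have sX : Smp (X + (c₁ + ε⁻¹ + c₂) • Λ) := by
    have := z.smp.add (s2 c₂ le_rfl)
    rwa [show D - N + (-Γ' + c₂ • Λ) = X + (c₁ + ε⁻¹ + c₂) • Λ by rw [xX]; module] at this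
  obtain ⟨H, v, hH⟩ := cov (φ := X) hK hΛ hg (fin_car hK hΛ hb dX.car) fun R a b => by
    have := e2 R (Pr.on_mono res' hK hΛ d1.smp dΛ a) fun w => nE (w ▸ a)
    rw [e R b, max_eq_right (hB R a b)] at this
    rw [hX, Pi.sub_apply, Pi.sub_apply, this, zero_sub, neg_nonpos]
    exact z.nn R
  obtain ⟨c₃, -, s3⟩ := v.dsc.neg.exists_add
  have le : X - H ≤ 0 := Pr.neg res' hK (c := c₁ + ε⁻¹ + c₂ + c₃) hΛ hb (sub_mem dX.car v.dsc.car)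
    (by
      have := (sX.add (s3 c₃ le_rfl)).nef
      rwa [show X + (c₁ + ε⁻¹ + c₂) • Λ + (-H + c₃ • Λ) = X - H + (c₁ + ε⁻¹ + c₂ + c₃) • Λ by
        module] at this) fun R a => sub_nonpos.2 (hH R a)
  have xE : 0 < -X E := by
    have : (0 : ℝ) ≤ N E := z.nn E
    rw [hX, Pi.sub_apply, Pi.sub_apply, e1, e E hE]
    linarith
  have i1 := (inv_pos.2 xE).le
  refine ⟨D - N, (-X E)⁻¹ • -X, (-X E)⁻¹ • H, (-X E)⁻¹ * (c₁ + ε⁻¹ + c₂), bM, mΛ, dX.neg.smul _,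
    inv_mul_cancel₀ xE.ne', ⟨v.dsc.smul _, smul_nonneg i1 v.nn, fun P h => ?_, fun S Q h => ?_⟩,
    ?_, ?_, fun R a b w => ?_⟩
  · rw [Pi.smul_apply, v.th P h, smul_zero]
  · rw [res_smul hK S _ v.dsc.car, Pi.smul_apply, v.res S Q h, smul_zero]
  · rw [← smul_add, neg_add_eq_sub]
    exact smul_nonneg i1 (sub_nonneg.2 (sub_nonpos.1 le))
  · rw [mul_smul, ← smul_sub, sub_neg_eq_add, add_comm]
    exact sX.smul i1
  · obtain ⟨o, n0⟩ := Gs.on_zd Api.neg hK Api.mod Api.sep d1.smp bΩ dD z bM a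
    have q : X R = max (dsc (n + 1) Γ R) 0 := by
      rw [hX, Pi.sub_apply, Pi.sub_apply, e2 R o w, e R b, n0, sub_zero]
    have l : X R ≤ 0 := by simpa [v.th R b] using le R
    rw [q] at l
    exact ⟨by rw [Pi.smul_apply, Pi.neg_apply, q, le_antisymm l (le_max_right _ _), neg_zero,
      smul_zero], (le_max_left _ _).trans l⟩

end Vale.Agent.P283R.H
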