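import Vale.Agent.P287D.Cb.Row

/-!
# P283R, block H: derivations along a map onto a field, the residue of a form
-/

open Set
open Vale.Agent.P285N.Brep (jac Fr)

noncomputable section

namespace Vale.Agent.P283R.H.Re

open Vale.Agent.P287D

variable {A E : Type} [CommRing A] [Algebra ℂ A] [Field E] [Algebra ℂ E] {ρ : A →+* E}
  {d : A → E} {M N c : ℕ}

/-- `d` is a derivation along `ρ` over the constants -/
structure Da {B : Type} [CommRing B] (ρ : A →+* B) (d : A → B) : Prop where
  add : ∀ x y, d (x + y) = d x + d y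
  mul : ∀ x y, d (x * y) = ρ x * d y + ρ y * d x
  con : ∀ c, d (algebraMap ℂ A c) = 0

theorem Da.map {B C : Type} [CommRing B] [CommRing C] {ρ : A →+* B} {d : A → B} (h : Da ρ d)
    (ψ : B →+* C) : Da (ψ.comp ρ) fun a => ψ (d a) :=
  ⟨fun x y => by rw [h.add, map_add], fun x y => by simp [h.mul], fun c => by simp [h.con]⟩

omit [Algebra ℂ E] in
theorem Da.comb {δ : Fin M → A → E} (h : ∀ l, Da ρ (δ l)) (v : Fin M → E) :
    Da ρ fun a => ∑ l, v l * δ l a := by
  refine ⟨fun x y => ?_, fun x y => ?_, fun c => by simp [(h _).con]⟩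
  · simp only [(h _).add, mul_add, Finset.sum_add_distrib]
  · simp only [(h _).mul, mul_add, Finset.sum_add_distrib, Finset.mul_sum, mul_left_comm]

omit [Algebra ℂ E] in
theorem Da.ker (h : Da ρ d) {T : Set A} (h1 : ∀ a ∈ T, ρ a = 0) (h2 : ∀ a ∈ T, d a = 0) {a : A}
    (ha : a ∈ Ideal.span T) : ρ a = 0 ∧ d a = 0 := by
  induction ha using Submodule.span_induction with
  | mem x hx => exact ⟨h1 x hx, h2 x hx⟩
  | zero => exact ⟨map_zero _, by simpa using h.con 0⟩
  | add x y _ _ a b => exact ⟨by rw [map_add, a.1, b.1, add_zero], by rw [h.add, a.2, b.2, add_zero]⟩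
  | smul r x _ a => exact ⟨by rw [smul_eq_mul, map_mul, a.1, mul_zero], by
      rw [smul_eq_mul, h.mul, a.1, a.2, mul_zero, zero_mul, add_zero]⟩

theorem Da.desc (h : Da ρ d) (hs : Function.Surjective ρ)
    (hc : ∀ c, ρ (algebraMap ℂ A c) = algebraMap ℂ E c) (k : ∀ a, ρ a = 0 → d a = 0) :
    ∃ e : E → E, Cb.Dr (RingHom.id E) e ∧ (∀ c, e (algebraMap ℂ E c) = 0) ∧
      ∀ a, e (ρ a) = d a := by
  choose s t using hs
  have e : ∀ a, d (s (ρ a)) = d a := fun a => by
    have := h.add (s (ρ a) - a) a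
    rwa [sub_add_cancel, k (s (ρ a) - a) (by rw [map_sub, t, sub_self]), zero_add] at this
  refine ⟨fun x => d (s x), ⟨fun x y => ?_, fun x y => ?_⟩, fun c => ?_, e⟩
  · rw [← h.add, ← e (s x + s y), map_add, t, t]
  · have := e (s x * s y)
    rw [map_mul, t, t, h.mul, t, t] at this
    exact this
  · exact hc c ▸ (e _).trans (h.con c)

variable {δ : Fin M → A → E}

/-- the determinant of the derivations `δ` on the elements `w` -/
def om (δ : Fin M → A → E) (w : Fin M → A) : E := (Matrix.of fun l m => δ l (w m)).det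

theorem om_ne (h : ∀ l, Da ρ (δ l)) (hs : Function.Surjective ρ)
    (hc : ∀ c, ρ (algebraMap ℂ A c) = algebraMap ℂ E c) {z w : Fin M → A}
    (hz : ∀ l m, δ l (z m) = if l = m then 1 else 0)
    (k : ∀ a, ρ a = 0 → a ∈ Ideal.span {x | x ∈ range w ∧ ρ x = 0})
    (ha : ∀ x : E, IsAlgebraic (Algebra.adjoin ℂ (range fun m => ρ (w m))) x) : om δ w ≠ 0 := by
  intro h0
  obtain ⟨v, v0, hv⟩ := Matrix.exists_vecMul_eq_zero_iff.2 h0
  have q : ∀ m, ∑ l, v l * δ l (w m) = 0 := fun m => congrFun hv m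
  obtain ⟨e, e1, e2, e3⟩ := (Da.comb h v).desc hs hc fun a ha =>
    ((Da.comb h v).ker (fun _ x => x.2) (by rintro _ ⟨⟨m, rfl⟩, -⟩; exact q m) (k a ha)).2
  refine v0 (funext fun m => ?_)
  have := e1.kill e2 (by rintro _ ⟨m, rfl⟩; exact (e3 _).trans (q m)) (ha (ρ (z m)))
  simpa [e3, hz] using this

theorem om_chain {δ : Fin (c + N) → A → E} (h : ∀ l, Da ρ (δ l)) (hs : Function.Surjective ρ)
    (hc : ∀ c, ρ (algebraMap ℂ A c) = algebraMap ℂ E c) {f : Fin c → A} (hf : ∀ i, ρ (f i) = 0)
    (k : ∀ a, ρ a = 0 → a ∈ Ideal.span (range f)) {u : Fin N → A}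
    {D : Fin N → Derivation ℂ E E} (hD : Fr (fun i => ρ (u i)) D) (w : Fin N → A) :
    om δ (Fin.append f w) = om δ (Fin.append f u) * jac D fun i => ρ (w i) := by
  have key : ∀ a, ∃ b : Fin c → E, ∀ l,
      δ l a = ∑ i, δ l (u i) * D i (ρ a) + ∑ m, δ l (f m) * b m := fun a => by
    have := mem_span_of_iInf_ker_le_ker (L := fun m => dotProductBilin E E fun l => δ l (f m))
      (K := dotProductBilin E E fun l => δ l a - ∑ i, δ l (u i) * D i (ρ a)) fun v hv => by
        have q : ∀ m, ∑ l, v l * δ l (f m) = 0 := fun m => by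
          simpa [dotProduct, mul_comm] using (Submodule.mem_iInf _).1 hv m
        obtain ⟨e, e1, e2, e3⟩ := (Da.comb h v).desc hs hc fun a ha =>
          ((Da.comb h v).ker (by rintro _ ⟨m, rfl⟩; exact hf m)
            (by rintro _ ⟨m, rfl⟩; exact q m) (k a ha)).2
        have := Cb.expand e1 e2 hD (ρ a)
        simp only [e3, RingHom.id_apply, Finset.sum_mul] at this
        rw [Finset.sum_comm] at this
        simp only [LinearMap.mem_ker, dotProductBilin_apply_apply, dotProduct, sub_mul,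
          Finset.sum_sub_distrib, Finset.sum_mul]
        rw [sub_eq_zero]
        simpa only [mul_comm, mul_left_comm, mul_assoc] using this
    obtain ⟨b, hb⟩ := (Submodule.mem_span_range_iff_exists_fun E).1 this
    refine ⟨b, fun l => ?_⟩
    have := LinearMap.congr_fun hb (Pi.single l 1)
    simp only [LinearMap.sum_apply, LinearMap.smul_apply, dotProductBilin_apply_apply,
      dotProduct_single, mul_one, smul_eq_mul] at this
    rw [← sub_eq_iff_eq_add', ← this]
    simp only [mul_comm]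
  choose b hb using key
  have e := Matrix.det_fromBlocks_zero₂₁ (1 : Matrix (Fin c) (Fin c) E)
    (Matrix.of fun m j => b (w j) m) (Matrix.of fun i j => D i (ρ (w j)))
  rw [Matrix.det_one, one_mul, ← Matrix.det_submatrix_equiv_self finSumFinEquiv.symm] at e
  rw [om, om, jac, ← e, ← Matrix.det_mul]
  congr 1
  ext l m
  rw [Matrix.mul_apply, Fin.sum_univ_add]
  refine Fin.addCases (fun m => ?_) (fun m => ?_) m
  · simp [Matrix.one_apply]
  · simpa [add_comm] using hb (w m) l

end Vale.Agent.P283R.H.Re
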